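import Mathlib

/-!
P154, four states: polynomial inequalities on the simplex behind the weight bounds of the
invariant.  Each ordered cell is checked by nonnegativity of all coefficients.
-/

namespace Vale.Agent.P154.Q4

/-- Second central moment of four numbers. -/
noncomputable def m2 (a b c e : ℝ) : ℝ :=
  ((a - (a + b + c + e) / 4) ^ 2 + (b - (a + b + c + e) / 4) ^ 2
    + (c - (a + b + c + e) / 4) ^ 2 + (e - (a + b + c + e) / 4) ^ 2) / 4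

/-- Third central moment of four numbers. -/
noncomputable def m3 (a b c e : ℝ) : ℝ :=
  ((a - (a + b + c + e) / 4) ^ 3 + (b - (a + b + c + e) / 4) ^ 3
    + (c - (a + b + c + e) / 4) ^ 3 + (e - (a + b + c + e) / 4) ^ 3) / 4

/-- Fourth central moment of four numbers. -/
noncomputable def m4 (a b c e : ℝ) : ℝ :=
  ((a - (a + b + c + e) / 4) ^ 4 + (b - (a + b + c + e) / 4) ^ 4
    + (c - (a + b + c + e) / 4) ^ 4 + (e - (a + b + c + e) / 4) ^ 4) / 4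

/-- Homogeneous form of the weight in the bound for the chi-square functional. -/
noncomputable def gG (a b c e : ℝ) : ℝ :=
  4 / 3 * m2 a b c e * ((a + b + c + e) / 4) ^ 2 - 15 / 100 * m3 a b c e * ((a + b + c + e) / 4)
    + 30 / 100 * m2 a b c e ^ 2 - 27 / 100 * m4 a b c e

/-- Homogeneous form of one minus the loss factor. -/
noncomputable def gJ (a b c e : ℝ) : ℝ :=
  ((a + b + c + e) / 4) ^ 6
    - (1845 / 1000 * m2 a b c e * ((a + b + c + e) / 4) ^ 4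
      + 193 / 1000 * m3 a b c e * ((a + b + c + e) / 4) ^ 3
      + 1833 / 1000 * m2 a b c e ^ 2 * ((a + b + c + e) / 4) ^ 2
      - 1809 / 1000 * m4 a b c e * ((a + b + c + e) / 4) ^ 2
      + 1293 / 1000 * (m2 a b c e * m3 a b c e) * ((a + b + c + e) / 4)
      - 2216 / 1000 * m2 a b c e ^ 3 - 494 / 1000 * m3 a b c e ^ 2
      + 1113 / 1000 * (m2 a b c e * m4 a b c e))

lemma gG_cell {p q r s : ℝ} (hp : 0 ≤ p) (hq : 0 ≤ q) (hr : 0 ≤ r) (hs : 0 ≤ s) :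
    0 ≤ gG (p)
      (p + 4/3 * q)
      (p + 4/3 * q + 2 * r)
      (p + 4/3 * q + 2 * r + 4 * s) := by
  simp only [gG, m2, m3, m4]
  ring_nf
  positivity

lemma gJ_cellaaaaa {p q r s : ℝ} (hp : 0 ≤ p) (hq : 0 ≤ q) (hr : 0 ≤ r) (hs : 0 ≤ s) :
    0 ≤ gJ (1/4 * p)
      (1/4 * p + 1/3 * q)
      (1/4 * p + 1/3 * q + r)
      (13/4 * p + 10/3 * q + 3 * r + 4 * s) := by
  simp only [gJ, m2, m3, m4]
  ring_nf
  positivity

lemma gJ_cellaaaab {p q r s : ℝ} (hp : 0 ≤ p) (hq : 0 ≤ q) (hr : 0 ≤ r) (hs : 0 ≤ s) :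
    0 ≤ gJ (1/4 * p)
      (1/4 * p + 2/3 * q + 1/3 * s)
      (1/4 * p + 2/3 * q + r + 1/3 * s)
      (13/4 * p + 8/3 * q + 3 * r + 10/3 * s) := by
  simp only [gJ, m2, m3, m4]
  ring_nf
  positivity

lemma gJ_cellaaaa {p q r s : ℝ} (hp : 0 ≤ p) (hq : 0 ≤ q) (hr : 0 ≤ r) (hs : 0 ≤ s) :
    0 ≤ gJ (1/4 * p)
      (1/4 * p + 2/3 * q)
      (1/4 * p + 2/3 * q + r)
      (13/4 * p + 8/3 * q + 3 * r + 4 * s) := by
  rcases le_total q s with hle | hle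
  · convert gJ_cellaaaaa hp (show (0:ℝ) ≤ 2 * q by linarith) hr (sub_nonneg.2 hle) using 1 <;> ring_nf
  · convert gJ_cellaaaab hp (sub_nonneg.2 hle) hr (show (0:ℝ) ≤ 2 * s by linarith) using 1 <;> ring_nf

lemma gJ_cellaaaba {p q r s : ℝ} (hp : 0 ≤ p) (hq : 0 ≤ q) (hr : 0 ≤ r) (hs : 0 ≤ s) :
    0 ≤ gJ (1/4 * p + 1/4 * s)
      (1/4 * p + 2/3 * q + 1/4 * s)
      (3/4 * p + 2/3 * q + r + 1/4 * s)
      (11/4 * p + 8/3 * q + 3 * r + 13/4 * s) := by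
  simp only [gJ, m2, m3, m4]
  ring_nf
  positivity

lemma gJ_cellaaabb {p q r s : ℝ} (hp : 0 ≤ p) (hq : 0 ≤ q) (hr : 0 ≤ r) (hs : 0 ≤ s) :
    0 ≤ gJ (1/2 * p + 1/4 * r + 1/4 * s)
      (1/2 * p + 2/3 * q + 1/4 * r + 1/4 * s)
      (1/2 * p + 2/3 * q + 3/4 * r + 1/4 * s)
      (5/2 * p + 8/3 * q + 11/4 * r + 13/4 * s) := by
  simp only [gJ, m2, m3, m4]
  ring_nf
  positivity

lemma gJ_cellaaab {p q r s : ℝ} (hp : 0 ≤ p) (hq : 0 ≤ q) (hr : 0 ≤ r) (hs : 0 ≤ s) :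
    0 ≤ gJ (1/2 * p + 1/4 * s)
      (1/2 * p + 2/3 * q + 1/4 * s)
      (1/2 * p + 2/3 * q + r + 1/4 * s)
      (5/2 * p + 8/3 * q + 3 * r + 13/4 * s) := by
  rcases le_total p r with hle | hle
  · convert gJ_cellaaaba (show (0:ℝ) ≤ 2 * p by linarith) hq (sub_nonneg.2 hle) hs using 1 <;> ring_nf
  · convert gJ_cellaaabb (sub_nonneg.2 hle) hq (show (0:ℝ) ≤ 2 * r by linarith) hs using 1 <;> ring_nf

lemma gJ_cellaaa {p q r s : ℝ} (hp : 0 ≤ p) (hq : 0 ≤ q) (hr : 0 ≤ r) (hs : 0 ≤ s) :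
    0 ≤ gJ (1/2 * p)
      (1/2 * p + 2/3 * q)
      (1/2 * p + 2/3 * q + r)
      (5/2 * p + 8/3 * q + 3 * r + 4 * s) := by
  rcases le_total p s with hle | hle
  · convert gJ_cellaaaa (show (0:ℝ) ≤ 2 * p by linarith) hq hr (sub_nonneg.2 hle) using 1 <;> ring_nf
  · convert gJ_cellaaab (sub_nonneg.2 hle) hq hr (show (0:ℝ) ≤ 2 * s by linarith) using 1 <;> ring_nf

lemma gJ_cellaaba {p q r s : ℝ} (hp : 0 ≤ p) (hq : 0 ≤ q) (hr : 0 ≤ r) (hs : 0 ≤ s) :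
    0 ≤ gJ (1/4 * p)
      (1/4 * p + 2/3 * q)
      (5/4 * p + 2/3 * q + 2 * r + s)
      (9/4 * p + 8/3 * q + 2 * r + 3 * s) := by
  simp only [gJ, m2, m3, m4]
  ring_nf
  positivity

lemma gJ_cellaabba {p q r s : ℝ} (hp : 0 ≤ p) (hq : 0 ≤ q) (hr : 0 ≤ r) (hs : 0 ≤ s) :
    0 ≤ gJ (1/4 * p + 1/4 * r)
      (1/4 * p + 2/3 * q + 1/4 * r)
      (3/4 * p + 2/3 * q + 5/4 * r + s)
      (11/4 * p + 8/3 * q + 9/4 * r + 3 * s) := by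
  simp only [gJ, m2, m3, m4]
  ring_nf
  positivity

lemma gJ_cellaabbb {p q r s : ℝ} (hp : 0 ≤ p) (hq : 0 ≤ q) (hr : 0 ≤ r) (hs : 0 ≤ s) :
    0 ≤ gJ (1/2 * p + 1/4 * r + 1/4 * s)
      (1/2 * p + 2/3 * q + 1/4 * r + 1/4 * s)
      (1/2 * p + 2/3 * q + 5/4 * r + 3/4 * s)
      (5/2 * p + 8/3 * q + 9/4 * r + 11/4 * s) := by
  simp only [gJ, m2, m3, m4]
  ring_nf
  positivity

lemma gJ_cellaabb {p q r s : ℝ} (hp : 0 ≤ p) (hq : 0 ≤ q) (hr : 0 ≤ r) (hs : 0 ≤ s) :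
    0 ≤ gJ (1/2 * p + 1/4 * r)
      (1/2 * p + 2/3 * q + 1/4 * r)
      (1/2 * p + 2/3 * q + 5/4 * r + s)
      (5/2 * p + 8/3 * q + 9/4 * r + 3 * s) := by
  rcases le_total p s with hle | hle
  · convert gJ_cellaabba (show (0:ℝ) ≤ 2 * p by linarith) hq hr (sub_nonneg.2 hle) using 1 <;> ring_nf
  · convert gJ_cellaabbb (sub_nonneg.2 hle) hq hr (show (0:ℝ) ≤ 2 * s by linarith) using 1 <;> ring_nf

lemma gJ_cellaab {p q r s : ℝ} (hp : 0 ≤ p) (hq : 0 ≤ q) (hr : 0 ≤ r) (hs : 0 ≤ s) :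
    0 ≤ gJ (1/2 * p)
      (1/2 * p + 2/3 * q)
      (1/2 * p + 2/3 * q + 2 * r + s)
      (5/2 * p + 8/3 * q + 2 * r + 3 * s) := by
  rcases le_total p r with hle | hle
  · convert gJ_cellaaba (show (0:ℝ) ≤ 2 * p by linarith) hq (sub_nonneg.2 hle) hs using 1 <;> ring_nf
  · convert gJ_cellaabb (sub_nonneg.2 hle) hq (show (0:ℝ) ≤ 2 * r by linarith) hs using 1 <;> ring_nf

lemma gJ_cellaa {p q r s : ℝ} (hp : 0 ≤ p) (hq : 0 ≤ q) (hr : 0 ≤ r) (hs : 0 ≤ s) :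
    0 ≤ gJ (1/2 * p)
      (1/2 * p + 2/3 * q)
      (1/2 * p + 2/3 * q + 2 * r)
      (5/2 * p + 8/3 * q + 2 * r + 4 * s) := by
  rcases le_total r s with hle | hle
  · convert gJ_cellaaa hp hq (show (0:ℝ) ≤ 2 * r by linarith) (sub_nonneg.2 hle) using 1 <;> ring_nf
  · convert gJ_cellaab hp hq (sub_nonneg.2 hle) (show (0:ℝ) ≤ 2 * s by linarith) using 1 <;> ring_nf

lemma gJ_cellabaa {p q r s : ℝ} (hp : 0 ≤ p) (hq : 0 ≤ q) (hr : 0 ≤ r) (hs : 0 ≤ s) :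
    0 ≤ gJ (1/4 * p)
      (1/4 * p + 4/3 * q + 1/3 * r + 2/3 * s)
      (5/4 * p + 4/3 * q + 4/3 * r + 2/3 * s)
      (9/4 * p + 4/3 * q + 7/3 * r + 8/3 * s) := by
  simp only [gJ, m2, m3, m4]
  ring_nf
  positivity

lemma gJ_cellababa {p q r s : ℝ} (hp : 0 ≤ p) (hq : 0 ≤ q) (hr : 0 ≤ r) (hs : 0 ≤ s) :
    0 ≤ gJ (1/4 * p)
      (1/4 * p + 2/3 * q + 1/3 * s)
      (5/4 * p + 5/3 * q + 2 * r + 4/3 * s)
      (9/4 * p + 5/3 * q + 2 * r + 7/3 * s) := by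
  simp only [gJ, m2, m3, m4]
  ring_nf
  positivity

lemma gJ_cellababb {p q r s : ℝ} (hp : 0 ≤ p) (hq : 0 ≤ q) (hr : 0 ≤ r) (hs : 0 ≤ s) :
    0 ≤ gJ (1/4 * p)
      (1/4 * p + 4/3 * q + 2/3 * r + 1/3 * s)
      (5/4 * p + 4/3 * q + 5/3 * r + 4/3 * s)
      (9/4 * p + 4/3 * q + 5/3 * r + 7/3 * s) := by
  simp only [gJ, m2, m3, m4]
  ring_nf
  positivity

lemma gJ_cellabab {p q r s : ℝ} (hp : 0 ≤ p) (hq : 0 ≤ q) (hr : 0 ≤ r) (hs : 0 ≤ s) :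
    0 ≤ gJ (1/4 * p)
      (1/4 * p + 4/3 * q + 1/3 * s)
      (5/4 * p + 4/3 * q + 2 * r + 4/3 * s)
      (9/4 * p + 4/3 * q + 2 * r + 7/3 * s) := by
  rcases le_total q r with hle | hle
  · convert gJ_cellababa hp (show (0:ℝ) ≤ 2 * q by linarith) (sub_nonneg.2 hle) hs using 1 <;> ring_nf
  · convert gJ_cellababb hp (sub_nonneg.2 hle) (show (0:ℝ) ≤ 2 * r by linarith) hs using 1 <;> ring_nf

lemma gJ_cellaba {p q r s : ℝ} (hp : 0 ≤ p) (hq : 0 ≤ q) (hr : 0 ≤ r) (hs : 0 ≤ s) :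
    0 ≤ gJ (1/4 * p)
      (1/4 * p + 4/3 * q + 2/3 * s)
      (5/4 * p + 4/3 * q + 2 * r + 2/3 * s)
      (9/4 * p + 4/3 * q + 2 * r + 8/3 * s) := by
  rcases le_total r s with hle | hle
  · convert gJ_cellabaa hp hq (show (0:ℝ) ≤ 2 * r by linarith) (sub_nonneg.2 hle) using 1 <;> ring_nf
  · convert gJ_cellabab hp hq (sub_nonneg.2 hle) (show (0:ℝ) ≤ 2 * s by linarith) using 1 <;> ring_nf

lemma gJ_cellabb {p q r s : ℝ} (hp : 0 ≤ p) (hq : 0 ≤ q) (hr : 0 ≤ r) (hs : 0 ≤ s) :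
    0 ≤ gJ (1/2 * p + 1/4 * r)
      (1/2 * p + 4/3 * q + 1/4 * r + 2/3 * s)
      (1/2 * p + 4/3 * q + 5/4 * r + 2/3 * s)
      (5/2 * p + 4/3 * q + 9/4 * r + 8/3 * s) := by
  simp only [gJ, m2, m3, m4]
  ring_nf
  positivity

lemma gJ_cellab {p q r s : ℝ} (hp : 0 ≤ p) (hq : 0 ≤ q) (hr : 0 ≤ r) (hs : 0 ≤ s) :
    0 ≤ gJ (1/2 * p)
      (1/2 * p + 4/3 * q + 2/3 * s)
      (1/2 * p + 4/3 * q + 2 * r + 2/3 * s)
      (5/2 * p + 4/3 * q + 2 * r + 8/3 * s) := by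
  rcases le_total p r with hle | hle
  · convert gJ_cellaba (show (0:ℝ) ≤ 2 * p by linarith) hq (sub_nonneg.2 hle) hs using 1 <;> ring_nf
  · convert gJ_cellabb (sub_nonneg.2 hle) hq (show (0:ℝ) ≤ 2 * r by linarith) hs using 1 <;> ring_nf

lemma gJ_cella {p q r s : ℝ} (hp : 0 ≤ p) (hq : 0 ≤ q) (hr : 0 ≤ r) (hs : 0 ≤ s) :
    0 ≤ gJ (1/2 * p)
      (1/2 * p + 4/3 * q)
      (1/2 * p + 4/3 * q + 2 * r)
      (5/2 * p + 4/3 * q + 2 * r + 4 * s) := by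
  rcases le_total q s with hle | hle
  · convert gJ_cellaa hp (show (0:ℝ) ≤ 2 * q by linarith) hr (sub_nonneg.2 hle) using 1 <;> ring_nf
  · convert gJ_cellab hp (sub_nonneg.2 hle) hr (show (0:ℝ) ≤ 2 * s by linarith) using 1 <;> ring_nf

lemma gJ_cellbaa {p q r s : ℝ} (hp : 0 ≤ p) (hq : 0 ≤ q) (hr : 0 ≤ r) (hs : 0 ≤ s) :
    0 ≤ gJ (1/2 * p + 1/4 * r + 1/2 * s)
      (1/2 * p + 4/3 * q + 1/4 * r + 1/2 * s)
      (3/2 * p + 4/3 * q + 5/4 * r + 1/2 * s)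
      (3/2 * p + 4/3 * q + 9/4 * r + 5/2 * s) := by
  simp only [gJ, m2, m3, m4]
  ring_nf
  positivity

lemma gJ_cellbabaa {p q r s : ℝ} (hp : 0 ≤ p) (hq : 0 ≤ q) (hr : 0 ≤ r) (hs : 0 ≤ s) :
    0 ≤ gJ (1/4 * p + 1/4 * s)
      (1/4 * p + 2/3 * q + 1/4 * s)
      (7/4 * p + 5/3 * q + 2 * r + 5/4 * s)
      (7/4 * p + 5/3 * q + 2 * r + 9/4 * s) := by
  simp only [gJ, m2, m3, m4]
  ring_nf
  positivity

lemma gJ_cellbabab {p q r s : ℝ} (hp : 0 ≤ p) (hq : 0 ≤ q) (hr : 0 ≤ r) (hs : 0 ≤ s) :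
    0 ≤ gJ (1/2 * p + 1/4 * r + 1/4 * s)
      (1/2 * p + 2/3 * q + 1/4 * r + 1/4 * s)
      (3/2 * p + 5/3 * q + 7/4 * r + 5/4 * s)
      (3/2 * p + 5/3 * q + 7/4 * r + 9/4 * s) := by
  simp only [gJ, m2, m3, m4]
  ring_nf
  positivity

lemma gJ_cellbaba {p q r s : ℝ} (hp : 0 ≤ p) (hq : 0 ≤ q) (hr : 0 ≤ r) (hs : 0 ≤ s) :
    0 ≤ gJ (1/2 * p + 1/4 * s)
      (1/2 * p + 2/3 * q + 1/4 * s)
      (3/2 * p + 5/3 * q + 2 * r + 5/4 * s)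
      (3/2 * p + 5/3 * q + 2 * r + 9/4 * s) := by
  rcases le_total p r with hle | hle
  · convert gJ_cellbabaa (show (0:ℝ) ≤ 2 * p by linarith) hq (sub_nonneg.2 hle) hs using 1 <;> ring_nf
  · convert gJ_cellbabab (sub_nonneg.2 hle) hq (show (0:ℝ) ≤ 2 * r by linarith) hs using 1 <;> ring_nf

lemma gJ_cellbabb {p q r s : ℝ} (hp : 0 ≤ p) (hq : 0 ≤ q) (hr : 0 ≤ r) (hs : 0 ≤ s) :
    0 ≤ gJ (1/2 * p + 1/4 * s)
      (1/2 * p + 4/3 * q + 2/3 * r + 1/4 * s)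
      (3/2 * p + 4/3 * q + 5/3 * r + 5/4 * s)
      (3/2 * p + 4/3 * q + 5/3 * r + 9/4 * s) := by
  simp only [gJ, m2, m3, m4]
  ring_nf
  positivity

lemma gJ_cellbab {p q r s : ℝ} (hp : 0 ≤ p) (hq : 0 ≤ q) (hr : 0 ≤ r) (hs : 0 ≤ s) :
    0 ≤ gJ (1/2 * p + 1/4 * s)
      (1/2 * p + 4/3 * q + 1/4 * s)
      (3/2 * p + 4/3 * q + 2 * r + 5/4 * s)
      (3/2 * p + 4/3 * q + 2 * r + 9/4 * s) := by
  rcases le_total q r with hle | hle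
  · convert gJ_cellbaba hp (show (0:ℝ) ≤ 2 * q by linarith) (sub_nonneg.2 hle) hs using 1 <;> ring_nf
  · convert gJ_cellbabb hp (sub_nonneg.2 hle) (show (0:ℝ) ≤ 2 * r by linarith) hs using 1 <;> ring_nf

lemma gJ_cellba {p q r s : ℝ} (hp : 0 ≤ p) (hq : 0 ≤ q) (hr : 0 ≤ r) (hs : 0 ≤ s) :
    0 ≤ gJ (1/2 * p + 1/2 * s)
      (1/2 * p + 4/3 * q + 1/2 * s)
      (3/2 * p + 4/3 * q + 2 * r + 1/2 * s)
      (3/2 * p + 4/3 * q + 2 * r + 5/2 * s) := by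
  rcases le_total r s with hle | hle
  · convert gJ_cellbaa hp hq (show (0:ℝ) ≤ 2 * r by linarith) (sub_nonneg.2 hle) using 1 <;> ring_nf
  · convert gJ_cellbab hp hq (sub_nonneg.2 hle) (show (0:ℝ) ≤ 2 * s by linarith) using 1 <;> ring_nf

lemma gJ_cellbb {p q r s : ℝ} (hp : 0 ≤ p) (hq : 0 ≤ q) (hr : 0 ≤ r) (hs : 0 ≤ s) :
    0 ≤ gJ (p + 1/2 * r + 1/2 * s)
      (p + 4/3 * q + 1/2 * r + 1/2 * s)
      (p + 4/3 * q + 3/2 * r + 1/2 * s)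
      (p + 4/3 * q + 3/2 * r + 5/2 * s) := by
  simp only [gJ, m2, m3, m4]
  ring_nf
  positivity

lemma gJ_cellb {p q r s : ℝ} (hp : 0 ≤ p) (hq : 0 ≤ q) (hr : 0 ≤ r) (hs : 0 ≤ s) :
    0 ≤ gJ (p + 1/2 * s)
      (p + 4/3 * q + 1/2 * s)
      (p + 4/3 * q + 2 * r + 1/2 * s)
      (p + 4/3 * q + 2 * r + 5/2 * s) := by
  rcases le_total p r with hle | hle
  · convert gJ_cellba (show (0:ℝ) ≤ 2 * p by linarith) hq (sub_nonneg.2 hle) hs using 1 <;> ring_nf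
  · convert gJ_cellbb (sub_nonneg.2 hle) hq (show (0:ℝ) ≤ 2 * r by linarith) hs using 1 <;> ring_nf

lemma gJ_cell {p q r s : ℝ} (hp : 0 ≤ p) (hq : 0 ≤ q) (hr : 0 ≤ r) (hs : 0 ≤ s) :
    0 ≤ gJ (p)
      (p + 4/3 * q)
      (p + 4/3 * q + 2 * r)
      (p + 4/3 * q + 2 * r + 4 * s) := by
  rcases le_total p s with hle | hle
  · convert gJ_cella (show (0:ℝ) ≤ 2 * p by linarith) hq hr (sub_nonneg.2 hle) using 1 <;> ring_nf
  · convert gJ_cellb (sub_nonneg.2 hle) hq hr (show (0:ℝ) ≤ 2 * s by linarith) using 1 <;> ring_nf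

/-- A symmetric function that is nonnegative on ordered quadruples is nonnegative. -/
lemma nonneg_of_sorted (f : ℝ → ℝ → ℝ → ℝ → ℝ)
    (h12 : ∀ a b c e, f a b c e = f b a c e) (h23 : ∀ a b c e, f a b c e = f a c b e)
    (h34 : ∀ a b c e, f a b c e = f a b e c)
    (h : ∀ a b c e, 0 ≤ a → a ≤ b → b ≤ c → c ≤ e → 0 ≤ f a b c e)
    {a b c e : ℝ} (ha : 0 ≤ a) (hb : 0 ≤ b) (hc : 0 ≤ c) (he : 0 ≤ e) : 0 ≤ f a b c e := by
  have h3 : ∀ a b c e, 0 ≤ a → 0 ≤ e → a ≤ b → b ≤ c → 0 ≤ f a b c e := by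
    intro a b c e ha he hab hbc
    rcases le_total c e with h1 | h1
    · exact h a b c e ha hab hbc h1
    rcases le_total b e with h2 | h2
    · rw [h34]; exact h a b e c ha hab h2 h1
    rcases le_total a e with h0 | h0
    · rw [h34, h23]; exact h a e b c ha h0 h2 hbc
    · rw [h34, h23, h12]; exact h e a b c he h0 hab hbc
  have h2 : ∀ a b c e, 0 ≤ a → 0 ≤ c → 0 ≤ e → a ≤ b → 0 ≤ f a b c e := by
    intro a b c e ha hc he hab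
    rcases le_total b c with h1 | h1
    · exact h3 a b c e ha he hab h1
    rcases le_total a c with h0 | h0
    · rw [h23]; exact h3 a c b e ha he h0 h1
    · rw [h23, h12]; exact h3 c a b e hc he h0 hab
  rcases le_total a b with h1 | h1
  · exact h2 a b c e ha hc he h1
  · rw [h12]; exact h2 b a c e hb hc he h1

theorem gG_nonneg {a b c e : ℝ} (ha : 0 ≤ a) (hb : 0 ≤ b) (hc : 0 ≤ c) (he : 0 ≤ e) :
    0 ≤ gG a b c e := by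
  refine nonneg_of_sorted gG ?_ ?_ ?_ (fun a b c e ha hab hbc hce => ?_) ha hb hc he
  iterate 3 (intro a b c e; simp only [gG, m2, m3, m4]; ring)
  convert gG_cell ha (show (0 : ℝ) ≤ 3 / 4 * (b - a) by linarith)
    (show (0 : ℝ) ≤ (c - b) / 2 by linarith) (show (0 : ℝ) ≤ (e - c) / 4 by linarith) using 1
  ring_nf

theorem gJ_nonneg {a b c e : ℝ} (ha : 0 ≤ a) (hb : 0 ≤ b) (hc : 0 ≤ c) (he : 0 ≤ e) :
    0 ≤ gJ a b c e := by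
  refine nonneg_of_sorted gJ ?_ ?_ ?_ (fun a b c e ha hab hbc hce => ?_) ha hb hc he
  iterate 3 (intro a b c e; simp only [gJ, m2, m3, m4]; ring)
  convert gJ_cell ha (show (0 : ℝ) ≤ 3 / 4 * (b - a) by linarith)
    (show (0 : ℝ) ≤ (c - b) / 2 by linarith) (show (0 : ℝ) ≤ (e - c) / 4 by linarith) using 1
  ring_nf

end Vale.Agent.P154.Q4
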