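import Vale.Agent.P154.Q4.Funcs
import Vale.Agent.P154.Q4.WeightCert

/-!
P154, four states: bounds for the weights of the invariant and the behaviour of the functionals
under the Potts kernel.
-/

namespace Vale.Agent.P154.Q4

open scoped BigOperators

lemma mom_eq {L : Fin 4 → ℝ} (hp : pP L ≠ 0) (k : ℕ) :
    mom k L = (∑ i, (L i - pP L) ^ k) / 4 / pP L ^ k := by
  have e : ∀ i, (L i / pP L - 1) ^ k = (L i - pP L) ^ k / pP L ^ k := fun i => by
    rw [← div_pow, sub_div, div_self hp]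
  rw [mom, Finset.sum_congr rfl fun i _ => e i, ← Finset.sum_div, div_right_comm]

/-- The weight bounds. -/
theorem weightBounds : WeightBounds := by
  intro L hL
  have hp0 : 0 ≤ pP L := div_nonneg (Finset.sum_nonneg fun i _ => hL i) (by norm_num)
  rcases hp0.eq_or_lt with hp | hp
  · simp [fG, fJ, ← hp]
  have hS : pP L = (L 0 + L 1 + L 2 + L 3) / 4 := by rw [pP, Fin.sum_univ_four]
  have e : ∀ k, mom k L = ((L 0 - pP L) ^ k + (L 1 - pP L) ^ k + (L 2 - pP L) ^ k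
      + (L 3 - pP L) ^ k) / 4 / pP L ^ k := fun k => by
    rw [mom_eq hp.ne', Fin.sum_univ_four]
  have e2 : mom 2 L = m2 (L 0) (L 1) (L 2) (L 3) / pP L ^ 2 := by rw [e, m2, ← hS]
  have e3 : mom 3 L = m3 (L 0) (L 1) (L 2) (L 3) / pP L ^ 3 := by rw [e, m3, ← hS]
  have e4 : mom 4 L = m4 (L 0) (L 1) (L 2) (L 3) / pP L ^ 4 := by rw [e, m4, ← hS]
  have hG : fG L = gG (L 0) (L 1) (L 2) (L 3) / pP L ^ 3 := by
    rw [fG, e2, e3, e4, gG, ← hS]
    field_simp
  have hJ : pP L - fJ L = gJ (L 0) (L 1) (L 2) (L 3) / pP L ^ 5 := by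
    rw [fJ, e2, e3, e4, gJ, ← hS]
    field_simp
  constructor
  · rw [hG]
    exact div_nonneg (gG_nonneg (hL 0) (hL 1) (hL 2) (hL 3)) (by positivity)
  · refine sub_nonneg.1 ?_
    rw [hJ]
    exact div_nonneg (gJ_nonneg (hL 0) (hL 1) (hL 2) (hL 3)) (by positivity)

lemma pP_mixv_eq (lam : ℝ) (L : Fin 4 → ℝ) : pP (mixv lam L) = pP L := by
  simp only [pP, mixv, Fin.sum_univ_four]
  ring

lemma mom_mixv (lam : ℝ) {L : Fin 4 → ℝ} (hp : pP L ≠ 0) (k : ℕ) :
    mom k (mixv lam L) = lam ^ k * mom k L := by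
  rw [mom, mom, pP_mixv_eq, ← mul_div_assoc, Finset.mul_sum]
  congr 1
  refine Finset.sum_congr rfl fun i _ => ?_
  rw [← mul_pow]
  congr 1
  simp only [mixv]
  field_simp
  ring

/-- The behaviour of the two functionals under the kernel. -/
theorem kernelMix : KernelMix := by
  intro lam L h0 h1 hL
  have hp0 : 0 ≤ pP L := div_nonneg (Finset.sum_nonneg fun i _ => hL i) (by norm_num)
  rcases hp0.eq_or_lt with hp | hp
  · simp [fA, fI, pP_mixv_eq, ← hp]
  have hm := mom_mixv lam hp.ne'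
  refine ⟨by rw [fA, fA, pP_mixv_eq, hm]; ring, ?_⟩
  rw [fI, fI, pP_mixv_eq, hm, hm, hm]
  set x : Fin 4 → ℝ := fun i => L i / pP L - 1 with hx
  have hx1 : ∀ i, -1 ≤ x i := fun i => by
    have := div_nonneg (hL i) hp.le
    simp only [hx]
    linarith
  have hs : x 0 + x 1 + x 2 + x 3 = 0 := by
    have hS : L 0 + L 1 + L 2 + L 3 = 4 * pP L := by
      rw [pP, Fin.sum_univ_four]; ring
    calc x 0 + x 1 + x 2 + x 3 = (L 0 + L 1 + L 2 + L 3) / pP L - 4 := by simp only [hx]; ring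
      _ = 0 := by rw [hS, mul_div_assoc, div_self hp.ne']; norm_num
  have hmom : ∀ k, mom k L = (x 0 ^ k + x 1 ^ k + x 2 ^ k + x 3 ^ k) / 4 := fun k => by
    simp only [mom, Fin.sum_univ_four, hx]
  have hA3 : mom 2 L ≤ 3 := by
    have hb : ∀ i, x i ^ 2 ≤ 3 + 2 * x i := fun i => by
      have h3 : x i ≤ 3 := by
        have := hx1 0; have := hx1 1; have := hx1 2; have := hx1 3
        fin_cases i <;> simp only [Fin.reduceFinMk, Fin.zero_eta] <;> linarith
      nlinarith [mul_nonneg (sub_nonneg.2 (hx1 i)) (sub_nonneg.2 h3)]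
    rw [hmom]
    linarith [hb 0, hb 1, hb 2, hb 3]
  have hA0 : 0 ≤ mom 2 L := by rw [hmom]; positivity
  have hgram : ∀ c, mom 2 L ^ 2 ≤ mom 4 L - 2 * c * mom 3 L + c ^ 2 * mom 2 L := fun c => by
    have h := fun i => sq_nonneg (x i ^ 2 - mom 2 L - c * x i)
    have h' := add_nonneg (add_nonneg (h 0) (h 1)) (add_nonneg (h 2) (h 3))
    have e : (x 0 ^ 2 - mom 2 L - c * x 0) ^ 2 + (x 1 ^ 2 - mom 2 L - c * x 1) ^ 2
        + ((x 2 ^ 2 - mom 2 L - c * x 2) ^ 2 + (x 3 ^ 2 - mom 2 L - c * x 3) ^ 2)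
        = 4 * (mom 4 L - 2 * c * mom 3 L + c ^ 2 * mom 2 L - mom 2 L ^ 2) := by
      rw [hmom 4, hmom 3, hmom 2]
      linear_combination 2 * c * ((x 0 ^ 2 + x 1 ^ 2 + x 2 ^ 2 + x 3 ^ 2) / 4) * hs
    linarith
  generalize mom 2 L = A, mom 3 L = T, mom 4 L = Q at *
  have hs2 : 0 ≤ 1 + lam := by linarith
  have hg := hgram (2 * (1 + lam) * A / 5)
  have hkey : 0 ≤ A ^ 2 / 5 + Q / 10 - (1 + lam) * (2 / 25) * (T * A) := by
    nlinarith [mul_le_mul_of_nonneg_left hA3 (sq_nonneg A),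
      mul_le_mul_of_nonneg_left (show (1 + lam) ^ 2 ≤ 4 by nlinarith)
        (mul_nonneg (sq_nonneg A) hA0)]
  have h := mul_nonneg (mul_nonneg hp.le (mul_nonneg (pow_nonneg h0 3) (sub_nonneg.2 h1))) hkey
  linarith

end Vale.Agent.P154.Q4
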