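import Mathlib

/-!
P154, four states: interface of the certificate for bilinear forms in symmetrised monomials.
-/

namespace Vale.Agent.P154.Q4

/-- Exponents of a monomial in four variables. -/
abbrev Expo := ℕ × ℕ × ℕ × ℕ

/-- The rearrangements of four points, in the order of `symx`. -/
def T24 : List (Fin 4 × Fin 4 × Fin 4 × Fin 4) :=
  [(0, 1, 2, 3),
  (0, 1, 3, 2),
  (0, 2, 1, 3),
  (0, 2, 3, 1),
  (0, 3, 2, 1),
  (0, 3, 1, 2),
  (1, 0, 2, 3),
  (1, 0, 3, 2),
  (1, 2, 0, 3),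
  (1, 2, 3, 0),
  (1, 3, 2, 0),
  (1, 3, 0, 2),
  (2, 1, 0, 3),
  (2, 1, 3, 0),
  (2, 0, 1, 3),
  (2, 0, 3, 1),
  (2, 3, 0, 1),
  (2, 3, 1, 0),
  (3, 1, 2, 0),
  (3, 1, 0, 2),
  (3, 2, 1, 0),
  (3, 2, 0, 1),
  (3, 0, 2, 1),
  (3, 0, 1, 2)]

/-- One rearranged monomial. -/
def monE {S : Type} [CommSemiring S] (e : Expo) (v : Fin 4 → S)
    (t : Fin 4 × Fin 4 × Fin 4 × Fin 4) : S :=
  v t.1 ^ e.1 * v t.2.1 ^ e.2.1 * v t.2.2.1 ^ e.2.2.1 * v t.2.2.2 ^ e.2.2.2

/-- Symmetrised monomial over a commutative semiring. -/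
def symL {S : Type} [CommSemiring S] (e : Expo) (v : Fin 4 → S) : S :=
  (T24.map (monE e v)).sum

/-- Pairing of two lists. -/
def dotS {S : Type} [CommSemiring S] : List S → List S → S
  | a :: p, b :: q => a * b + dotS p q
  | _, _ => 0

/-- Integer combination of a list. -/
def dotL {S : Type} [CommRing S] : List ℤ → List S → S
  | a :: p, b :: q => (a : S) * b + dotL p q
  | _, _ => 0

/-- Bilinear form in symmetrised monomials. -/
def bil {S : Type} [CommRing S] (M : List (List ℤ)) (mus : List Expo) (u w : Fin 4 → S) : S :=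
  dotS (mus.map fun e => symL e u) (M.map fun r => dotL r (mus.map fun e => symL e w))

/-- An integer point. -/
abbrev Vtx := ℕ × ℕ × ℕ × ℕ

/-- A simplicial cone given by four generators. -/
abbrev Cell := Vtx × Vtx × Vtx × Vtx

/-- Subdivision of a pair of cones: the flag tells whether the second cone is cut, along the edge
`i j`, at the point `(al * Vᵢ + be * Vⱼ) / ga`. -/
inductive CTree where
  | leaf : CTree
  | node : Bool → Fin 4 → Fin 4 → ℕ → ℕ → ℕ → CTree → CTree → CTree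

end Vale.Agent.P154.Q4
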