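import Vale.Agent.P154.Q4.RunI5

/-!
P154, four states: kernel runs of the test.
-/

namespace Vale.Agent.P154.Q4

theorem okI5u : cellOK 46 59 14 musI groupI5.1 = true := by
  decide +kernel

theorem okI5a : cellOK 46 59 14 musI
    (groupI5.2.getD 0 groupI5.1) = true := by
  decide +kernel

theorem okI5a0 : partR 134 59 14 matI musI groupI5.1
    (groupI5.2.getD 0 groupI5.1) 0 = true := by
  decide +kernel

theorem okI5a1 : partR 134 59 14 matI musI groupI5.1
    (groupI5.2.getD 0 groupI5.1) 1 = true := by
  decide +kernel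

theorem okI5a2 : partR 134 59 14 matI musI groupI5.1
    (groupI5.2.getD 0 groupI5.1) 2 = true := by
  decide +kernel

theorem okI5a3 : partR 134 59 14 matI musI groupI5.1
    (groupI5.2.getD 0 groupI5.1) 3 = true := by
  decide +kernel

theorem okI5 : GroupPos matI musI groupI5 :=
  groupPos_of_parts okI5u (List.forall_mem_cons.2
    ⟨⟨okI5a, pairPos_of_parts okI5a0 okI5a1 okI5a2 okI5a3⟩, fun _ h => absurd h List.not_mem_nil⟩)

end Vale.Agent.P154.Q4
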