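import Vale.Agent.P154.Q4.RunA2
import Vale.Agent.P154.Q4.RunI6

/-!
P154, four states: the form is nonnegative on every pair of cones of the subdivisions.
-/

namespace Vale.Agent.P154.Q4

theorem leafA : ∀ g ∈ groupsA, ∀ W ∈ g.2, ∀ σ τ : ℕ → ℝ, (∀ i, 0 ≤ σ i) → (∀ i, 0 ≤ τ i) →
    0 ≤ bil matA musA (uval g.1 σ) (uval W τ) := by
  intro g hg
  simp only [groupsA, List.mem_cons, List.not_mem_nil, or_false] at hg
  rcases hg with rfl | rfl | rfl | rfl | rfl | rfl | rfl | rfl | rfl | rfl | rfl | rfl | rfl | rfl | rfl | rfl | rfl | rfl | rfl | rfl | rfl | rfl | rfl | rfl | rfl | rfl | rfl | rfl | rfl | rfl | rfl | rfl | rfl | rfl | rfl | rfl | rfl | rfl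
  · exact bil_nonneg_of_groupTest okA0
  · exact bil_nonneg_of_groupTest okA1
  · exact bil_nonneg_of_groupTest okA2
  · exact bil_nonneg_of_groupTest okA3
  · exact bil_nonneg_of_groupTest okA4
  · exact bil_nonneg_of_groupTest okA5
  · exact bil_nonneg_of_groupTest okA6
  · exact bil_nonneg_of_groupTest okA7
  · exact bil_nonneg_of_groupTest okA8
  · exact bil_nonneg_of_groupTest okA9
  · exact bil_nonneg_of_groupTest okA10
  · exact bil_nonneg_of_groupTest okA11
  · exact bil_nonneg_of_groupTest okA12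
  · exact bil_nonneg_of_groupTest okA13
  · exact bil_nonneg_of_groupTest okA14
  · exact bil_nonneg_of_groupTest okA15
  · exact bil_nonneg_of_groupTest okA16
  · exact bil_nonneg_of_groupTest okA17
  · exact bil_nonneg_of_groupTest okA18
  · exact bil_nonneg_of_groupTest okA19
  · exact bil_nonneg_of_groupTest okA20
  · exact bil_nonneg_of_groupTest okA21
  · exact bil_nonneg_of_groupTest okA22
  · exact bil_nonneg_of_groupTest okA23
  · exact bil_nonneg_of_groupTest okA24
  · exact bil_nonneg_of_groupTest okA25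
  · exact bil_nonneg_of_groupTest okA26
  · exact bil_nonneg_of_groupTest okA27
  · exact bil_nonneg_of_groupTest okA28
  · exact bil_nonneg_of_groupTest okA29
  · exact bil_nonneg_of_groupTest okA30
  · exact bil_nonneg_of_groupTest okA31
  · exact bil_nonneg_of_groupTest okA32
  · exact bil_nonneg_of_groupTest okA33
  · exact bil_nonneg_of_groupTest okA34
  · exact bil_nonneg_of_groupTest okA35
  · exact bil_nonneg_of_groupTest okA36
  · exact bil_nonneg_of_groupTest okA37

theorem leafI : ∀ g ∈ groupsI, ∀ W ∈ g.2, ∀ σ τ : ℕ → ℝ, (∀ i, 0 ≤ σ i) → (∀ i, 0 ≤ τ i) →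
    0 ≤ bil matI musI (uval g.1 σ) (uval W τ) := by
  intro g hg
  simp only [groupsI, List.mem_cons, List.not_mem_nil, or_false] at hg
  rcases hg with rfl | rfl | rfl | rfl | rfl | rfl
  · exact okI0
  · exact okI1
  · exact okI2
  · exact okI3
  · exact okI4
  · exact okI5

end Vale.Agent.P154.Q4
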