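import Vale.Agent.P154.Q4.Check
import Vale.Agent.P154.Q4.CertData

/-!
P154, four states: the test of a cone with its partners.
-/

namespace Vale.Agent.P154.Q4

/-- The test of a cone with all its partners. -/
def groupTest (B t w n : ℕ) (M : List (List ℤ)) (mus : List Expo) (g : Cell × List Cell) : Bool :=
  cellOK t w n mus g.1 && g.2.all fun W => cellOK t w n mus W && pairTest B w n M mus g.1 W

lemma bil_nonneg_of_groupTest {B t w n : ℕ} {M : List (List ℤ)} {mus : List Expo}
    {g : Cell × List Cell} (h : groupTest B t w n M mus g = true) :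
    ∀ W ∈ g.2, ∀ σ τ : ℕ → ℝ, (∀ i, 0 ≤ σ i) → (∀ i, 0 ≤ τ i) →
      0 ≤ bil M mus (uval g.1 σ) (uval W τ) := by
  simp only [groupTest, Bool.and_eq_true, List.all_eq_true] at h
  exact fun W hW σ τ hσ hτ => bil_nonneg_of_pairTest h.1 (h.2 W hW).1 (h.2 W hW).2 hσ hτ

end Vale.Agent.P154.Q4
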