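import Vale.Agent.P154.Q4.Funcs

/-!
Symmetric countable channels with a four-valued input, their functionals, independent pairs and
powers, and mixtures over a random number of children.
-/

namespace Vale.Agent.P154.Q4

open scoped BigOperators

/-- A channel: likelihood vectors indexed by the possible observations, symmetric under
permutations of the four inputs. -/
structure Chan where
  ι : Type
  V : ι → Fin 4 → ℝ
  nonneg : ∀ y i, 0 ≤ V y i
  total : ∀ i, HasSum (fun y => V y i) 1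
  sym : ∀ π : Equiv.Perm (Fin 4), ∃ e : ι ≃ ι, ∀ y i, V (e y) i = V y (π i)

/-- A functional dominated by the total mass. -/
def Adm (F : (Fin 4 → ℝ) → ℝ) : Prop :=
  ∃ c : ℝ, ∀ L : Fin 4 → ℝ, (∀ i, 0 ≤ L i) → |F L| ≤ c * pP L

/-- Sum of a functional over a channel. -/
noncomputable def Chan.E (C : Chan) (F : (Fin 4 → ℝ) → ℝ) : ℝ := ∑' y, F (C.V y)

lemma pP_nonneg {L : Fin 4 → ℝ} (h : ∀ i, 0 ≤ L i) : 0 ≤ pP L := by
  unfold pP; exact div_nonneg (Finset.sum_nonneg fun i _ => h i) (by norm_num)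

lemma le_four_pP {L : Fin 4 → ℝ} (h : ∀ i, 0 ≤ L i) (i : Fin 4) : L i ≤ 4 * pP L := by
  have := Finset.single_le_sum (fun j _ => h j) (Finset.mem_univ i)
  unfold pP; linarith

lemma mom_bound {L : Fin 4 → ℝ} (h : ∀ i, 0 ≤ L i) (k : ℕ) : |mom k L| ≤ 3 ^ k := by
  rw [mom, abs_div, abs_of_pos (by norm_num : (0 : ℝ) < 4), div_le_iff₀ (by norm_num)]
  refine le_trans (Finset.abs_sum_le_sum_abs _ _) ?_
  refine le_trans (Finset.sum_le_card_nsmul _ _ (3 ^ k) fun i _ => ?_) ?_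
  · rw [abs_pow]
    refine pow_le_pow_left₀ (abs_nonneg _) ?_ k
    rcases (pP_nonneg h).lt_or_eq with hp | hz
    · have h4 : L i / pP L ≤ 4 := by rw [div_le_iff₀ hp]; exact le_four_pP h i
      have h0 : 0 ≤ L i / pP L := div_nonneg (h i) hp.le
      rw [abs_le]; constructor <;> linarith
    · simp [← hz]
  · simp [mul_comm]

lemma mom_mul_bound {L : Fin 4 → ℝ} (h : ∀ i, 0 ≤ L i) (j k : ℕ) :
    |mom j L * mom k L| ≤ 3 ^ (j + k) := by
  rw [abs_mul, pow_add]
  exact mul_le_mul (mom_bound h j) (mom_bound h k) (abs_nonneg _) (by positivity)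

lemma adm_of_bound {f : (Fin 4 → ℝ) → ℝ} {c : ℝ}
    (hf : ∀ L : Fin 4 → ℝ, (∀ i, 0 ≤ L i) → |f L| ≤ c) : Adm fun L => pP L * f L :=
  ⟨c, fun L h => by
    rw [abs_mul, abs_of_nonneg (pP_nonneg h), mul_comm c]
    exact mul_le_mul_of_nonneg_left (hf L h) (pP_nonneg h)⟩

lemma adm_pP : Adm pP := ⟨1, fun L h => by rw [abs_of_nonneg (pP_nonneg h), one_mul]⟩

lemma adm_fA : Adm fA := adm_of_bound fun _ h => mom_bound h 2

lemma adm_fA2 : Adm fA2 := adm_of_bound (c := 3 ^ 4) fun _ h => by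
  rw [sq]; exact mom_mul_bound h 2 2

lemma adm_fI : Adm fI := adm_of_bound (c := 100) fun L h => by
  have := abs_le.mp (mom_bound h 3); have := abs_le.mp (mom_bound h 4)
  have := abs_le.mp (mom_mul_bound h 2 2); have := abs_le.mp (mom_mul_bound h 3 2)
  rw [← sq] at *
  rw [abs_le]; constructor <;> norm_num at * <;> linarith

lemma adm_fG : Adm fG := adm_of_bound (c := 100) fun L h => by
  have := abs_le.mp (mom_bound h 2); have := abs_le.mp (mom_bound h 3)
  have := abs_le.mp (mom_bound h 4); have := abs_le.mp (mom_mul_bound h 2 2)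
  rw [← sq] at *
  rw [abs_le]; constructor <;> norm_num at * <;> linarith

lemma adm_fJ : Adm fJ := adm_of_bound (c := 10000) fun L h => by
  have := abs_le.mp (mom_bound h 2); have := abs_le.mp (mom_bound h 3)
  have := abs_le.mp (mom_bound h 4); have := abs_le.mp (mom_mul_bound h 2 2)
  have := abs_le.mp (mom_mul_bound h 2 3); have := abs_le.mp (mom_mul_bound h 2 4)
  have h3 := abs_le.mp (mom_mul_bound h 3 3)
  have h6 : |mom 2 L ^ 3| ≤ 3 ^ 6 := by
    rw [abs_pow, show (3 : ℝ) ^ 6 = (3 ^ 2) ^ 3 by norm_num]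
    exact pow_le_pow_left₀ (abs_nonneg _) (mom_bound h 2) 3
  have := abs_le.mp h6
  rw [← sq] at *
  rw [abs_le]; constructor <;> norm_num at * <;> linarith

lemma pP_smul (c : ℝ) (L : Fin 4 → ℝ) : pP (fun i => c * L i) = c * pP L := by
  simp [pP, ← Finset.mul_sum, mul_div_assoc]

lemma mom_smul {c : ℝ} (hc : c ≠ 0) (k : ℕ) (L : Fin 4 → ℝ) :
    mom k (fun i => c * L i) = mom k L := by
  simp only [mom, pP_smul]
  congr 1
  refine Finset.sum_congr rfl fun i _ => ?_
  rw [mul_div_mul_left _ _ hc]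

lemma fA_smul (c : ℝ) (L : Fin 4 → ℝ) : fA (fun i => c * L i) = c * fA L := by
  rcases eq_or_ne c 0 with rfl | hc
  · simp [fA, pP]
  · simp only [fA, pP_smul, mom_smul hc, mul_assoc]

lemma fI_smul (c : ℝ) (L : Fin 4 → ℝ) : fI (fun i => c * L i) = c * fI L := by
  rcases eq_or_ne c 0 with rfl | hc
  · simp [fI, pP]
  · simp only [fI, pP_smul, mom_smul hc, mul_assoc]

lemma fA_nonneg {L : Fin 4 → ℝ} (h : ∀ i, 0 ≤ L i) : 0 ≤ fA L := by
  unfold fA mom
  exact mul_nonneg (pP_nonneg h) (div_nonneg (Finset.sum_nonneg fun i _ => sq_nonneg _)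
    (by norm_num))

lemma Chan.hasSum_pP (C : Chan) : HasSum (fun y => pP (C.V y)) 1 := by
  have := (hasSum_sum fun i (_ : i ∈ (Finset.univ : Finset (Fin 4))) => C.total i).div_const 4
  simpa [pP] using this

lemma Chan.E_pP (C : Chan) : C.E pP = 1 := C.hasSum_pP.tsum_eq

lemma Chan.summable {F : (Fin 4 → ℝ) → ℝ} (C : Chan) (hF : Adm F) :
    Summable fun y => F (C.V y) := by
  obtain ⟨c, hc⟩ := hF
  refine Summable.of_norm_bounded (C.hasSum_pP.summable.mul_left c) fun y => ?_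
  exact hc _ (C.nonneg y)

lemma Chan.hasSum_E {F : (Fin 4 → ℝ) → ℝ} (C : Chan) (hF : Adm F) :
    HasSum (fun y => F (C.V y)) (C.E F) :=
  (C.summable hF).hasSum

lemma Chan.E_nonneg (C : Chan) {F : (Fin 4 → ℝ) → ℝ}
    (h : ∀ L : Fin 4 → ℝ, (∀ i, 0 ≤ L i) → 0 ≤ F L) : 0 ≤ C.E F :=
  tsum_nonneg fun y => h _ (C.nonneg y)

lemma Chan.E_mono (C : Chan) {F G : (Fin 4 → ℝ) → ℝ} (hF : Adm F) (hG : Adm G)
    (h : ∀ L : Fin 4 → ℝ, (∀ i, 0 ≤ L i) → F L ≤ G L) : C.E F ≤ C.E G :=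
  hasSum_le (fun y => h _ (C.nonneg y)) (C.hasSum_E hF) (C.hasSum_E hG)

lemma Chan.sq_le_E_fA2 (C : Chan) : C.E fA ^ 2 ≤ C.E fA2 := by
  set a := C.E fA with ha
  have h1 : HasSum (fun y => 2 * a * fA (C.V y) - a ^ 2 * pP (C.V y)) (2 * a * a - a ^ 2 * 1) :=
    ((C.hasSum_E adm_fA).mul_left (2 * a)).sub (C.hasSum_pP.mul_left (a ^ 2))
  have := hasSum_le (fun y => ?_) h1 (C.hasSum_E adm_fA2)
  · nlinarith
  · have hp := pP_nonneg (C.nonneg y)
    simp only [fA, fA2]
    nlinarith [mul_nonneg hp (sq_nonneg (mom 2 (C.V y) - a))]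

lemma pP_perm (L : Fin 4 → ℝ) (π : Equiv.Perm (Fin 4)) : pP (fun i => L (π i)) = pP L := by
  simp only [pP, Equiv.sum_comp π L]

lemma pP_mixv (lam : ℝ) (L : Fin 4 → ℝ) : pP (mixv lam L) = pP L := by
  simp only [mixv, pP, Fin.sum_univ_four]; ring

/-- Pass every observation through the Potts kernel. -/
noncomputable def Chan.mix (C : Chan) (lam : ℝ) (h0 : 0 ≤ lam) (h1 : lam ≤ 1) : Chan where
  ι := C.ι
  V y := mixv lam (C.V y)
  nonneg y i := by
    have := C.nonneg y i; have := pP_nonneg (C.nonneg y); have : 0 ≤ 1 - lam := by linarith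
    unfold mixv; positivity
  total i := by
    simpa [mixv] using ((C.total i).mul_left lam).add (C.hasSum_pP.mul_left (1 - lam))
  sym π := by
    obtain ⟨e, he⟩ := C.sym π
    refine ⟨e, fun y i => ?_⟩
    have : C.V (e y) = fun i => C.V y (π i) := funext (he y)
    simp only [mixv]
    rw [this, pP_perm]

lemma Chan.E_mix (hM : KernelMix) (C : Chan) {lam : ℝ} (h0 : 0 ≤ lam) (h1 : lam ≤ 1) :
    (C.mix lam h0 h1).E fA = lam ^ 2 * C.E fA ∧
      lam ^ 3 * C.E fI ≤ (C.mix lam h0 h1).E fI := by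
  constructor
  · simp only [Chan.E, Chan.mix, (hM lam _ h0 h1 (C.nonneg _)).1]
    exact tsum_mul_left
  · simp only [Chan.E]
    rw [← tsum_mul_left]
    exact Summable.tsum_le_tsum (fun y => (hM lam _ h0 h1 (C.nonneg y)).2)
      ((C.summable adm_fI).mul_left _) ((C.mix lam h0 h1).summable adm_fI)

/-- Independent pair of observations. -/
noncomputable def Chan.star (A B : Chan) : Chan where
  ι := A.ι × B.ι
  V y i := A.V y.1 i * B.V y.2 i
  nonneg y i := mul_nonneg (A.nonneg _ i) (B.nonneg _ i)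
  total i := by
    have := (A.total i).mul (B.total i)
      ((A.total i).summable.mul_of_nonneg (B.total i).summable (fun y => A.nonneg y i)
        fun y => B.nonneg y i)
    simpa using this
  sym π := by
    obtain ⟨e, he⟩ := A.sym π
    obtain ⟨f, hf⟩ := B.sym π
    exact ⟨e.prodCongr f, fun y i => by simp [he, hf]⟩

lemma Chan.hasSum_pair (A B : Chan) {F G : (Fin 4 → ℝ) → ℝ} (hF : Adm F) (hG : Adm G) :
    HasSum (fun y : A.ι × B.ι => F (A.V y.1) * G (B.V y.2)) (A.E F * B.E G) :=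
  (A.hasSum_E hF).mul (B.hasSum_E hG)
    (summable_mul_of_summable_norm (A.summable hF).norm (B.summable hG).norm)

lemma Chan.hasSum_avg24 (A B : Chan) {F : (Fin 4 → ℝ) → ℝ} (hF : Adm F) :
    HasSum (fun y : A.ι × B.ι => avg24 F (A.V y.1) (B.V y.2)) ((A.star B).E F) := by
  have hk : ∀ π : Equiv.Perm (Fin 4),
      HasSum (fun y : A.ι × B.ι => F fun i => A.V y.1 i * B.V y.2 (π i)) ((A.star B).E F) := by
    intro π
    obtain ⟨e, he⟩ := B.sym π
    have h : (fun y : A.ι × B.ι => F fun i => A.V y.1 i * B.V y.2 (π i)) =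
        (fun y : (A.star B).ι => F ((A.star B).V y)) ∘ ((Equiv.refl A.ι).prodCongr e) := by
      funext y
      simp only [Function.comp_apply, Chan.star, Equiv.prodCongr_apply, Prod.map_fst,
        Prod.map_snd, Equiv.refl_apply, he]
    rw [h]
    exact ((Equiv.refl A.ι).prodCongr e).hasSum_iff.mpr ((A.star B).hasSum_E hF)
  have hc : (Finset.univ : Finset (Equiv.Perm (Fin 4))).card = 24 := by
    rw [Finset.card_univ, Fintype.card_perm]; rfl
  have := (hasSum_sum fun π (_ : π ∈ (Finset.univ : Finset (Equiv.Perm (Fin 4)))) => hk π).div_const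
    24
  rw [Finset.sum_const, hc, nsmul_eq_mul] at this
  unfold avg24
  rwa [Nat.cast_ofNat, mul_div_cancel_left₀ _ (by norm_num : (24 : ℝ) ≠ 0)] at this

/-- The main inequality for combining two channels. -/
theorem Chan.star_bound (hA : KernelA) (hI : KernelI) (hW : WeightBounds) (A B : Chan)
    (pA : 0 ≤ A.E fI) (pB : 0 ≤ B.E fI) :
    (A.star B).E fA ≤ A.E fA + B.E fA - 1 / 200 * (A.E fA * B.E fA * (A.E fA + B.E fA)) ∧
      0 ≤ (A.star B).E fI := by
  have gA := A.E_nonneg fun L h => (hW L h).1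
  have gB := B.E_nonneg fun L h => (hW L h).1
  have jA : A.E fJ ≤ 1 := A.E_pP ▸ A.E_mono adm_fJ adm_pP fun L h => (hW L h).2
  have jB : B.E fJ ≤ 1 := B.E_pP ▸ B.E_mono adm_fJ adm_pP fun L h => (hW L h).2
  constructor
  · have h1 := (((A.hasSum_pair B adm_fA adm_pP).add (A.hasSum_pair B adm_pP adm_fA)).sub
      ((A.hasSum_pair B adm_fI adm_fG).add (A.hasSum_pair B adm_fG adm_fI))).sub
      (((A.hasSum_pair B adm_fA2 adm_fA).add (A.hasSum_pair B adm_fA adm_fA2)).mul_left (1 / 200))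
    have hk : ∀ y : A.ι × B.ι, avg24 fA (A.V y.1) (B.V y.2) ≤
        fA (A.V y.1) * pP (B.V y.2) + pP (A.V y.1) * fA (B.V y.2)
          - (fI (A.V y.1) * fG (B.V y.2) + fG (A.V y.1) * fI (B.V y.2))
          - 1 / 200 * (fA2 (A.V y.1) * fA (B.V y.2) + fA (A.V y.1) * fA2 (B.V y.2)) :=
      fun y => hA (A.V y.1) (B.V y.2) (A.nonneg y.1) (B.nonneg y.2)
    have h2 := hasSum_le hk (A.hasSum_avg24 B adm_fA) h1
    rw [A.E_pP, B.E_pP, mul_one, one_mul] at h2
    have := mul_nonneg pA gB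
    have := mul_nonneg gA pB
    have := mul_le_mul_of_nonneg_right A.sq_le_E_fA2 (B.E_nonneg fun L h => fA_nonneg h)
    have := mul_le_mul_of_nonneg_left B.sq_le_E_fA2 (A.E_nonneg fun L h => fA_nonneg h)
    linarith
  · have h1 := ((A.hasSum_pair B adm_fI adm_pP).add (A.hasSum_pair B adm_pP adm_fI)).sub
      ((A.hasSum_pair B adm_fI adm_fJ).add (A.hasSum_pair B adm_fJ adm_fI))
    have hk : ∀ y : A.ι × B.ι,
        fI (A.V y.1) * pP (B.V y.2) + pP (A.V y.1) * fI (B.V y.2)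
          - (fI (A.V y.1) * fJ (B.V y.2) + fJ (A.V y.1) * fI (B.V y.2))
        ≤ avg24 fI (A.V y.1) (B.V y.2) :=
      fun y => hI (A.V y.1) (B.V y.2) (A.nonneg y.1) (B.nonneg y.2)
    have h2 := hasSum_le hk h1 (A.hasSum_avg24 B adm_fI)
    rw [A.E_pP, B.E_pP, mul_one, one_mul] at h2
    have := mul_nonneg pA (sub_nonneg.mpr jB)
    have := mul_nonneg (sub_nonneg.mpr jA) pB
    linarith

end Vale.Agent.P154.Q4
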