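import Mathlib

/-!
A fast test that a bilinear form is nonnegative on all pairs of two finite lists of integer
vectors: the second list is packed into one integer per coordinate, so that one product and one
bitwise `and` decide a whole row.
-/

namespace Vale.Agent.P154.Q4

/-- Pack a list of integers in base `2^B`. -/
def pack (B : ℕ) : List ℤ → ℤ
  | [] => 0
  | c :: cs => c + 2 ^ B * pack B cs

/-- The packed constant `H` in base `2^B`, `n` times. -/
def maskN (B H : ℕ) : ℕ → ℕ
  | 0 => 0
  | n + 1 => H + 2 ^ B * maskN B H n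

lemma maskN_cast (B H n : ℕ) : pack B (List.replicate n (H : ℤ)) = (maskN B H n : ℤ) := by
  induction n with
  | zero => simp [pack, maskN]
  | succ n ih => simp [List.replicate_succ, pack, maskN, ih]

/-- If all entries are small and the sign bits of the shifted packing are all set, the entries
are nonnegative. -/
theorem nonneg_of_pack (B : ℕ) : ∀ cs : List ℤ, (∀ c ∈ cs, |c| < 2 ^ B) →
    Nat.land (pack (B + 1) cs + maskN (B + 1) (2 ^ B) cs.length).toNat
        (maskN (B + 1) (2 ^ B) cs.length) = maskN (B + 1) (2 ^ B) cs.length →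
    0 ≤ pack (B + 1) cs + maskN (B + 1) (2 ^ B) cs.length ∧ ∀ c ∈ cs, 0 ≤ c := by
  intro cs
  induction cs with
  | nil => simp [pack, maskN]
  | cons c cs ih =>
    intro hb h
    have hrec : ∀ cs : List ℤ, (∀ c ∈ cs, |c| < 2 ^ B) →
        0 ≤ pack (B + 1) cs + maskN (B + 1) (2 ^ B) cs.length := by
      intro cs
      induction cs with
      | nil => simp [pack, maskN]
      | cons c cs ih =>
        intro hb
        have h1 := ih fun d hd => hb d (List.mem_cons_of_mem _ hd)
        have h2 := (abs_lt.mp (hb c (List.mem_cons_self ..))).1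
        have h3 : (0 : ℤ) ≤ 2 ^ (B + 1) *
            (pack (B + 1) cs + maskN (B + 1) (2 ^ B) cs.length) := by positivity
        simp only [pack, maskN, List.length_cons]
        push_cast
        linarith
    have htail := hrec cs fun d hd => hb d (List.mem_cons_of_mem _ hd)
    obtain ⟨hlo, hhi⟩ := abs_lt.mp (hb c (List.mem_cons_self ..))
    set m := maskN (B + 1) (2 ^ B) cs.length with hm
    obtain ⟨d, hd⟩ : ∃ d : ℕ, (d : ℤ) = c + 2 ^ B :=
      ⟨(c + 2 ^ B).toNat, Int.toNat_of_nonneg (by linarith)⟩
    obtain ⟨N', hN'⟩ : ∃ N' : ℕ, (N' : ℤ) = pack (B + 1) cs + m :=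
      ⟨_, Int.toNat_of_nonneg htail⟩
    have hdlt : d < 2 ^ (B + 1) := by
      have : (d : ℤ) < 2 ^ (B + 1) := by rw [hd, pow_succ]; linarith
      exact_mod_cast this
    have hmask : maskN (B + 1) (2 ^ B) (c :: cs).length = 2 ^ B + 2 ^ (B + 1) * m := by
      simp [maskN, hm]
    have hval : pack (B + 1) (c :: cs) + maskN (B + 1) (2 ^ B) (c :: cs).length =
        ((d + 2 ^ (B + 1) * N' : ℕ) : ℤ) := by
      rw [hmask]; simp only [pack]; push_cast; rw [hd, hN']; ring
    rw [hval, Int.toNat_natCast, hmask] at h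
    change (d + 2 ^ (B + 1) * N') &&& (2 ^ B + 2 ^ (B + 1) * m) = 2 ^ B + 2 ^ (B + 1) * m at h
    have hB : 2 ^ B < 2 ^ (B + 1) := Nat.pow_lt_pow_right one_lt_two (Nat.lt_succ_self B)
    have hlow := congrArg (· % 2 ^ (B + 1)) h
    have hhigh := congrArg (· / 2 ^ (B + 1)) h
    simp only [Nat.and_mod_two_pow, Nat.add_mul_mod_self_left, Nat.mod_eq_of_lt hdlt,
      Nat.mod_eq_of_lt hB] at hlow
    simp only [Nat.and_div_two_pow, Nat.add_mul_div_left _ _ (Nat.two_pow_pos _),
      Nat.div_eq_of_lt hdlt, Nat.div_eq_of_lt hB, zero_add] at hhigh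
    have hd' : 2 ^ B ≤ d := hlow ▸ Nat.and_le_left
    have hc : 0 ≤ c := by
      have : ((2 ^ B : ℕ) : ℤ) ≤ d := by exact_mod_cast hd'
      push_cast at this
      linarith
    refine ⟨?_, ?_⟩
    · rw [hval]; exact Int.natCast_nonneg _
    · have hrest := ih (fun e he => hb e (List.mem_cons_of_mem _ he))
        (by rw [← hN', Int.toNat_natCast]; exact hhigh)
      intro e he
      rcases List.mem_cons.mp he with rfl | he
      · exact hc
      · exact hrest.2 e he

/-- Dot product of integer vectors. -/
def dot : List ℤ → List ℤ → ℤ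
  | a :: v, b :: w => a * b + dot v w
  | _, _ => 0

/-- Matrix (list of rows) times vector. -/
def mulVec (M : List (List ℤ)) (v : List ℤ) : List ℤ := M.map fun r => dot r v

/-- Pack a list of vectors coordinatewise. -/
def packV (B n : ℕ) : List (List ℤ) → List ℤ
  | [] => List.replicate n 0
  | v :: vs => List.zipWith (fun c u => c + 2 ^ B * u) v (packV B n vs)

/-- Coordinatewise bound on absolute values. -/
def absMax (n : ℕ) : List (List ℤ) → List ℤ
  | [] => List.replicate n 0
  | v :: vs => List.zipWith (fun c u => max |c| u) v (absMax n vs)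

/-- The row test. -/
def pairsOK (B n : ℕ) (M P Q : List (List ℤ)) : Bool :=
  let V := mulVec M (packV (B + 1) n Q)
  let bd := mulVec (M.map fun r => r.map fun c => |c|) (absMax n Q)
  let mk := maskN (B + 1) (2 ^ B) Q.length
  (Q.all fun q => q.length == n) && (M.all fun r => r.length == n) &&
    P.all fun p =>
      decide (dot (p.map fun c => |c|) bd < 2 ^ B) &&
        (Nat.land (dot p V + (mk : ℤ)).toNat mk == mk)

lemma length_packV (B n : ℕ) : ∀ vs : List (List ℤ), (∀ v ∈ vs, v.length = n) →
    (packV B n vs).length = n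
  | [], _ => by simp [packV]
  | v :: vs, h => by
    simp [packV, length_packV B n vs fun w hw => h w (List.mem_cons_of_mem _ hw),
      h v (List.mem_cons_self ..)]

lemma length_absMax (n : ℕ) : ∀ vs : List (List ℤ), (∀ v ∈ vs, v.length = n) →
    (absMax n vs).length = n
  | [], _ => by simp [absMax]
  | v :: vs, h => by
    simp [absMax, length_absMax n vs fun w hw => h w (List.mem_cons_of_mem _ hw),
      h v (List.mem_cons_self ..)]

lemma dot_lin (K : ℤ) : ∀ w v u : List ℤ, v.length = u.length →
    dot w (List.zipWith (fun c u => c + K * u) v u) = dot w v + K * dot w u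
  | [], _, _, _ => by simp [dot]
  | _ :: _, [], [], _ => by simp [dot]
  | a :: w, c :: v, d :: u, h => by
    have := dot_lin K w v u (by simpa using h)
    simp only [List.zipWith_cons_cons, dot, this]; ring

lemma dot_replicate_zero : ∀ (w : List ℤ) (n : ℕ), dot w (List.replicate n 0) = 0
  | [], _ => by simp [dot]
  | _ :: _, 0 => by simp [dot]
  | a :: w, n + 1 => by simp [List.replicate_succ, dot, dot_replicate_zero w n]

lemma mulVec_lin (K : ℤ) (M : List (List ℤ)) (v u : List ℤ) (h : v.length = u.length) :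
    mulVec M (List.zipWith (fun c u => c + K * u) v u) =
      List.zipWith (fun c u => c + K * u) (mulVec M v) (mulVec M u) := by
  induction M with
  | nil => rfl
  | cons r M ih =>
    simp only [mulVec, List.map_cons, List.zipWith_cons_cons] at ih ⊢
    rw [dot_lin K r v u h, ih]

lemma dot_mulVec_packV (B n : ℕ) (p : List ℤ) (M : List (List ℤ)) :
    ∀ Q : List (List ℤ), (∀ q ∈ Q, q.length = n) →
      dot p (mulVec M (packV B n Q)) = pack B (Q.map fun q => dot p (mulVec M q)) := by
  intro Q
  induction Q with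
  | nil =>
    intro _
    have : mulVec M (List.replicate n 0) = List.replicate M.length 0 := by
      simp [mulVec, dot_replicate_zero, List.map_const']
    simp [packV, pack, this, dot_replicate_zero]
  | cons q Q ih =>
    intro h
    have hl := length_packV B n Q fun w hw => h w (List.mem_cons_of_mem _ hw)
    rw [packV, mulVec_lin _ _ _ _ (by rw [hl, h q (List.mem_cons_self ..)]),
      dot_lin _ _ _ _ (by simp [mulVec]),
      ih fun w hw => h w (List.mem_cons_of_mem _ hw)]
    rfl

lemma abs_dot_le : ∀ w v m : List ℤ, List.Forall₂ (fun c u => |c| ≤ u) v m →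
    |dot w v| ≤ dot (w.map fun c => |c|) m
  | [], _, _, _ => by simp [dot]
  | _ :: _, _, _, List.Forall₂.nil => by simp [dot]
  | a :: w, c :: v, u :: m, List.Forall₂.cons hcu hr => by
    simp only [dot, List.map_cons]
    refine (abs_add_le _ _).trans (add_le_add ?_ (abs_dot_le w v m hr))
    rw [abs_mul]
    exact mul_le_mul_of_nonneg_left hcu (abs_nonneg a)

lemma forall₂_absMax (n : ℕ) : ∀ (Q : List (List ℤ)), (∀ q ∈ Q, q.length = n) → ∀ q ∈ Q,
    List.Forall₂ (fun c u => |c| ≤ u) q (absMax n Q) := by
  intro Q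
  induction Q with
  | nil => simp
  | cons v Q ih =>
    intro h q hq
    have hQ := fun w hw => h w (List.mem_cons_of_mem _ hw)
    have hl := length_absMax n Q hQ
    have hv := h v (List.mem_cons_self ..)
    rcases List.mem_cons.mp hq with rfl | hq
    · rw [absMax]
      refine List.forall₂_iff_get.mpr ⟨by simp [hl, hv], fun i h1 h2 => ?_⟩
      simp
    · rw [absMax]
      have h2 := List.forall₂_iff_get.mp (ih hQ q hq)
      refine List.forall₂_iff_get.mpr ⟨by simp [hl, hv, hQ q hq], fun i a b => ?_⟩
      simp only [List.get_eq_getElem, List.getElem_zipWith]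
      exact le_trans (by simpa using h2.2 i a (by rw [hl, ← hQ q hq]; exact a))
        (le_max_right _ _)

theorem pairsOK_sound {B n : ℕ} {M P Q : List (List ℤ)} (h : pairsOK B n M P Q = true) :
    (∀ q ∈ Q, q.length = n) ∧ ∀ p ∈ P, ∀ q ∈ Q, 0 ≤ dot p (mulVec M q) := by
  simp only [pairsOK, Bool.and_eq_true, List.all_eq_true, beq_iff_eq, decide_eq_true_eq] at h
  obtain ⟨⟨hQ, _⟩, hP⟩ := h
  refine ⟨hQ, fun p hp q hq => ?_⟩
  obtain ⟨hb, hl⟩ := hP p hp
  rw [dot_mulVec_packV (B + 1) n p M Q hQ] at hl
  have hlen : (Q.map fun q => dot p (mulVec M q)).length = Q.length := List.length_map ..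
  rw [← hlen] at hl
  refine (nonneg_of_pack B _ (fun c hc => ?_) hl).2 _ (List.mem_map_of_mem hq)
  obtain ⟨q', hq', rfl⟩ := List.mem_map.mp hc
  refine lt_of_le_of_lt (abs_dot_le p (mulVec M q') _ ?_) hb
  have hf := forall₂_absMax n Q hQ q' hq'
  simp only [mulVec, List.map_map]
  rw [List.forall₂_map_left_iff, List.forall₂_map_right_iff, List.forall₂_same]
  exact fun r _ => abs_dot_le r q' _ hf

end Vale.Agent.P154.Q4
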