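import Vale.Agent.P154.Bernstein

/-!
Kronecker packing of polynomials in three variables: digits of a packed number with vanishing
high bits are the coefficients of the polynomial.
-/

namespace Vale.Agent.P154.Q4

open NPoly NPolyLaws

/-- Coefficient lists in three variables. -/
abbrev Q3 := List (List (List ℤ))

/-- Digit `i` in base `2 ^ w`. -/
def dgt (w N i : ℕ) : ℕ := N / 2 ^ (w * i) % 2 ^ w

/-- Coefficient at position `(i, j, k)` of a packed number. -/
def coef3 (w n N i j k : ℕ) : ℕ := dgt w (dgt (w * n) (dgt (w * n * n) N i) j) k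

/-- Coefficient lists of a packed number. -/
def pack3 (w n N : ℕ) : Q3 :=
  (List.range n).map fun i => (List.range n).map fun j => (List.range n).map fun k =>
    (coef3 w n N i j k : ℤ)

/-- The packing point. -/
def ptN (w n : ℕ) : ℕ → ℕ
  | 0 => 2 ^ (w * n * n)
  | 1 => 2 ^ (w * n)
  | _ => 2 ^ w

/-- The packing point with the first `k` coordinates replaced by one. -/
def mixN (k w n : ℕ) (i : ℕ) : ℕ := if i < k then 1 else ptN w n i

/-- The packing point in the integers. -/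
def ptZ (w n : ℕ) : ℕ → ℤ := fun i => (ptN w n i : ℤ)

lemma mix_ptZ (k w n : ℕ) : mix k (ptZ w n) = fun i => (mixN k w n i : ℤ) := by
  funext i
  simp only [mix, mixN, ptZ]
  split_ifs <;> simp

lemma hev_range {R : Type} [NPoly R] [NPolyLaws R] {S : Type} [CommRing S] (ρ : ℕ → S)
    (n : ℕ) (f : ℕ → R) :
    hev ρ ((List.range n).map f) = ∑ i ∈ Finset.range n, ev (sh ρ) (f i) * ρ 0 ^ i := by
  induction n generalizing f with
  | zero => simp [hev]
  | succ n ih =>
    rw [List.range_succ_eq_map, List.map_cons, List.map_map, hev, ih, Finset.sum_range_succ',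
      Finset.mul_sum, pow_zero, mul_one, add_comm]
    congr 1
    exact Finset.sum_congr rfl fun i _ => by simp only [Function.comp_apply, pow_succ]; ring

lemma hav_range {R : Type} [NPoly R] [NPolyLaws R] (ρ : ℕ → ℤ) (n : ℕ) (f : ℕ → R) :
    hav ρ ((List.range n).map f) = ∑ i ∈ Finset.range n, aev (sh ρ) (f i) * ρ 0 ^ i := by
  induction n generalizing f with
  | zero => simp [hav]
  | succ n ih =>
    rw [List.range_succ_eq_map, List.map_cons, List.map_map, hav, ih, Finset.sum_range_succ',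
      Finset.mul_sum, pow_zero, mul_one, add_comm]
    congr 1
    exact Finset.sum_congr rfl fun i _ => by simp only [Function.comp_apply, pow_succ]; ring

lemma ev_pack3 {S : Type} [CommRing S] (w n N : ℕ) (σ : ℕ → S) :
    ev σ (pack3 w n N) = ∑ i ∈ Finset.range n, ∑ j ∈ Finset.range n, ∑ k ∈ Finset.range n,
      (coef3 w n N i j k : S) * (σ 0 ^ i * σ 1 ^ j * σ 2 ^ k) := by
  show hev σ _ = _
  rw [pack3, hev_range]
  refine Finset.sum_congr rfl fun i _ => ?_
  show hev (sh σ) _ * _ = _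
  rw [hev_range, Finset.sum_mul]
  refine Finset.sum_congr rfl fun j _ => ?_
  show hev (sh (sh σ)) _ * _ * _ = _
  rw [hev_range, Finset.sum_mul, Finset.sum_mul]
  refine Finset.sum_congr rfl fun k _ => ?_
  simp only [ev, sh, Int.cast_natCast]
  ring

lemma sum_dgt (w N : ℕ) : ∀ n, ∑ i ∈ Finset.range n, dgt w N i * (2 ^ w) ^ i = N % 2 ^ (w * n) := by
  intro n
  induction n with
  | zero => simp [Nat.mod_one]
  | succ n ih =>
    rw [Finset.sum_range_succ, ih, dgt, Nat.mul_succ, pow_add, Nat.mod_mul, pow_mul]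
    ring

lemma dgt_lt (w N i : ℕ) : dgt w N i < 2 ^ w := Nat.mod_lt _ (Nat.two_pow_pos w)

lemma ev_pack3_pt {w n N : ℕ} (hN : N < 2 ^ (w * n * n * n)) :
    ev (ptZ w n) (pack3 w n N) = (N : ℤ) := by
  rw [ev_pack3]
  have e1 : ∀ a, a < 2 ^ (w * n) →
      ∑ k ∈ Finset.range n, dgt w a k * (2 ^ w) ^ k = a := fun a ha => by
    rw [sum_dgt, Nat.mod_eq_of_lt ha]
  have e2 : ∀ a, a < 2 ^ (w * n * n) →
      ∑ j ∈ Finset.range n, dgt (w * n) a j * (2 ^ (w * n)) ^ j = a := fun a ha => by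
    rw [sum_dgt, Nat.mod_eq_of_lt ha]
  have key : ∑ i ∈ Finset.range n, ∑ j ∈ Finset.range n, ∑ k ∈ Finset.range n,
      coef3 w n N i j k * (ptN w n 0 ^ i * ptN w n 1 ^ j * ptN w n 2 ^ k) = N := by
    refine Eq.trans ?_ ((sum_dgt (w * n * n) N n).trans (Nat.mod_eq_of_lt hN))
    refine Finset.sum_congr rfl fun i _ => ?_
    conv_rhs => rw [← e2 _ (dgt_lt (w * n * n) N i), Finset.sum_mul]
    refine Finset.sum_congr rfl fun j _ => ?_
    conv_rhs => rw [← e1 _ (dgt_lt (w * n) _ j), Finset.sum_mul, Finset.sum_mul]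
    refine Finset.sum_congr rfl fun k _ => ?_
    simp only [coef3, ptN]
    ring
  calc _ = ((∑ i ∈ Finset.range n, ∑ j ∈ Finset.range n, ∑ k ∈ Finset.range n,
      coef3 w n N i j k * (ptN w n 0 ^ i * ptN w n 1 ^ j * ptN w n 2 ^ k) : ℕ) : ℤ) := by
        simp [ptZ]
    _ = (N : ℤ) := by rw [key]

/-! ### Masks -/

/-- Repeated block. -/
def rep (h w : ℕ) : ℕ → ℕ
  | 0 => 0
  | n + 1 => h + 2 ^ w * rep h w n

lemma rep_lt {h w : ℕ} (hh : h < 2 ^ w) : ∀ n, rep h w n < 2 ^ (w * n) := by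
  intro n
  induction n with
  | zero => simp [rep]
  | succ n ih =>
    calc h + 2 ^ w * rep h w n < 2 ^ w + 2 ^ w * rep h w n := by omega
      _ = 2 ^ w * (rep h w n + 1) := by ring
      _ ≤ 2 ^ w * 2 ^ (w * n) := Nat.mul_le_mul_left _ ih
      _ = 2 ^ (w * (n + 1)) := by rw [← pow_add]; congr 1; ring

lemma land_rep {h w : ℕ} (hh : h < 2 ^ w) :
    ∀ n N, N &&& rep h w n = 0 → ∀ i < n, dgt w N i &&& h = 0 := by
  intro n
  induction n with
  | zero => intro N _ i hi; exact absurd hi (Nat.not_lt_zero _)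
  | succ n ih =>
    intro N hN i hi
    have e1 : rep h w (n + 1) % 2 ^ w = h := by
      rw [rep, Nat.add_mul_mod_self_left, Nat.mod_eq_of_lt hh]
    have e2 : rep h w (n + 1) / 2 ^ w = rep h w n := by
      rw [rep, Nat.add_mul_div_left _ _ (Nat.two_pow_pos w), Nat.div_eq_of_lt hh, zero_add]
    cases i with
    | zero =>
      have := congrArg (fun x => x % 2 ^ w) hN
      simp only [Nat.and_mod_two_pow, e1, Nat.zero_mod] at this
      simpa [dgt] using this
    | succ i =>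
      have := congrArg (fun x => x / 2 ^ w) hN
      simp only [Nat.and_div_two_pow, e2, Nat.zero_div] at this
      have h' := ih (N / 2 ^ w) this i (by omega)
      rwa [dgt, Nat.div_div_eq_div_mul, ← pow_add, show w + w * i = w * (i + 1) by ring] at h'

/-- Mask of the high bits of all coefficients. -/
def msk (t w n : ℕ) : ℕ := rep (rep (rep (2 ^ w - 2 ^ t) w n) (w * n) n) (w * n * n) n

lemma coef3_lt {t w n N : ℕ} (ht : t ≤ w) (h : N &&& msk t w n = 0) {i j k : ℕ} (hi : i < n)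
    (hj : j < n) (hk : k < n) : coef3 w n N i j k < 2 ^ t := by
  have h0 : 2 ^ w - 2 ^ t < 2 ^ w :=
    Nat.sub_lt (Nat.two_pow_pos w) (Nat.two_pow_pos t)
  have h1 := rep_lt h0 n
  have h2 := rep_lt h1 n
  have a := land_rep h2 n N h i hi
  have b := land_rep h1 n _ a j hj
  have c := land_rep h0 n _ b k hk
  set d := coef3 w n N i j k with hd
  have hdw : d < 2 ^ w := dgt_lt _ _ _
  have c' : (d &&& (2 ^ w - 2 ^ t)) / 2 ^ t = 0 := by
    rw [show d &&& (2 ^ w - 2 ^ t) = 0 from c, Nat.zero_div]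
  have e : (2 ^ w - 2 ^ t) / 2 ^ t = 2 ^ (w - t) - 1 := by
    have e' : 2 ^ w - 2 ^ t = 2 ^ t * (2 ^ (w - t) - 1) := by
      rw [Nat.mul_sub, mul_one, ← pow_add, show t + (w - t) = w by omega]
    rw [e', Nat.mul_div_cancel_left _ (Nat.two_pow_pos t)]
  rw [Nat.and_div_two_pow, e, Nat.and_two_pow_sub_one_eq_mod, Nat.mod_eq_of_lt] at c'
  · exact (Nat.div_eq_zero_iff_lt (Nat.two_pow_pos t)).1 c'
  · rw [Nat.div_lt_iff_lt_mul (Nat.two_pow_pos t), ← pow_add, show w - t + t = w by omega]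
    exact hdw

/-- Geometric sum in the naturals. -/
def geoN (x : ℕ) : ℕ → ℕ
  | 0 => 0
  | n + 1 => 1 + x * geoN x n

lemma geoN_eq (x : ℕ) : ∀ n, geoN x n = ∑ i ∈ Finset.range n, x ^ i := by
  intro n
  induction n with
  | zero => simp [geoN]
  | succ n ih =>
    rw [geoN, ih, Finset.sum_range_succ', Finset.mul_sum]
    simp only [pow_succ, pow_zero]
    rw [add_comm]
    congr 1
    exact Finset.sum_congr rfl fun i _ => mul_comm _ _

/-- Bound for the absolute evaluation of packed coefficients. -/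
def packB (t w n k : ℕ) : ℕ :=
  2 ^ t * (geoN (mixN (k + 1) w n 0) n * geoN (mixN (k + 1) w n 1) n * geoN (mixN (k + 1) w n 2) n)

lemma aev_pack3_le {t w n N : ℕ} (ht : t ≤ w) (h : N &&& msk t w n = 0) (k : ℕ) :
    aev (mix (k + 1) (ptZ w n)) (pack3 w n N) ≤ (packB t w n k : ℤ) := by
  rw [mix_ptZ]
  set ρ : ℕ → ℕ := mixN (k + 1) w n with hρ
  show hav _ _ ≤ _
  rw [pack3, hav_range]
  have e : (packB t w n k : ℤ) = ∑ i ∈ Finset.range n, (∑ j ∈ Finset.range n,
      (∑ l ∈ Finset.range n, (2 : ℤ) ^ t * (ρ 2 : ℤ) ^ l) * (ρ 1 : ℤ) ^ j) * (ρ 0 : ℤ) ^ i := by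
    simp only [packB, geoN_eq, ← hρ, ← Finset.mul_sum, ← Finset.sum_mul]
    push_cast
    ring
  rw [e]
  refine Finset.sum_le_sum fun i hi => mul_le_mul_of_nonneg_right ?_ (by positivity)
  show hav _ _ ≤ _
  rw [hav_range]
  refine Finset.sum_le_sum fun j hj => mul_le_mul_of_nonneg_right ?_ (by simp [sh])
  show hav _ _ ≤ _
  rw [hav_range]
  refine Finset.sum_le_sum fun l hl => mul_le_mul_of_nonneg_right ?_ (by simp [sh])
  show |(coef3 w n N i j l : ℤ)| ≤ _
  rw [abs_of_nonneg (Int.natCast_nonneg _)]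
  exact_mod_cast (coef3_lt ht h (Finset.mem_range.1 hi) (Finset.mem_range.1 hj)
    (Finset.mem_range.1 hl)).le

/-- The test on a packed number, given bounds for absolute evaluations of its polynomial. -/
def packOK (t w n N : ℕ) (b0 b1 b2 : ℕ) : Bool :=
  decide (t ≤ w ∧ N / 2 ^ (w * n * n * n) = 0 ∧ N &&& msk t w n = 0 ∧
    2 * (b0 + packB t w n 0) < ptN w n 0 ∧ 2 * (b1 + packB t w n 1) < ptN w n 1 ∧
    2 * (b2 + packB t w n 2) < ptN w n 2)

/-- A polynomial passing the test is given by the digits of its packed value. -/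
theorem ev_eq_of_packOK {t w n N b0 b1 b2 : ℕ} (h : packOK t w n N b0 b1 b2 = true) (E : Q3)
    (hE : ev (ptZ w n) E = (N : ℤ)) (h0 : aev (mix 1 (ptZ w n)) E ≤ b0)
    (h1 : aev (mix 2 (ptZ w n)) E ≤ b1) (h2 : aev (mix 3 (ptZ w n)) E ≤ b2)
    {S : Type} [CommRing S] (σ : ℕ → S) :
    ev σ E = ∑ i ∈ Finset.range n, ∑ j ∈ Finset.range n, ∑ k ∈ Finset.range n,
      (coef3 w n N i j k : S) * (σ 0 ^ i * σ 1 ^ j * σ 2 ^ k) := by
  obtain ⟨ht, hN, hm, c0, c1, c2⟩ := of_decide_eq_true h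
  have hN' : N < 2 ^ (w * n * n * n) := (Nat.div_eq_zero_iff_lt (Nat.two_pow_pos _)).1 hN
  rw [← ev_pack3]
  have hρ : ∀ i, 0 ≤ ptZ w n i := fun i => Int.natCast_nonneg _
  set D : Q3 := NPoly.add E (NPoly.mul (NPoly.cst (-1)) (pack3 w n N)) with hD
  have hD0 : ev (ptZ w n) D = 0 := by
    rw [hD, ev_add, ev_mul, ev_cst, hE, ev_pack3_pt hN']
    simp
  have hb : ∀ k < dep Q3, 2 * aev (mix (k + 1) (ptZ w n)) D < ptZ w n k := by
    intro k hk
    have hk3 : k < 3 := hk
    have hp := aev_pack3_le ht hm k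
    have hnn := mix_nonneg (k + 1) (ptZ w n) hρ
    have ha : aev (mix (k + 1) (ptZ w n)) D
        ≤ aev (mix (k + 1) (ptZ w n)) E + packB t w n k := by
      refine (aev_add _ hnn _ _).trans (add_le_add le_rfl ?_)
      refine (aev_mul _ hnn _ _).trans ?_
      rw [aev_cst]
      simpa using hp
    interval_cases k
    · have : (2 : ℤ) * (b0 + packB t w n 0) < (ptN w n 0 : ℤ) := by exact_mod_cast c0
      show _ < (ptN w n 0 : ℤ)
      linarith
    · have : (2 : ℤ) * (b1 + packB t w n 1) < (ptN w n 1 : ℤ) := by exact_mod_cast c1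
      show _ < (ptN w n 1 : ℤ)
      linarith
    · have : (2 : ℤ) * (b2 + packB t w n 2) < (ptN w n 2 : ℤ) := by exact_mod_cast c2
      show _ < (ptN w n 2 : ℤ)
      linarith
  have := vanish (ptZ w n) hρ D hb hD0 σ
  rw [hD, ev_add, ev_mul, ev_cst] at this
  simp only [Int.cast_neg, Int.cast_one, neg_one_mul] at this
  exact sub_eq_zero.1 (by rw [sub_eq_add_neg]; exact this)

end Vale.Agent.P154.Q4
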