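import Vale.Agent.P154.Q4.CertDefs
import Vale.Agent.P154.Q4.Pack
import Vale.Agent.P154.Q4.Packing

/-!
P154, four states: the test for a bilinear form on a pair of cones and its soundness.
-/

namespace Vale.Agent.P154.Q4

open NPoly NPolyLaws

/-- Coordinate of a point. -/
def vget (v : Vtx) (i : Fin 4) : ℕ :=
  match i.val with
  | 0 => v.1
  | 1 => v.2.1
  | 2 => v.2.2.1
  | _ => v.2.2.2

/-- Generator of a cone. -/
def cv (U : Cell) (k : Fin 4) : Vtx :=
  match k.val with
  | 0 => U.1
  | 1 => U.2.1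
  | 2 => U.2.2.1
  | _ => U.2.2.2

/-- Dehomogenised point of a cone. -/
def uval {S : Type} [CommSemiring S] (U : Cell) (σ : ℕ → S) (i : Fin 4) : S :=
  (vget (cv U 3) i : S) + (vget (cv U 2) i : S) * σ 2 + (vget (cv U 1) i : S) * σ 1
    + (vget (cv U 0) i : S) * σ 0

/-- The affine form as a polynomial. -/
def lin (U : Cell) (i : Fin 4) : Q3 :=
  [[[(vget (cv U 3) i : ℤ), (vget (cv U 2) i : ℤ)], [(vget (cv U 1) i : ℤ)]],
    [[(vget (cv U 0) i : ℤ)]]]

lemma ev_lin {S : Type} [CommRing S] (σ : ℕ → S) (U : Cell) (i : Fin 4) :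
    ev σ (lin U i) = uval U σ i := by
  simp [lin, uval, ev, hev, sh]
  ring

lemma aev_lin (ρ : ℕ → ℤ) (U : Cell) (i : Fin 4) : aev ρ (lin U i) = uval U ρ i := by
  simp [lin, uval, aev, hav, sh]
  ring

/-- Power of a polynomial. -/
def powP (v : Q3) : ℕ → Q3
  | 0 => NPoly.cst 1
  | n + 1 => NPoly.mul v (powP v n)

lemma ev_powP {S : Type} [CommRing S] (σ : ℕ → S) (v : Q3) :
    ∀ n, ev σ (powP v n) = ev σ v ^ n
  | 0 => by rw [powP, ev_cst, Int.cast_one, pow_zero]
  | n + 1 => by rw [powP, ev_mul, ev_powP σ v n, pow_succ']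

lemma aev_powP (ρ : ℕ → ℤ) (hρ : ∀ i, 0 ≤ ρ i) (v : Q3) :
    ∀ n, aev ρ (powP v n) ≤ aev ρ v ^ n
  | 0 => by rw [powP, aev_cst, abs_one, pow_zero]
  | n + 1 => by
    rw [powP, pow_succ']
    exact (aev_mul ρ hρ _ _).trans
      (mul_le_mul_of_nonneg_left (aev_powP ρ hρ v n) (aev_nonneg ρ hρ v))

/-- One rearranged monomial as a polynomial. -/
def monP (e : Expo) (v : Fin 4 → Q3) (t : Fin 4 × Fin 4 × Fin 4 × Fin 4) : Q3 :=
  NPoly.mul (NPoly.mul (NPoly.mul (powP (v t.1) e.1) (powP (v t.2.1) e.2.1))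
    (powP (v t.2.2.1) e.2.2.1)) (powP (v t.2.2.2) e.2.2.2)

/-- Sum of polynomials. -/
def sumP : List Q3 → Q3
  | [] => NPoly.cst 0
  | a :: l => NPoly.add a (sumP l)

/-- Symmetrised monomial as a polynomial. -/
def symP (e : Expo) (v : Fin 4 → Q3) : Q3 := sumP (T24.map (monP e v))

lemma ev_symP {S : Type} [CommRing S] (σ : ℕ → S) (e : Expo) (v : Fin 4 → Q3) :
    ev σ (symP e v) = symL e (fun i => ev σ (v i)) := by
  unfold symP symL
  induction T24 with
  | nil => simp [sumP, ev_cst]
  | cons t l ih =>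
    rw [List.map_cons, List.map_cons, sumP, List.sum_cons, ev_add, ih]
    congr 1
    simp only [monP, monE, ev_mul, ev_powP]

lemma aev_symP (ρ : ℕ → ℤ) (hρ : ∀ i, 0 ≤ ρ i) (e : Expo) (v : Fin 4 → Q3) :
    aev ρ (symP e v) ≤ symL e (fun i => aev ρ (v i)) := by
  unfold symP symL
  induction T24 with
  | nil => simp [sumP, aev_cst]
  | cons t l ih =>
    rw [List.map_cons, List.map_cons, sumP, List.sum_cons]
    refine (aev_add ρ hρ _ _).trans (add_le_add ?_ ih)
    have hn := aev_nonneg (R := Q3) ρ hρ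
    have hp := aev_powP ρ hρ
    have hq : ∀ i k, 0 ≤ aev ρ (v i) ^ k := fun i k => pow_nonneg (hn _) k
    simp only [monP, monE]
    refine (aev_mul ρ hρ _ _).trans (mul_le_mul ?_ (hp _ _) (hn _) ?_)
    · refine (aev_mul ρ hρ _ _).trans (mul_le_mul ?_ (hp _ _) (hn _) (mul_nonneg (hq _ _) (hq _ _)))
      exact (aev_mul ρ hρ _ _).trans (mul_le_mul (hp _ _) (hp _ _) (hn _) (hq _ _))
    · exact mul_nonneg (mul_nonneg (hq _ _) (hq _ _)) (hq _ _)

lemma symL_map {S T : Type} [CommSemiring S] [CommSemiring T] (f : S →+* T) (e : Expo)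
    (v : Fin 4 → S) : f (symL e v) = symL e (fun i => f (v i)) := by
  simp only [symL, map_list_sum, List.map_map]
  congr 1
  exact List.map_congr_left fun t _ => by simp [monE]

lemma symL_uval_cast {S : Type} [CommSemiring S] (e : Expo) (U : Cell) (ρ : ℕ → ℕ) :
    ((symL e (uval U ρ) : ℕ) : S) = symL e (uval U (fun i => (ρ i : S))) := by
  have := symL_map (Nat.castRingHom S) e (uval U ρ)
  simp only [Nat.coe_castRingHom] at this
  rw [this]
  congr 1
  funext i
  simp [uval]

/-- Packed symmetrised monomials of a cone. -/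
def vals (mus : List Expo) (U : Cell) (ρ : ℕ → ℕ) : List ℕ := mus.map fun e => symL e (uval U ρ)

/-- The test of the packing of one cone. -/
def cellOK (t w n : ℕ) (mus : List Expo) (U : Cell) : Bool :=
  mus.all fun e => packOK t w n (symL e (uval U (ptN w n))) (symL e (uval U (mixN 1 w n)))
    (symL e (uval U (mixN 2 w n))) (symL e (uval U (mixN 3 w n)))

/-- Evaluate a natural number before use. -/
def forceN {α : Type} (x : ℕ) (k : ℕ → α) : α :=
  match x with
  | 0 => k 0
  | m + 1 => k (Nat.succ m)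

/-- Evaluate a list of naturals before use. -/
def forceNs {α : Type} : List ℕ → (List ℕ → α) → α
  | [], k => k []
  | x :: xs, k => forceN x fun x => forceNs xs fun l => k (x :: l)

lemma forceN_eq {α : Type} (x : ℕ) (k : ℕ → α) : forceN x k = k x := by
  cases x <;> rfl

lemma forceNs_eq {α : Type} : ∀ (l : List ℕ) (k : List ℕ → α), forceNs l k = k l
  | [], _ => rfl
  | x :: xs, k => by simp [forceNs, forceN_eq, forceNs_eq xs]

/-- Bitwise union of a list. -/
def orAll : List ℕ → ℕ
  | [] => 0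
  | x :: xs => Nat.lor x (orAll xs)

lemma orAll_eq_zero : ∀ {l : List ℕ}, orAll l = 0 → ∀ x ∈ l, x = 0
  | [], _ => by simp
  | x :: xs, h => by
    have hx : x ≤ orAll (x :: xs) := Nat.left_le_or
    have hxs : orAll xs ≤ orAll (x :: xs) := Nat.right_le_or
    rw [h] at hx hxs
    intro y hy
    rcases List.mem_cons.1 hy with rfl | hy
    · omega
    · exact orAll_eq_zero (Nat.le_zero.1 hxs) y hy

/-- The digit vectors of several numbers, stopping at the last nonzero one. -/
def scanD {α : Type} (K : ℕ) (g : List ℕ → List α) : ℕ → List ℕ → List α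
  | 0, _ => []
  | f + 1, l => bif Nat.beq (orAll l) 0 then [] else
      forceNs (l.map fun x => Nat.mod x K) g ++
        forceNs (l.map fun x => Nat.div x K) fun l' => scanD K g f l'

lemma scanD_spec {α : Type} (w : ℕ) (g : List ℕ → List α) :
    ∀ (f : ℕ) (l : List ℕ) (i : ℕ), i < f →
      (∀ y ∈ g (l.map fun x => dgt w x i), y ∈ scanD (2 ^ w) g f l) ∨
        ∀ x ∈ l, dgt w x i = 0
  | 0, _, i, hi => absurd hi (Nat.not_lt_zero i)
  | f + 1, l, i, hi => by
    by_cases h0 : orAll l = 0
    · exact Or.inr fun x hx => by simp [orAll_eq_zero h0 x hx, dgt]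
    have hb : Nat.beq (orAll l) 0 = false := by
      rw [← Bool.not_eq_true, Nat.beq_eq]; exact h0
    simp only [scanD, hb, cond_false, forceNs_eq, List.mem_append]
    cases i with
    | zero =>
      refine Or.inl fun y hy => Or.inl ?_
      have e : (fun x => dgt w x 0) = fun x => Nat.mod x (2 ^ w) := by
        funext x
        show x / 2 ^ (w * 0) % 2 ^ w = x % 2 ^ w
        simp
      rwa [e] at hy
    | succ i =>
      have e : ∀ x, dgt w x (i + 1) = dgt w (Nat.div x (2 ^ w)) i := fun x => by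
        show _ = dgt w (x / 2 ^ w) i
        rw [dgt, dgt, Nat.div_div_eq_div_mul, ← pow_add, show w + w * i = w * (i + 1) by ring]
      rcases scanD_spec w g f (l.map fun x => Nat.div x (2 ^ w)) i (by omega) with h | h
      · refine Or.inl fun y hy => Or.inr (h y ?_)
        rw [List.map_map]
        rwa [List.map_congr_left fun x _ => e x] at hy
      · exact Or.inr fun x hx => by rw [e]; exact h _ (List.mem_map.2 ⟨x, hx, rfl⟩)

/-- The coefficient vectors of the packed numbers. -/
def vecs (w n : ℕ) (Ns : List ℕ) : List (List ℕ) :=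
  forceNs Ns fun Ns => scanD (2 ^ (w * n * n))
    (fun a => scanD (2 ^ (w * n)) (fun b => scanD (2 ^ w) (fun c => [c]) n b) n a) n Ns

lemma vecs_spec {w n : ℕ} (Ns : List ℕ) {i j k : ℕ} (hi : i < n) (hj : j < n) (hk : k < n) :
    (Ns.map fun N => coef3 w n N i j k) ∈ vecs w n Ns ∨
      ∀ c ∈ Ns.map fun N => coef3 w n N i j k, c = 0 := by
  have hz : ∀ v i, dgt v 0 i = 0 := fun v i => by simp [dgt]
  simp only [vecs, forceNs_eq]
  rcases scanD_spec (w * n * n) (fun a => scanD (2 ^ (w * n))
      (fun b => scanD (2 ^ w) (fun c => [c]) n b) n a) n Ns i hi with h1 | h1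
  · rcases scanD_spec (w * n) (fun b => scanD (2 ^ w) (fun c => [c]) n b) n
        (Ns.map fun N => dgt (w * n * n) N i) j hj with h2 | h2
    · rcases scanD_spec w (fun c => [c]) n
          ((Ns.map fun N => dgt (w * n * n) N i).map fun N => dgt (w * n) N j) k hk with h3 | h3
      · refine Or.inl (h1 _ (h2 _ (h3 _ ?_)))
        rw [List.map_map, List.map_map]
        exact List.mem_singleton.2 rfl
      · refine Or.inr fun c hc => ?_
        obtain ⟨N, hN, rfl⟩ := List.mem_map.1 hc
        exact h3 _ (List.mem_map.2 ⟨_, List.mem_map.2 ⟨N, hN, rfl⟩, rfl⟩)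
    · refine Or.inr fun c hc => ?_
      obtain ⟨N, hN, rfl⟩ := List.mem_map.1 hc
      rw [coef3, h2 _ (List.mem_map.2 ⟨N, hN, rfl⟩), hz]
  · refine Or.inr fun c hc => ?_
    obtain ⟨N, hN, rfl⟩ := List.mem_map.1 hc
    rw [coef3, h1 N hN, hz, hz]

/-- Dot product in the naturals. -/
def dotN : List ℕ → List ℕ → ℕ
  | a :: p, b :: q => Nat.add (Nat.mul a b) (dotN p q)
  | _, _ => 0

/-- Pairwise combination. -/
def packStep (K : ℕ) : List ℕ → List ℕ → List ℕ
  | a :: p, b :: q => Nat.add a (Nat.mul K b) :: packStep K p q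
  | _, _ => []

/-- Pairwise bitwise union. -/
def orStep : List ℕ → List ℕ → List ℕ
  | a :: p, b :: q => Nat.lor a b :: orStep p q
  | _, _ => []

/-- The row test on the packed second list. -/
def rowsTest (B : ℕ) (M : List (List ℤ)) (P : List (List ℕ)) (pk am : List ℕ) (msum : ℕ) :
    Bool :=
  forceNs ((mulVec M (pk.map fun x : ℕ => (x : ℤ))).map fun x => x.toNat) fun Vp =>
    forceNs ((mulVec M (pk.map fun x : ℕ => (x : ℤ))).map fun x => (-x).toNat) fun Vn =>
      forceNs ((mulVec (M.map fun r => r.map fun c => |c|) (am.map fun x : ℕ => (x : ℤ))).map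
          fun x => x.toNat) fun bd =>
        forceN (2 ^ B) fun lim => P.all fun p =>
          Nat.blt (dotN p bd) lim &&
            Nat.beq (Nat.land (Nat.sub (Nat.add (dotN p Vp) msum) (dotN p Vn)) msum) msum

/-- One pass through the second list, then the row test. -/
def scanQ (B n : ℕ) (M : List (List ℤ)) (P : List (List ℕ)) :
    List (List ℕ) → List ℕ → List ℕ → ℕ → Bool
  | [], pk, am, msum => rowsTest B M P pk am msum
  | v :: vs, pk, am, msum => Nat.beq v.length n &&
      forceNs (packStep (2 ^ (B + 1)) v pk) fun pk => forceNs (orStep v am) fun am =>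
        forceN (Nat.add (2 ^ B) (Nat.mul (2 ^ (B + 1)) msum)) fun msum =>
          scanQ B n M P vs pk am msum

/-- A natural vector as an integer vector. -/
def toZ (v : List ℕ) : List ℤ := v.map fun x : ℕ => (x : ℤ)

lemma dot_split : ∀ (p : List ℕ) (V : List ℤ),
    dot (toZ p) V = (dotN p (V.map fun x => x.toNat) : ℤ) - dotN p (V.map fun x => (-x).toNat)
  | [], _ => by simp [toZ, dot, dotN]
  | _ :: _, [] => by simp [toZ, dot, dotN]
  | a :: p, x :: V => by
    have h := dot_split p V
    simp only [toZ] at h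
    simp only [toZ, List.map_cons, dot, dotN, Nat.add_eq, Nat.mul_eq, h]
    push_cast
    have e : x = (x.toNat : ℤ) - (-x).toNat := (Int.toNat_sub_toNat_neg x).symm
    linear_combination (a : ℤ) * e

lemma abs_dot_toNat_le : ∀ (p : List ℕ) (v b : List ℤ), List.Forall₂ (fun c u => |c| ≤ u) v b →
    |dot (toZ p) v| ≤ (dotN p (b.map fun x => x.toNat) : ℤ)
  | [], _, _, _ => by simp [toZ, dot]
  | _ :: _, _, _, List.Forall₂.nil => by simp [toZ, dot]
  | a :: p, c :: v, u :: b, List.Forall₂.cons hcu hr => by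
    have h := abs_dot_toNat_le p v b hr
    simp only [toZ] at h
    simp only [toZ, List.map_cons, dot, dotN, Nat.add_eq, Nat.mul_eq]
    push_cast
    refine (abs_add_le _ _).trans (add_le_add ?_ h)
    rw [abs_mul, abs_of_nonneg (Int.natCast_nonneg a)]
    refine mul_le_mul_of_nonneg_left (hcu.trans ?_) (Int.natCast_nonneg a)
    exact Int.self_le_toNat u

lemma packStep_toZ (K : ℕ) : ∀ v u : List ℕ,
    toZ (packStep K v u) = List.zipWith (fun c e => c + (K : ℤ) * e) (toZ v) (toZ u)
  | [], _ => by simp [packStep, toZ]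
  | _ :: _, [] => by simp [packStep, toZ]
  | a :: v, b :: u => by
    have h := packStep_toZ K v u
    simp only [toZ] at h
    simp [packStep, toZ, h]

/-- All vectors of the list are dominated by `am`. -/
def Dom (Q : List (List ℕ)) (am : List ℕ) : Prop :=
  ∀ q ∈ Q, List.Forall₂ (fun c u => c ≤ u) q am

lemma forall₂_orStep : ∀ v am : List ℕ, v.length = am.length →
    List.Forall₂ (fun c u => c ≤ u) v (orStep v am) ∧
      ∀ q, List.Forall₂ (fun c u => c ≤ u) q am → List.Forall₂ (fun c u => c ≤ u) q (orStep v am)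
  | [], [], _ => ⟨List.Forall₂.nil, fun _ h => h⟩
  | a :: v, b :: am, h => by
    obtain ⟨h1, h2⟩ := forall₂_orStep v am (by simpa using h)
    refine ⟨List.Forall₂.cons Nat.left_le_or h1, fun q hq => ?_⟩
    cases hq with
    | cons hc hr => exact List.Forall₂.cons (hc.trans Nat.right_le_or) (h2 _ hr)

lemma scanQ_sound {B n : ℕ} {M : List (List ℤ)} {P : List (List ℕ)} :
    ∀ (vs rs : List (List ℕ)) (pk am : List ℕ) (msum : ℕ),
      (∀ r ∈ rs, r.length = n) → toZ pk = packV (B + 1) n (rs.map toZ) → am.length = n →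
      Dom rs am → msum = maskN (B + 1) (2 ^ B) rs.length →
      scanQ B n M P vs pk am msum = true →
      ∀ p ∈ P, ∀ q ∈ vs.reverse ++ rs, 0 ≤ dot (toZ p) (mulVec M (toZ q))
  | [], rs, pk, am, msum, hr, hpk, ham, hdom, hm, h => by
    simp only [scanQ, rowsTest, forceN_eq, forceNs_eq, List.all_eq_true, Bool.and_eq_true,
      Nat.beq_eq, Nat.blt_eq] at h
    intro p hp q hq
    rw [List.reverse_nil, List.nil_append] at hq
    obtain ⟨hb, hl⟩ := h p hp
    have hQ : ∀ v ∈ rs.map toZ, v.length = n := fun v hv => by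
      obtain ⟨r, hr', rfl⟩ := List.mem_map.1 hv
      simp [toZ, hr r hr']
    have hval : dot (toZ p) (mulVec M (toZ pk))
        = pack (B + 1) ((rs.map toZ).map fun v => dot (toZ p) (mulVec M v)) := by
      rw [hpk, dot_mulVec_packV (B + 1) n _ M _ hQ]
    have hbound : ∀ c ∈ (rs.map toZ).map fun v => dot (toZ p) (mulVec M v), |c| < 2 ^ B := by
      intro c hc
      obtain ⟨v, hv, rfl⟩ := List.mem_map.1 hc
      obtain ⟨r, hr', rfl⟩ := List.mem_map.1 hv
      have hf : List.Forall₂ (fun c u => |c| ≤ u) (mulVec M (toZ r))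
          (mulVec (M.map fun r => r.map fun c => |c|) (toZ am)) := by
        have hr2 : List.Forall₂ (fun c u => |c| ≤ u) (toZ r) (toZ am) := by
          rw [toZ, toZ, List.forall₂_map_left_iff, List.forall₂_map_right_iff]
          refine List.Forall₂.imp ?_ (hdom r hr')
          intro c u hcu
          simpa using hcu
        simp only [mulVec, List.map_map]
        rw [List.forall₂_map_left_iff, List.forall₂_map_right_iff, List.forall₂_same]
        exact fun row _ => abs_dot_le row (toZ r) _ hr2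
      refine lt_of_le_of_lt (abs_dot_toNat_le p _ _ hf) ?_
      exact_mod_cast hb
    refine (nonneg_of_pack B _ hbound ?_).2 _
      (List.mem_map.2 ⟨toZ q, List.mem_map.2 ⟨q, hq, rfl⟩, rfl⟩)
    simp only [List.length_map, ← hm, ← hval]
    convert hl using 2
    rw [dot_split]
    simp only [Nat.sub_eq, Nat.add_eq, toZ]
    omega
  | v :: vs, rs, pk, am, msum, hr, hpk, ham, hdom, hm, h => by
    simp only [scanQ, forceN_eq, forceNs_eq, Bool.and_eq_true, Nat.beq_eq] at h
    obtain ⟨hv, h⟩ := h
    have hor := forall₂_orStep v am (hv.trans ham.symm)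
    have := scanQ_sound vs (v :: rs) _ _ _ (fun r hr' => by
        rcases List.mem_cons.1 hr' with rfl | hr'
        · exact hv
        · exact hr r hr')
      (by rw [packStep_toZ, hpk]; push_cast; rfl)
      (by rw [← hor.1.length_eq, hv])
      (fun q hq => by
        rcases List.mem_cons.1 hq with rfl | hq
        · exact hor.1
        · exact hor.2 q (hdom q hq))
      (by rw [hm]; rfl) h
    intro p hp q hq
    rw [List.reverse_cons, List.append_assoc] at hq
    exact this p hp q hq

/-- The test of a pair of cones. -/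
def pairTest (B w n : ℕ) (M : List (List ℤ)) (mus : List Expo) (U W : Cell) : Bool :=
  scanQ B mus.length M (vecs w n (vals mus U (ptN w n))) (vecs w n (vals mus W (ptN w n)))
    (List.replicate mus.length 0) (List.replicate mus.length 0) 0

lemma dotS_sum {S : Type} [CommRing S] {α β : Type} (s : Finset β) (m : β → S) (c : α → β → S) :
    ∀ (l : List α) (T : List S),
      dotS (l.map fun e => ∑ x ∈ s, c e x * m x) T
        = ∑ x ∈ s, dotS (l.map fun e => c e x) T * m x
  | [], _ => by simp [dotS]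
  | _ :: _, [] => by simp [dotS]
  | e :: l, y :: T => by
    simp only [List.map_cons, dotS, dotS_sum s m c l T, Finset.sum_mul, ← Finset.sum_add_distrib]
    exact Finset.sum_congr rfl fun x _ => by ring

lemma dotL_sum {S : Type} [CommRing S] {α β : Type} (s : Finset β) (m : β → S) (c : α → β → S) :
    ∀ (r : List ℤ) (l : List α),
      dotL r (l.map fun e => ∑ x ∈ s, c e x * m x)
        = ∑ x ∈ s, dotL r (l.map fun e => c e x) * m x
  | [], _ => by simp [dotL]
  | _ :: _, [] => by simp [dotL]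
  | a :: r, e :: l => by
    simp only [List.map_cons, dotL, dotL_sum s m c r l, Finset.mul_sum, ← Finset.sum_add_distrib]
    exact Finset.sum_congr rfl fun x _ => by ring

lemma dotS_sum_right {S : Type} [CommRing S] {α β : Type} (s : Finset β) (m : β → S)
    (c : α → β → S) :
    ∀ (a : List S) (l : List α),
      dotS a (l.map fun r => ∑ x ∈ s, c r x * m x)
        = ∑ x ∈ s, dotS a (l.map fun r => c r x) * m x
  | [], _ => by simp [dotS]
  | _ :: _, [] => by simp [dotS]
  | y :: a, r :: l => by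
    simp only [List.map_cons, dotS, dotS_sum_right s m c a l, Finset.mul_sum,
      ← Finset.sum_add_distrib]
    exact Finset.sum_congr rfl fun x _ => by ring

lemma dot_real (p : List ℤ) : ∀ q : List ℤ,
    ((dot p q : ℤ) : ℝ) = dotS (p.map fun x : ℤ => (x : ℝ)) (q.map fun x : ℤ => (x : ℝ)) := by
  induction p with
  | nil => intro q; simp [dot, dotS]
  | cons a p ih =>
    intro q
    cases q with
    | nil => simp [dot, dotS]
    | cons b q => simp [dot, dotS, ih q]

lemma dot_realL (p : List ℤ) : ∀ q : List ℤ,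
    ((dot p q : ℤ) : ℝ) = dotL p (q.map fun x : ℤ => (x : ℝ)) := by
  induction p with
  | nil => intro q; simp [dot, dotL]
  | cons a p ih =>
    intro q
    cases q with
    | nil => simp [dot, dotL]
    | cons b q => simp [dot, dotL, ih q]

lemma dot_zero_left : ∀ p q : List ℤ, (∀ c ∈ p, c = 0) → dot p q = 0
  | [], _, _ => by simp [dot]
  | _ :: _, [], _ => by simp [dot]
  | a :: p, b :: q, h => by
    simp [dot, h a (List.mem_cons_self ..),
      dot_zero_left p q fun x hx => h x (List.mem_cons_of_mem _ hx)]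

lemma dot_zero_right : ∀ p q : List ℤ, (∀ c ∈ q, c = 0) → dot p q = 0
  | [], _, _ => by simp [dot]
  | _ :: _, [], _ => by simp [dot]
  | a :: p, b :: q, h => by
    simp [dot, h b (List.mem_cons_self ..),
      dot_zero_right p q fun x hx => h x (List.mem_cons_of_mem _ hx)]

/-- Expansion of a symmetrised monomial on a cone. -/
lemma symL_uval_expand {t w n : ℕ} {mus : List Expo} {U : Cell}
    (hU : cellOK t w n mus U = true) {e : Expo} (he : e ∈ mus) (σ : ℕ → ℝ) :
    symL e (uval U σ) = ∑ x ∈ Finset.range n ×ˢ (Finset.range n ×ˢ Finset.range n),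
      ((coef3 w n (symL e (uval U (ptN w n))) x.1 x.2.1 x.2.2 : ℤ) : ℝ)
        * (σ 0 ^ x.1 * σ 1 ^ x.2.1 * σ 2 ^ x.2.2) := by
  simp only [cellOK, List.all_eq_true] at hU
  have hb : ∀ k, aev (mix k (ptZ w n)) (symP e (lin U))
      ≤ ((symL e (uval U (mixN k w n)) : ℕ) : ℤ) := fun k => by
    rw [symL_uval_cast, mix_ptZ]
    refine (aev_symP _ (fun i => Int.natCast_nonneg _) e _).trans (le_of_eq ?_)
    congr 1
    funext i
    exact aev_lin _ U i
  have hN : ev (ptZ w n) (symP e (lin U)) = ((symL e (uval U (ptN w n)) : ℕ) : ℤ) := by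
    rw [symL_uval_cast, ev_symP]
    congr 1
    funext i
    exact ev_lin _ U i
  have h := ev_eq_of_packOK (hU e he) (symP e (lin U)) hN (hb 1) (hb 2) (hb 3) σ
  rw [ev_symP] at h
  have e' : (fun i => ev σ (lin U i)) = uval U σ := funext fun i => ev_lin σ U i
  rw [e'] at h
  rw [h, Finset.sum_product]
  refine Finset.sum_congr rfl fun i _ => ?_
  rw [Finset.sum_product]
  simp

/-- All coefficients of the product form on a pair of cones are nonnegative. -/
def PairPos (w n : ℕ) (M : List (List ℤ)) (mus : List Expo) (U W : Cell) : Prop :=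
  ∀ p ∈ vecs w n (vals mus U (ptN w n)), ∀ q ∈ vecs w n (vals mus W (ptN w n)),
    0 ≤ dot (toZ p) (mulVec M (toZ q))

/-- The test of a pair of cones gives the sign of all coefficients. -/
lemma pairPos_of_pairTest {w n B : ℕ} {M : List (List ℤ)} {mus : List Expo} {U W : Cell}
    (h : pairTest B w n M mus U W = true) : PairPos w n M mus U W := by
  have hs0 := scanQ_sound _ [] _ _ _ (fun _ hr => absurd hr List.not_mem_nil)
    (by simp [toZ, packV]) (List.length_replicate ..) (fun _ hr => absurd hr List.not_mem_nil)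
    rfl h
  exact fun p hp q hq => hs0 p hp q (by simpa using hq)

/-- Soundness for a pair of cones with nonnegative coefficients. -/
theorem bil_nonneg_of_pairPos {t w n : ℕ} {M : List (List ℤ)} {mus : List Expo} {U W : Cell}
    (hU : cellOK t w n mus U = true) (hW : cellOK t w n mus W = true)
    (hs : PairPos w n M mus U W) {σ τ : ℕ → ℝ} (hσ : ∀ i, 0 ≤ σ i)
    (hτ : ∀ i, 0 ≤ τ i) : 0 ≤ bil M mus (uval U σ) (uval W τ) := by
  set idx := Finset.range n ×ˢ (Finset.range n ×ˢ Finset.range n) with hidx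
  set cU : Expo → ℕ × ℕ × ℕ → ℤ := fun e x =>
    (coef3 w n (symL e (uval U (ptN w n))) x.1 x.2.1 x.2.2 : ℤ)
  set cW : Expo → ℕ × ℕ × ℕ → ℤ := fun e x =>
    (coef3 w n (symL e (uval W (ptN w n))) x.1 x.2.1 x.2.2 : ℤ)
  rw [bil, List.map_congr_left fun e he => symL_uval_expand hU he σ,
    List.map_congr_left fun e he => symL_uval_expand hW he τ, dotS_sum]
  refine Finset.sum_nonneg fun x hx => mul_nonneg ?_ (by
    have := hσ 0; have := hσ 1; have := hσ 2
    positivity)
  simp only [dotL_sum]
  rw [dotS_sum_right]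
  refine Finset.sum_nonneg fun y hy => mul_nonneg ?_ (by
    have := hτ 0; have := hτ 1; have := hτ 2
    positivity)
  have e : dotS (mus.map fun e => ((cU e x : ℤ) : ℝ))
      (M.map fun r => dotL r (mus.map fun e => ((cW e y : ℤ) : ℝ)))
      = ((dot (mus.map fun e => cU e x) (mulVec M (mus.map fun e => cW e y)) : ℤ) : ℝ) := by
    rw [dot_real, mulVec, List.map_map, List.map_map]
    congr 1
    refine List.map_congr_left fun r _ => ?_
    simp only [Function.comp_apply]
    rw [dot_realL, List.map_map]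
    rfl
  rw [show dotS (mus.map fun e => ((cU e x : ℤ) : ℝ))
      (M.map fun r => dotL r (mus.map fun e => ((cW e y : ℤ) : ℝ))) = _ from e]
  have hmem : ∀ (z : ℕ × ℕ × ℕ), z ∈ idx → z.1 < n ∧ z.2.1 < n ∧ z.2.2 < n := fun z hz => by
    simp only [hidx, Finset.mem_product, Finset.mem_range] at hz
    exact hz
  obtain ⟨x1, x2, x3⟩ := hmem x hx
  obtain ⟨y1, y2, y3⟩ := hmem y hy
  have hu := vecs_spec (w := w) (vals mus U (ptN w n)) x1 x2 x3
  have hw := vecs_spec (w := w) (vals mus W (ptN w n)) y1 y2 y3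
  simp only [vals, List.map_map] at hu hw
  refine Int.cast_nonneg ?_
  rcases hu with hu | hu
  · rcases hw with hw | hw
    · have := hs _ hu _ hw
      simp only [toZ, List.map_map] at this
      exact this
    · refine le_of_eq (dot_zero_right _ _ fun c hc => ?_).symm
      simp only [mulVec, List.mem_map] at hc
      obtain ⟨r, -, rfl⟩ := hc
      refine dot_zero_right _ _ fun c hc => ?_
      obtain ⟨e, he, rfl⟩ := List.mem_map.1 hc
      show ((coef3 w n (symL e (uval W (ptN w n))) y.1 y.2.1 y.2.2 : ℕ) : ℤ) = 0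
      rw [Nat.cast_eq_zero]
      exact hw _ (List.mem_map.2 ⟨e, he, rfl⟩)
  · refine le_of_eq (dot_zero_left _ _ fun c hc => ?_).symm
    obtain ⟨e, he, rfl⟩ := List.mem_map.1 hc
    show ((coef3 w n (symL e (uval U (ptN w n))) x.1 x.2.1 x.2.2 : ℕ) : ℤ) = 0
    rw [Nat.cast_eq_zero]
    exact hu _ (List.mem_map.2 ⟨e, he, rfl⟩)

/-- Soundness of the test. -/
theorem bil_nonneg_of_pairTest {t w n B : ℕ} {M : List (List ℤ)} {mus : List Expo} {U W : Cell}
    (hU : cellOK t w n mus U = true) (hW : cellOK t w n mus W = true)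
    (h : pairTest B w n M mus U W = true) {σ τ : ℕ → ℝ} (hσ : ∀ i, 0 ≤ σ i)
    (hτ : ∀ i, 0 ≤ τ i) : 0 ≤ bil M mus (uval U σ) (uval W τ) :=
  bil_nonneg_of_pairPos hU hW (pairPos_of_pairTest h) hσ hτ

end Vale.Agent.P154.Q4
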