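import Vale.Agent.P154.Q4.Check
import Vale.Agent.P154.Q4.WeightCert
import Vale.Agent.P154.Q4.CertData

/-!
P154, four states: a bilinear certificate that is nonnegative on every pair of cones of a
subdivision of the ordered quadruples is nonnegative everywhere.
-/

namespace Vale.Agent.P154.Q4

/-- The cone of ordered quadruples. -/
def rootCell : Cell := ((1, 1, 1, 1), (0, 1, 1, 1), (0, 0, 1, 1), (0, 0, 0, 1))

/-- Replace one generator of a cone. -/
def setGen (V : Cell) (k : Fin 4) (m : Vtx) : Cell :=
  match k.val with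
  | 0 => (m, V.2.1, V.2.2.1, V.2.2.2)
  | 1 => (V.1, m, V.2.2.1, V.2.2.2)
  | 2 => (V.1, V.2.1, m, V.2.2.2)
  | _ => (V.1, V.2.1, V.2.2.1, m)

/-- The cut point on an edge of a cone. -/
def cutPt (V : Cell) (i j : Fin 4) (al be ga : ℕ) : Vtx :=
  let c := fun k => (al * vget (cv V i) k + be * vget (cv V j) k) / ga
  (c 0, c 1, c 2, c 3)

/-- The cut is exact. -/
def cutOK (V : Cell) (i j : Fin 4) (al be ga : ℕ) : Bool :=
  decide (0 < al) && decide (0 < be) && decide (0 < ga) && decide (i ≠ j) &&
    [(0 : Fin 4), 1, 2, 3].all fun k =>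
      decide (ga * vget (cutPt V i j al be ga) k = al * vget (cv V i) k + be * vget (cv V j) k)

/-- The leaves of a subdivision are among the listed pairs of cones. -/
def coverOK : CTree → Cell → Cell → List (Cell × List Cell) → Bool
  | .leaf, U, W, gs => gs.any fun g => decide (g.1 = U) && g.2.any fun x => decide (x = W)
  | .node true i j al be ga l r, U, W, gs =>
      cutOK W i j al be ga && coverOK l U (setGen W i (cutPt W i j al be ga)) gs &&
        coverOK r U (setGen W j (cutPt W i j al be ga)) gs
  | .node false i j al be ga l r, U, W, gs =>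
      cutOK U i j al be ga && coverOK l (setGen U i (cutPt U i j al be ga)) W gs &&
        coverOK r (setGen U j (cutPt U i j al be ga)) W gs

/-- Point of a cone. -/
def cpt (U : Cell) (p : Fin 4 → ℝ) : Fin 4 → ℝ :=
  fun c => ∑ k, p k * (vget (cv U k) c : ℝ)

lemma cv_setGen (V : Cell) (k l : Fin 4) (m : Vtx) :
    cv (setGen V k m) l = if l = k then m else cv V l := by
  fin_cases k <;> fin_cases l <;> rfl

lemma cutOK_spec {V : Cell} {i j : Fin 4} {al be ga : ℕ} (h : cutOK V i j al be ga = true) :
    0 < al ∧ 0 < be ∧ 0 < ga ∧ i ≠ j ∧ ∀ k, (ga : ℝ) * vget (cutPt V i j al be ga) k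
      = al * vget (cv V i) k + be * vget (cv V j) k := by
  simp only [cutOK, Bool.and_eq_true, decide_eq_true_eq, List.all_eq_true] at h
  obtain ⟨⟨⟨⟨ha, hb⟩, hg⟩, hij⟩, hk⟩ := h
  refine ⟨ha, hb, hg, hij, fun k => ?_⟩
  exact_mod_cast hk k (by fin_cases k <;> simp)

/-- A point of a cone lies in one of the two halves of an exact cut. -/
lemma cut_cases {V : Cell} {i j : Fin 4} {al be ga : ℕ} (h : cutOK V i j al be ga = true)
    {p : Fin 4 → ℝ} (hp : ∀ k, 0 ≤ p k) :
    (∃ p' : Fin 4 → ℝ, (∀ k, 0 ≤ p' k) ∧
        cpt V p = cpt (setGen V i (cutPt V i j al be ga)) p') ∨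
    ∃ p' : Fin 4 → ℝ, (∀ k, 0 ≤ p' k) ∧
        cpt V p = cpt (setGen V j (cutPt V i j al be ga)) p' := by
  obtain ⟨ha, hb, hg, hij, hm⟩ := cutOK_spec h
  have hA : (0 : ℝ) < al := by exact_mod_cast ha
  have hB : (0 : ℝ) < be := by exact_mod_cast hb
  rcases le_total (p i * be) (p j * al) with hc | hc
  · refine Or.inl ⟨Function.update (Function.update p j (p j - p i * be / al)) i (p i * ga / al),
      fun k => ?_, ?_⟩
    · by_cases hki : k = i
      · subst hki
        have := hp k
        simp only [Function.update_self]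
        positivity
      by_cases hkj : k = j
      · subst hkj
        simp only [Function.update_of_ne hki, Function.update_self, sub_nonneg, div_le_iff₀ hA]
        exact hc
      simpa [Function.update_of_ne hki, Function.update_of_ne hkj] using hp k
    · funext c
      simp only [cpt]
      rw [← sub_eq_zero, ← Finset.sum_sub_distrib, ← Finset.sum_subset (Finset.subset_univ {i, j})
        (fun k _ hk => by
          simp only [Finset.mem_insert, Finset.mem_singleton, not_or] at hk
          simp [cv_setGen, hk.1, Function.update_of_ne hk.2]),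
        Finset.sum_pair hij]
      simp only [cv_setGen, if_pos, if_neg hij.symm, Function.update_self,
        Function.update_of_ne hij.symm]
      field_simp
      linear_combination (-(p i)) * hm c
  · refine Or.inr ⟨Function.update (Function.update p i (p i - p j * al / be)) j (p j * ga / be),
      fun k => ?_, ?_⟩
    · by_cases hkj : k = j
      · subst hkj
        have := hp k
        simp only [Function.update_self]
        positivity
      by_cases hki : k = i
      · subst hki
        simp only [Function.update_of_ne hkj, Function.update_self, sub_nonneg, div_le_iff₀ hB]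
        exact hc
      simpa [Function.update_of_ne hki, Function.update_of_ne hkj] using hp k
    · funext c
      simp only [cpt]
      rw [← sub_eq_zero, ← Finset.sum_sub_distrib, ← Finset.sum_subset (Finset.subset_univ {i, j})
        (fun k _ hk => by
          simp only [Finset.mem_insert, Finset.mem_singleton, not_or] at hk
          simp [cv_setGen, hk.2, Function.update_of_ne hk.1]),
        Finset.sum_pair hij]
      simp only [cv_setGen, if_pos, if_neg hij, Function.update_self, Function.update_of_ne hij]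
      field_simp
      linear_combination (-(p j)) * hm c

variable {M : List (List ℤ)} {mus : List Expo} {D : ℕ}

lemma symL_scale (e : Expo) (c : ℝ) (v : Fin 4 → ℝ) :
    symL e (fun i => c * v i) = c ^ (e.1 + e.2.1 + e.2.2.1 + e.2.2.2) * symL e v := by
  simp [symL, T24, monE, mul_pow, pow_add]
  ring

lemma dotS_smul_right (c : ℝ) : ∀ p q : List ℝ, dotS p (q.map (c * ·)) = c * dotS p q
  | [], _ => by simp [dotS]
  | _ :: _, [] => by simp [dotS]
  | a :: p, b :: q => by simp only [List.map_cons, dotS, dotS_smul_right c p q]; ring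

lemma dotS_smul_left (c : ℝ) : ∀ p q : List ℝ, dotS (p.map (c * ·)) q = c * dotS p q
  | [], _ => by simp [dotS]
  | _ :: _, [] => by simp [dotS]
  | a :: p, b :: q => by simp only [List.map_cons, dotS, dotS_smul_left c p q]; ring

lemma dotL_smul_right (c : ℝ) : ∀ (r : List ℤ) (q : List ℝ), dotL r (q.map (c * ·)) = c * dotL r q
  | [], _ => by simp [dotL]
  | _ :: _, [] => by simp [dotL]
  | a :: p, b :: q => by simp only [List.map_cons, dotL, dotL_smul_right c p q]; ring

lemma bil_scale (hdeg : ∀ e ∈ mus, e.1 + e.2.1 + e.2.2.1 + e.2.2.2 = D) (c d : ℝ)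
    (u w : Fin 4 → ℝ) :
    bil M mus (fun i => c * u i) (fun i => d * w i) = c ^ D * (d ^ D * bil M mus u w) := by
  have h : ∀ (b : ℝ) (v : Fin 4 → ℝ), (mus.map fun e => symL e (fun i => b * v i))
      = (mus.map fun e => symL e v).map (b ^ D * ·) := by
    intro b v
    rw [List.map_map]
    exact List.map_congr_left fun e he => by simp [symL_scale, hdeg e he]
  unfold bil
  rw [h c u, dotS_smul_left, h d w]
  have hM : (M.map fun r => dotL r ((mus.map fun e => symL e w).map (d ^ D * ·)))
      = (M.map fun r => dotL r (mus.map fun e => symL e w)).map (d ^ D * ·) := by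
    conv_rhs => rw [List.map_map]
    exact List.map_congr_left fun r _ => dotL_smul_right (d ^ D) r (mus.map fun e => symL e w)
  rw [hM, dotS_smul_right]

lemma continuous_bil {f g : ℝ → Fin 4 → ℝ} (hf : Continuous f) (hg : Continuous g) :
    Continuous fun t => bil M mus (f t) (g t) := by
  have hsym : ∀ (e : Expo) (h : ℝ → Fin 4 → ℝ), Continuous h → Continuous fun t => symL e (h t) := by
    intro e h hh
    unfold symL
    exact continuous_list_sum _ fun t _ => by unfold monE; fun_prop
  have hL : ∀ (r : List ℤ) (l : List Expo),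
      Continuous fun t => dotL r (l.map fun e => symL e (g t)) := by
    intro r
    induction r with
    | nil => intro l; simp only [dotL]; exact continuous_const
    | cons a r ih =>
      intro l
      cases l with
      | nil => simp only [List.map_nil, dotL]; exact continuous_const
      | cons e l =>
        simp only [List.map_cons, dotL]
        exact (continuous_const.mul (hsym e g hg)).add (ih l)
  have hS : ∀ (l : List Expo) (rows : List (List ℤ)), Continuous fun t =>
      dotS (l.map fun e => symL e (f t)) (rows.map fun r => dotL r (mus.map fun e => symL e (g t))) := by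
    intro l
    induction l with
    | nil => intro rows; simp only [List.map_nil, dotS]; exact continuous_const
    | cons e l ih =>
      intro rows
      cases rows with
      | nil => simp only [List.map_nil]; exact continuous_const
      | cons r rows =>
        simp only [List.map_cons, dotS]
        exact ((hsym e f hf).mul (hL r mus)).add (ih rows)
  exact hS mus M

lemma cpt_eq_uval (U : Cell) {p : Fin 4 → ℝ} (h : p 3 ≠ 0) :
    cpt U p = fun i => p 3 * uval U (fun k => if k = 0 then p 0 / p 3 else
      if k = 1 then p 1 / p 3 else p 2 / p 3) i := by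
  funext i
  simp only [cpt, uval, Fin.sum_univ_four]
  norm_num
  field_simp
  ring

/-- Nonnegativity on a pair of cones from the dehomogenised statement. -/
lemma bil_nonneg_cpt (hdeg : ∀ e ∈ mus, e.1 + e.2.1 + e.2.2.1 + e.2.2.2 = D) {U W : Cell}
    (hleaf : ∀ s t : ℕ → ℝ, (∀ i, 0 ≤ s i) → (∀ i, 0 ≤ t i) →
      0 ≤ bil M mus (uval U s) (uval W t))
    {p q : Fin 4 → ℝ} (hp : ∀ k, 0 ≤ p k) (hq : ∀ k, 0 ≤ q k) :
    0 ≤ bil M mus (cpt U p) (cpt W q) := by
  have hpos : ∀ p q : Fin 4 → ℝ, (∀ k, 0 ≤ p k) → (∀ k, 0 ≤ q k) → 0 < p 3 → 0 < q 3 →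
      0 ≤ bil M mus (cpt U p) (cpt W q) := by
    intro p q hp hq hp3 hq3
    rw [cpt_eq_uval U hp3.ne', cpt_eq_uval W hq3.ne', bil_scale hdeg]
    refine mul_nonneg (pow_nonneg hp3.le _) (mul_nonneg (pow_nonneg hq3.le _) (hleaf _ _ ?_ ?_))
    · intro k
      have := hp 0; have := hp 1; have := hp 2
      split_ifs <;> positivity
    · intro k
      have := hq 0; have := hq 1; have := hq 2
      split_ifs <;> positivity
  let sh : (Fin 4 → ℝ) → ℝ → Fin 4 → ℝ := fun r t k => r k + if k = 3 then t else 0
  have hsh : ∀ r : Fin 4 → ℝ, Continuous (sh r) := fun r =>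
    continuous_pi fun k => by by_cases hk : k = 3 <;> simp [sh, hk] <;> fun_prop
  have hc : ∀ (V : Cell) (r : Fin 4 → ℝ), Continuous fun t => cpt V (sh r t) := fun V r =>
    continuous_pi fun c => continuous_finsetSum _ fun k _ =>
      ((continuous_apply k).comp (hsh r)).mul continuous_const
  have hlim : Filter.Tendsto (fun t => bil M mus (cpt U (sh p t)) (cpt W (sh q t)))
      (nhdsWithin 0 (Set.Ioi (0 : ℝ))) (nhds (bil M mus (cpt U (sh p 0)) (cpt W (sh q 0)))) :=
    ((continuous_bil (hc U p) (hc W q)).tendsto 0).mono_left nhdsWithin_le_nhds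
  have h0 : ∀ r : Fin 4 → ℝ, sh r 0 = r := fun r => funext fun k => by simp [sh]
  rw [h0, h0] at hlim
  refine ge_of_tendsto hlim ?_
  filter_upwards [self_mem_nhdsWithin] with t ht
  have ht' : (0 : ℝ) < t := ht
  have hn : ∀ r : Fin 4 → ℝ, (∀ k, 0 ≤ r k) → ∀ k, 0 ≤ sh r t k := fun r hr k => by
    have := hr k
    simp only [sh]
    split_ifs <;> linarith
  refine hpos _ _ (hn p hp) (hn q hq) ?_ ?_
  · have := hp 3; simp only [sh, if_true]; linarith
  · have := hq 3; simp only [sh, if_true]; linarith

lemma cover_sound (hdeg : ∀ e ∈ mus, e.1 + e.2.1 + e.2.2.1 + e.2.2.2 = D)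
    {gs : List (Cell × List Cell)}
    (hleaf : ∀ g ∈ gs, ∀ W ∈ g.2, ∀ s t : ℕ → ℝ, (∀ i, 0 ≤ s i) → (∀ i, 0 ≤ t i) →
      0 ≤ bil M mus (uval g.1 s) (uval W t)) :
    ∀ (T : CTree) (U W : Cell), coverOK T U W gs = true →
      ∀ p q : Fin 4 → ℝ, (∀ k, 0 ≤ p k) → (∀ k, 0 ≤ q k) →
        0 ≤ bil M mus (cpt U p) (cpt W q) := by
  intro T
  induction T with
  | leaf =>
    intro U W h p q hp hq
    simp only [coverOK, List.any_eq_true, Bool.and_eq_true, decide_eq_true_eq] at h
    obtain ⟨g, hg, rfl, W', hW, rfl⟩ := h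
    exact bil_nonneg_cpt hdeg (hleaf g hg W' hW) hp hq
  | node b i j al be ga l r ihl ihr =>
    intro U W h p q hp hq
    cases b with
    | true =>
      simp only [coverOK, Bool.and_eq_true] at h
      rcases cut_cases h.1.1 hq with ⟨q', hq', e⟩ | ⟨q', hq', e⟩
      · rw [e]; exact ihl U _ h.1.2 p q' hp hq'
      · rw [e]; exact ihr U _ h.2 p q' hp hq'
    | false =>
      simp only [coverOK, Bool.and_eq_true] at h
      rcases cut_cases h.1.1 hp with ⟨p', hp', e⟩ | ⟨p', hp', e⟩
      · rw [e]; exact ihl _ W h.1.2 p' q hp' hq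
      · rw [e]; exact ihr _ W h.2 p' q hp' hq

lemma cpt_root (a b c e : ℝ) : cpt rootCell ![a, b - a, c - b, e - c] = ![a, b, c, e] := by
  funext k
  fin_cases k <;> simp [cpt, rootCell, cv, vget, Fin.sum_univ_four]

lemma symL_swap01 (m : Expo) (a b c e : ℝ) : symL m ![b, a, c, e] = symL m ![a, b, c, e] := by
  simp [symL, T24, monE]
  ring

lemma symL_swap12 (m : Expo) (a b c e : ℝ) : symL m ![a, c, b, e] = symL m ![a, b, c, e] := by
  simp [symL, T24, monE]
  ring

lemma symL_swap23 (m : Expo) (a b c e : ℝ) : symL m ![a, b, e, c] = symL m ![a, b, c, e] := by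
  simp [symL, T24, monE]
  ring

/-- A covered bilinear certificate is nonnegative. -/
theorem bil_nonneg_of_cover {M : List (List ℤ)} {mus : List Expo} {D : ℕ} {tree : CTree}
    {groups : List (Cell × List Cell)}
    (hdeg : ∀ e ∈ mus, e.1 + e.2.1 + e.2.2.1 + e.2.2.2 = D)
    (hleaf : ∀ g ∈ groups, ∀ W ∈ g.2, ∀ s t : ℕ → ℝ, (∀ i, 0 ≤ s i) → (∀ i, 0 ≤ t i) →
      0 ≤ bil M mus (uval g.1 s) (uval W t))
    (htree : coverOK tree rootCell rootCell groups = true) :
    ∀ u w : Fin 4 → ℝ, (∀ i, 0 ≤ u i) → (∀ i, 0 ≤ w i) → 0 ≤ bil M mus u w := by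
  have hss : ∀ a b c e a' b' c' e' : ℝ, 0 ≤ a → a ≤ b → b ≤ c → c ≤ e → 0 ≤ a' → a' ≤ b' →
      b' ≤ c' → c' ≤ e' → 0 ≤ bil M mus ![a, b, c, e] ![a', b', c', e'] := by
    intro a b c e a' b' c' e' h1 h2 h3 h4 k1 k2 k3 k4
    rw [← cpt_root a b c e, ← cpt_root a' b' c' e']
    refine cover_sound hdeg hleaf tree _ _ htree _ _ ?_ ?_ <;>
      (intro k; fin_cases k <;> simp <;> assumption)
  intro u w hu hw
  have hu4 : u = ![u 0, u 1, u 2, u 3] := funext fun k => by fin_cases k <;> rfl
  have hw4 : w = ![w 0, w 1, w 2, w 3] := funext fun k => by fin_cases k <;> rfl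
  rw [hu4, hw4]
  refine nonneg_of_sorted (fun a b c e => bil M mus ![a, b, c, e] ![w 0, w 1, w 2, w 3])
    (fun a b c e => ?_) (fun a b c e => ?_) (fun a b c e => ?_)
    (fun a b c e h1 h2 h3 h4 => ?_) (hu 0) (hu 1) (hu 2) (hu 3)
  · simp only [bil, symL_swap01 _ a b c e]
  · simp only [bil, symL_swap12 _ a b c e]
  · simp only [bil, symL_swap23 _ a b c e]
  refine nonneg_of_sorted (fun a' b' c' e' => bil M mus ![a, b, c, e] ![a', b', c', e'])
    (fun a' b' c' e' => ?_) (fun a' b' c' e' => ?_) (fun a' b' c' e' => ?_)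
    (fun a' b' c' e' k1 k2 k3 k4 => hss a b c e a' b' c' e' h1 h2 h3 h4 k1 k2 k3 k4)
    (hw 0) (hw 1) (hw 2) (hw 3)
  · simp only [bil, symL_swap01 _ a' b' c' e']
  · simp only [bil, symL_swap12 _ a' b' c' e']
  · simp only [bil, symL_swap23 _ a' b' c' e']

/-- The subdivision of the certificate A ends in the listed pairs. -/
theorem coverA : coverOK treeA rootCell rootCell groupsA = true := by decide +kernel

/-- The subdivision of the certificate I ends in the listed pairs. -/
theorem coverI : coverOK treeI rootCell rootCell groupsI = true := by decide +kernel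

end Vale.Agent.P154.Q4
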