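import Vale.Agent.P154.Q4.Reduce

/-!
P154, four states: the two polynomial functionals as combinations of symmetrised monomials.
-/

namespace Vale.Agent.P154.Q4

open scoped BigOperators

/-- Enumeration of the rearrangements of four points. -/
def permOf (x : Fin 4 × Fin 3 × Fin 2) : Equiv.Perm (Fin 4) :=
  Equiv.swap 0 x.1 * Equiv.swap 1 x.2.1.succ * Equiv.swap 2 x.2.2.succ.succ

lemma permOf_bijective : Function.Bijective permOf := by decide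

/-- Symmetrised monomial with given exponents, written out. -/
def symx (a b c e : ℕ) (v : Fin 4 → ℝ) : ℝ :=
  v 0 ^ a * v 1 ^ b * v 2 ^ c * v 3 ^ e
  + v 0 ^ a * v 1 ^ b * v 3 ^ c * v 2 ^ e
  + v 0 ^ a * v 2 ^ b * v 1 ^ c * v 3 ^ e
  + v 0 ^ a * v 2 ^ b * v 3 ^ c * v 1 ^ e
  + v 0 ^ a * v 3 ^ b * v 2 ^ c * v 1 ^ e
  + v 0 ^ a * v 3 ^ b * v 1 ^ c * v 2 ^ e
  + v 1 ^ a * v 0 ^ b * v 2 ^ c * v 3 ^ e
  + v 1 ^ a * v 0 ^ b * v 3 ^ c * v 2 ^ e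
  + v 1 ^ a * v 2 ^ b * v 0 ^ c * v 3 ^ e
  + v 1 ^ a * v 2 ^ b * v 3 ^ c * v 0 ^ e
  + v 1 ^ a * v 3 ^ b * v 2 ^ c * v 0 ^ e
  + v 1 ^ a * v 3 ^ b * v 0 ^ c * v 2 ^ e
  + v 2 ^ a * v 1 ^ b * v 0 ^ c * v 3 ^ e
  + v 2 ^ a * v 1 ^ b * v 3 ^ c * v 0 ^ e
  + v 2 ^ a * v 0 ^ b * v 1 ^ c * v 3 ^ e
  + v 2 ^ a * v 0 ^ b * v 3 ^ c * v 1 ^ e
  + v 2 ^ a * v 3 ^ b * v 0 ^ c * v 1 ^ e
  + v 2 ^ a * v 3 ^ b * v 1 ^ c * v 0 ^ e
  + v 3 ^ a * v 1 ^ b * v 2 ^ c * v 0 ^ e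
  + v 3 ^ a * v 1 ^ b * v 0 ^ c * v 2 ^ e
  + v 3 ^ a * v 2 ^ b * v 1 ^ c * v 0 ^ e
  + v 3 ^ a * v 2 ^ b * v 0 ^ c * v 1 ^ e
  + v 3 ^ a * v 0 ^ b * v 2 ^ c * v 1 ^ e
  + v 3 ^ a * v 0 ^ b * v 1 ^ c * v 2 ^ e

lemma sym_eq_symx (a b c e : ℕ) (v : Fin 4 → ℝ) : sym ![a, b, c, e] v = symx a b c e v := by
  rw [sym, ← Equiv.sum_comp (Equiv.ofBijective permOf permOf_bijective)]
  simp only [Equiv.ofBijective_apply, Fintype.sum_prod_type, Fin.sum_univ_four, Fin.sum_univ_three,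
    Fin.sum_univ_two, Fin.prod_univ_four]
  simp [symx, permOf, Equiv.swap_apply_def, Equiv.Perm.mul_apply]
  ring

lemma polA_expand (v : Fin 4 → ℝ) : polA v =
    (1 / 8) * symx 1 0 0 0 v
    + (-25161 / 40000) * symx 1 1 0 0 v
    + (51977 / 80000) * symx 1 1 1 0 v
    + (51977 / 80000) * symx 2 1 0 0 v
    + (-28149 / 160000) * symx 1 1 1 1 v
    + (-28149 / 32000) * symx 2 1 1 0 v
    + (-28149 / 160000) * symx 2 2 0 0 v
    + (-28149 / 160000) * symx 3 1 0 0 v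
    + (151389 / 640000) * symx 2 1 1 1 v
    + (50463 / 160000) * symx 2 2 1 0 v
    + (117747 / 640000) * symx 3 1 1 0 v
    + (50463 / 640000) * symx 3 2 0 0 v
    + (16821 / 640000) * symx 4 1 0 0 v
    + (-409227 / 5120000) * symx 2 2 1 1 v
    + (-31479 / 1280000) * symx 2 2 2 0 v
    + (-10493 / 320000) * symx 3 1 1 1 v
    + (-115423 / 1280000) * symx 3 2 1 0 v
    + (-31479 / 5120000) * symx 3 3 0 0 v
    + (-94437 / 5120000) * symx 4 1 1 0 v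
    + (-10493 / 1280000) * symx 4 2 0 0 v
    + (-10493 / 5120000) * symx 5 1 0 0 v
    + (11997 / 2048000) * symx 2 2 2 1 v
    + (22661 / 2048000) * symx 3 2 1 1 v
    + (1333 / 256000) * symx 3 2 2 0 v
    + (1333 / 409600) * symx 3 3 1 0 v
    + (1333 / 819200) * symx 4 1 1 1 v
    + (9331 / 2048000) * symx 4 2 1 0 v
    + (1333 / 2048000) * symx 4 3 0 0 v
    + (14663 / 20480000) * symx 5 1 1 0 v
    + (1333 / 4096000) * symx 5 2 0 0 v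
    + (1333 / 20480000) * symx 6 1 0 0 v := by
  simp only [polA, ee2, se2, ser1, pP_four, symx]
  ring

end Vale.Agent.P154.Q4
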