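import Vale.Agent.P154.Q4.CertTest

/-!
P154, four states: the test of a pair of cones with plain recursors, which is cheaper for the
kernel, and its agreement with `pairTest`.
-/

namespace Vale.Agent.P154.Q4

/-- `forceNs` by the recursor. -/
noncomputable def forceR {α : Type} (l : List ℕ) (k : List ℕ → α) : α :=
  List.rec (motive := fun _ => (List ℕ → α) → α) (fun k => k [])
    (fun x _ ih k => Nat.casesOn (motive := fun _ => α) x (ih fun l => k (0 :: l))
      (fun m => ih fun l => k (Nat.succ m :: l))) l k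

/-- `List.map` by the recursor. -/
noncomputable def mapR {α β : Type} (f : α → β) (l : List α) : List β :=
  List.rec (motive := fun _ => List β) [] (fun a _ ih => f a :: ih) l

/-- `orAll` by the recursor. -/
noncomputable def orR (l : List ℕ) : ℕ :=
  List.rec (motive := fun _ => ℕ) 0 (fun x _ ih => Nat.lor x ih) l

/-- Append by the recursor. -/
noncomputable def appR {α : Type} (a b : List α) : List α :=
  List.rec (motive := fun _ => List α) b (fun x _ ih => x :: ih) a

/-- `scanD` by the recursor. -/
noncomputable def scanR {α : Type} (K : ℕ) (g : List ℕ → List α) (f : ℕ) : List ℕ → List α :=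
  Nat.rec (motive := fun _ => List ℕ → List α) (fun _ => [])
    (fun _ ih l => bif Nat.beq (orR l) 0 then [] else
      appR (g (mapR (fun x => Nat.mod x K) l)) (ih (mapR (fun x => Nat.div x K) l))) f

/-- `vecs` by the recursor. -/
noncomputable def vecsR (w n : ℕ) (Ns : List ℕ) : List (List ℕ) :=
  scanR (2 ^ (w * n * n))
    (fun a => scanR (2 ^ (w * n)) (fun b => scanR (2 ^ w) (fun c => [c]) n b) n a) n Ns

/-- Length by the recursor. -/
noncomputable def lenR {α : Type} (l : List α) : ℕ :=
  List.rec (motive := fun _ => ℕ) 0 (fun _ _ ih => Nat.add ih 1) l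

/-- `List.all` by the recursor. -/
noncomputable def allR {α : Type} (f : α → Bool) (l : List α) : Bool :=
  List.rec (motive := fun _ => Bool) true (fun a _ ih => f a && ih) l

/-- `dotN` by the recursor. -/
noncomputable def dotR (p : List ℕ) : List ℕ → ℕ :=
  List.rec (motive := fun _ => List ℕ → ℕ) (fun _ => 0)
    (fun a _ ih q => List.casesOn (motive := fun _ => ℕ) q 0
      fun b q => Nat.add (Nat.mul a b) (ih q)) p

/-- `packStep` by the recursor. -/
noncomputable def packR (K : ℕ) (v : List ℕ) : List ℕ → List ℕ :=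
  List.rec (motive := fun _ => List ℕ → List ℕ) (fun _ => [])
    (fun a _ ih q => List.casesOn (motive := fun _ => List ℕ) q []
      fun b q => Nat.add a (Nat.mul K b) :: ih q) v

/-- `orStep` by the recursor. -/
noncomputable def orStepR (v : List ℕ) : List ℕ → List ℕ :=
  List.rec (motive := fun _ => List ℕ → List ℕ) (fun _ => [])
    (fun a _ ih q => List.casesOn (motive := fun _ => List ℕ) q []
      fun b q => Nat.lor a b :: ih q) v

/-- `rowsTest` by the recursor. -/
noncomputable def rowsR (B : ℕ) (M : List (List ℤ)) (P : List (List ℕ)) (pk am : List ℕ)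
    (msum : ℕ) : Bool :=
  forceR (mapR (fun x => x.toNat) (mulVec M (mapR (fun x : ℕ => (x : ℤ)) pk))) fun Vp =>
    forceR (mapR (fun x => (-x).toNat) (mulVec M (mapR (fun x : ℕ => (x : ℤ)) pk))) fun Vn =>
      forceR (mapR (fun x => x.toNat)
          (mulVec (mapR (fun r => mapR (fun c => |c|) r) M) (mapR (fun x : ℕ => (x : ℤ)) am)))
        fun bd => forceN (2 ^ B) fun lim => allR (fun p =>
          Nat.blt (dotR p bd) lim &&
            Nat.beq (Nat.land (Nat.sub (Nat.add (dotR p Vp) msum) (dotR p Vn)) msum) msum) P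

/-- `scanQ` by the recursor. -/
noncomputable def scanQR (B n : ℕ) (M : List (List ℤ)) (P vs : List (List ℕ)) :
    List ℕ → List ℕ → ℕ → Bool :=
  List.rec (motive := fun _ => List ℕ → List ℕ → ℕ → Bool)
    (fun pk am msum => rowsR B M P pk am msum)
    (fun v _ ih pk am msum => Nat.beq (lenR v) n &&
      forceR (packR (2 ^ (B + 1)) v pk) fun pk => forceR (orStepR v am) fun am =>
        forceN (Nat.add (2 ^ B) (Nat.mul (2 ^ (B + 1)) msum)) fun msum => ih pk am msum) vs

/-- `pairTest` by the recursor. -/
noncomputable def pairR (B w n : ℕ) (M : List (List ℤ)) (mus : List Expo) (U W : Cell) : Bool :=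
  scanQR B (lenR mus) M (vecsR w n (vals mus U (ptN w n))) (vecsR w n (vals mus W (ptN w n)))
    (List.replicate mus.length 0) (List.replicate mus.length 0) 0

lemma forceR_eq {α : Type} : ∀ (l : List ℕ) (k : List ℕ → α), forceR l k = k l
  | [], _ => rfl
  | 0 :: xs, k => forceR_eq xs fun l => k (0 :: l)
  | (m + 1) :: xs, k => forceR_eq xs fun l => k ((m + 1) :: l)

lemma mapR_eq {α β : Type} (f : α → β) : ∀ l : List α, mapR f l = l.map f
  | [] => rfl
  | a :: l => congrArg (f a :: ·) (mapR_eq f l)

lemma orR_eq : ∀ l : List ℕ, orR l = orAll l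
  | [] => rfl
  | a :: l => congrArg (Nat.lor a) (orR_eq l)

lemma appR_eq {α : Type} : ∀ a b : List α, appR a b = a ++ b
  | [], _ => rfl
  | x :: a, b => congrArg (x :: ·) (appR_eq a b)

lemma lenR_eq {α : Type} : ∀ l : List α, lenR l = l.length
  | [] => rfl
  | _ :: l => congrArg (· + 1) (lenR_eq l)

lemma allR_eq {α : Type} (f : α → Bool) : ∀ l : List α, allR f l = l.all f
  | [] => rfl
  | a :: l => by
    show (f a && allR f l) = _
    rw [allR_eq f l, List.all_cons]

lemma scanR_eq {α : Type} (K : ℕ) (g g' : List ℕ → List α) (hg : ∀ l, g l = g' l) :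
    ∀ (f : ℕ) (l : List ℕ), scanR K g f l = scanD K g' f l
  | 0, _ => rfl
  | f + 1, l => by
    show (bif Nat.beq (orR l) 0 then [] else
      appR (g (mapR (fun x => Nat.mod x K) l)) (scanR K g f (mapR (fun x => Nat.div x K) l))) = _
    rw [orR_eq, appR_eq, mapR_eq, mapR_eq, hg, scanR_eq K g g' hg f, scanD, forceNs_eq, forceNs_eq]

lemma vecsR_eq (w n : ℕ) (Ns : List ℕ) : vecsR w n Ns = vecs w n Ns := by
  rw [vecs, forceNs_eq]
  exact scanR_eq _ _ _ (fun a => scanR_eq _ _ _
    (fun b => scanR_eq _ _ _ (fun _ => rfl) n b) n a) n Ns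

lemma dotR_eq : ∀ p q : List ℕ, dotR p q = dotN p q
  | [], _ => rfl
  | _ :: _, [] => rfl
  | a :: p, b :: q => congrArg (Nat.add (Nat.mul a b)) (dotR_eq p q)

lemma packR_eq (K : ℕ) : ∀ p q : List ℕ, packR K p q = packStep K p q
  | [], _ => rfl
  | _ :: _, [] => rfl
  | a :: p, b :: q => congrArg (Nat.add a (Nat.mul K b) :: ·) (packR_eq K p q)

lemma orStepR_eq : ∀ p q : List ℕ, orStepR p q = orStep p q
  | [], _ => rfl
  | _ :: _, [] => rfl
  | a :: p, b :: q => congrArg (Nat.lor a b :: ·) (orStepR_eq p q)

lemma rowsR_eq (B : ℕ) (M : List (List ℤ)) (P : List (List ℕ)) (pk am : List ℕ) (msum : ℕ) :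
    rowsR B M P pk am msum = rowsTest B M P pk am msum := by
  simp only [rowsR, rowsTest, forceR_eq, forceNs_eq, forceN_eq, allR_eq, mapR_eq, dotR_eq]

lemma scanQR_eq (B n : ℕ) (M : List (List ℤ)) (P : List (List ℕ)) :
    ∀ (vs : List (List ℕ)) (pk am : List ℕ) (msum : ℕ),
      scanQR B n M P vs pk am msum = scanQ B n M P vs pk am msum
  | [], pk, am, msum => rowsR_eq B M P pk am msum
  | v :: vs, pk, am, msum => by
    show (Nat.beq (lenR v) n &&
      forceR (packR (2 ^ (B + 1)) v pk) fun pk => forceR (orStepR v am) fun am =>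
        forceN (Nat.add (2 ^ B) (Nat.mul (2 ^ (B + 1)) msum)) fun msum =>
          scanQR B n M P vs pk am msum) = _
    simp only [scanQ, lenR_eq, forceR_eq, forceNs_eq, forceN_eq, packR_eq, orStepR_eq,
      scanQR_eq B n M P vs]

lemma pairR_eq (B w n : ℕ) (M : List (List ℤ)) (mus : List Expo) (U W : Cell) :
    pairR B w n M mus U W = pairTest B w n M mus U W := by
  rw [pairR, pairTest, scanQR_eq, vecsR_eq, vecsR_eq, lenR_eq]

/-- A group is accepted once its cones and its pairs are. -/
lemma groupTest_of_pairs {B t w n : ℕ} {M : List (List ℤ)} {mus : List Expo} {U : Cell}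
    {Ws : List Cell} (hU : cellOK t w n mus U = true)
    (h : ∀ W ∈ Ws, cellOK t w n mus W = true ∧ pairR B w n M mus U W = true) :
    groupTest B t w n M mus (U, Ws) = true := by
  simp only [groupTest, hU, Bool.true_and, List.all_eq_true, Bool.and_eq_true, ← pairR_eq]
  exact h

/-- The test of a pair with plain recursors, together with the packing of both cones. -/
noncomputable def linkTest (B t w n : ℕ) (M : List (List ℤ)) (mus : List Expo) (U W : Cell) :
    Bool :=
  cellOK t w n mus W && pairR B w n M mus U W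

lemma groupTest_of_links {B t w n : ℕ} {M : List (List ℤ)} {mus : List Expo} {U : Cell}
    {Ws : List Cell} (hU : cellOK t w n mus U = true)
    (h : ∀ W ∈ Ws, linkTest B t w n M mus U W = true) :
    groupTest B t w n M mus (U, Ws) = true :=
  groupTest_of_pairs hU fun W hW => by simpa [linkTest] using h W hW

end Vale.Agent.P154.Q4
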