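import Mathlib

/-!
The functionals of a four-coordinate likelihood vector used for the four-state Potts recursion,
and the kernel inequalities they satisfy (stated here, proved in `Q4/Kernel.lean`).

For `L ≥ 0` put `pP L = mean L`, `x i = L i / pP L - 1`, `qA, qT, qQ` the second, third and fourth
moments of `x`.  Every functional is `pP L` times a polynomial in these moments.
-/

namespace Vale.Agent.P154.Q4

open scoped BigOperators

/-- Mean coordinate. -/
noncomputable def pP (L : Fin 4 → ℝ) : ℝ := (∑ i, L i) / 4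

/-- Moment of order `k` of the normalised deviations. -/
noncomputable def mom (k : ℕ) (L : Fin 4 → ℝ) : ℝ := (∑ i, (L i / pP L - 1) ^ k) / 4

/-- Chi-square functional. -/
noncomputable def fA (L : Fin 4 → ℝ) : ℝ := pP L * mom 2 L

/-- Squared chi-square functional. -/
noncomputable def fA2 (L : Fin 4 → ℝ) : ℝ := pP L * mom 2 L ^ 2

/-- The invariant functional. -/
noncomputable def fI (L : Fin 4 → ℝ) : ℝ :=
  pP L * (mom 3 L / 2 - mom 2 L ^ 2 / 5 - mom 4 L / 10 + 2 / 25 * (mom 3 L * mom 2 L))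

/-- Weight of the invariant in the bound for the chi-square functional. -/
noncomputable def fG (L : Fin 4 → ℝ) : ℝ :=
  pP L * (4 / 3 * mom 2 L - 15 / 100 * mom 3 L + 30 / 100 * mom 2 L ^ 2 - 27 / 100 * mom 4 L)

/-- Loss factor in the bound for the invariant. -/
noncomputable def fJ (L : Fin 4 → ℝ) : ℝ :=
  pP L * (1845 / 1000 * mom 2 L + 193 / 1000 * mom 3 L + 1833 / 1000 * mom 2 L ^ 2
    - 1809 / 1000 * mom 4 L + 1293 / 1000 * (mom 2 L * mom 3 L) - 2216 / 1000 * mom 2 L ^ 3
    - 494 / 1000 * mom 3 L ^ 2 + 1113 / 1000 * (mom 2 L * mom 4 L))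

/-- Average of `F` over the products of `L` with the rearrangements of `M`. -/
noncomputable def avg24 (F : (Fin 4 → ℝ) → ℝ) (L M : Fin 4 → ℝ) : ℝ :=
  (∑ π : Equiv.Perm (Fin 4), F fun i => L i * M (π i)) / 24

/-- Combining two observations lowers the chi-square functional, up to the invariant. -/
def KernelA : Prop :=
  ∀ L M : Fin 4 → ℝ, (∀ i, 0 ≤ L i) → (∀ i, 0 ≤ M i) →
    avg24 fA L M ≤ fA L * pP M + pP L * fA M - (fI L * fG M + fG L * fI M)
      - 1 / 200 * (fA2 L * fA M + fA L * fA2 M)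

/-- Combining two observations preserves the sign of the invariant. -/
def KernelI : Prop :=
  ∀ L M : Fin 4 → ℝ, (∀ i, 0 ≤ L i) → (∀ i, 0 ≤ M i) →
    fI L * pP M + pP L * fI M - (fI L * fJ M + fJ L * fI M) ≤ avg24 fI L M

/-- The weight `fG` is nonnegative and `fJ` is at most the total mass. -/
def WeightBounds : Prop :=
  ∀ L : Fin 4 → ℝ, (∀ i, 0 ≤ L i) → 0 ≤ fG L ∧ fJ L ≤ pP L

/-- The Potts kernel applied to a likelihood vector. -/
noncomputable def mixv (lam : ℝ) (L : Fin 4 → ℝ) : Fin 4 → ℝ :=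
  fun i => lam * L i + (1 - lam) * pP L

/-- Behaviour of the two functionals under the kernel. -/
def KernelMix : Prop :=
  ∀ (lam : ℝ) (L : Fin 4 → ℝ), 0 ≤ lam → lam ≤ 1 → (∀ i, 0 ≤ L i) →
    fA (mixv lam L) = lam ^ 2 * fA L ∧ lam ^ 3 * fI L ≤ fI (mixv lam L)

end Vale.Agent.P154.Q4
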