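import Vale.Agent.P154.Q4.CertDefs

/-!
P154, four states: data linking the bilinear certificates to the kernel functionals.
-/

namespace Vale.Agent.P154.Q4

/-- Lifts of the orbit exponents to degree 7, certificate A, part 0. -/
def tblA0 : List (Expo × List ℤ) := [
  ((7, 0, 0, 0), [1, 0, 0, 0, 0, 0, 0, 0, 0, 0, 0]),
  ((6, 1, 0, 0), [0, 1, 0, 0, 0, 0, 0, 0, 0, 0, 0]),
  ((5, 2, 0, 0), [0, 0, 1, 0, 0, 0, 0, 0, 0, 0, 0]),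
  ((5, 1, 1, 0), [0, 0, 0, 1, 0, 0, 0, 0, 0, 0, 0]),
  ((4, 3, 0, 0), [0, 0, 0, 0, 1, 0, 0, 0, 0, 0, 0]),
  ((4, 2, 1, 0), [0, 0, 0, 0, 0, 1, 0, 0, 0, 0, 0])]

/-- Lifts of the orbit exponents to degree 7, certificate A, part 1. -/
def tblA1 : List (Expo × List ℤ) := [
  ((4, 1, 1, 1), [0, 0, 0, 0, 0, 0, 1, 0, 0, 0, 0]),
  ((3, 3, 1, 0), [0, 0, 0, 0, 0, 0, 0, 1, 0, 0, 0]),
  ((3, 2, 2, 0), [0, 0, 0, 0, 0, 0, 0, 0, 1, 0, 0]),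
  ((3, 2, 1, 1), [0, 0, 0, 0, 0, 0, 0, 0, 0, 1, 0]),
  ((2, 2, 2, 1), [0, 0, 0, 0, 0, 0, 0, 0, 0, 0, 1]),
  ((6, 0, 0, 0), [1, 3, 0, 0, 0, 0, 0, 0, 0, 0, 0])]

/-- Lifts of the orbit exponents to degree 7, certificate A, part 2. -/
def tblA2 : List (Expo × List ℤ) := [
  ((5, 1, 0, 0), [0, 1, 1, 2, 0, 0, 0, 0, 0, 0, 0]),
  ((4, 2, 0, 0), [0, 0, 1, 0, 1, 2, 0, 0, 0, 0, 0]),
  ((4, 1, 1, 0), [0, 0, 0, 1, 0, 2, 1, 0, 0, 0, 0]),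
  ((3, 3, 0, 0), [0, 0, 0, 0, 2, 0, 0, 2, 0, 0, 0]),
  ((3, 2, 1, 0), [0, 0, 0, 0, 0, 1, 0, 1, 1, 1, 0]),
  ((3, 1, 1, 1), [0, 0, 0, 0, 0, 0, 1, 0, 0, 3, 0])]

/-- Lifts of the orbit exponents to degree 7, certificate A, part 3. -/
def tblA3 : List (Expo × List ℤ) := [
  ((2, 2, 2, 0), [0, 0, 0, 0, 0, 0, 0, 0, 3, 0, 1]),
  ((2, 2, 1, 1), [0, 0, 0, 0, 0, 0, 0, 0, 0, 2, 2]),
  ((5, 0, 0, 0), [1, 6, 3, 6, 0, 0, 0, 0, 0, 0, 0]),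
  ((4, 1, 0, 0), [0, 1, 2, 4, 1, 6, 2, 0, 0, 0, 0]),
  ((3, 2, 0, 0), [0, 0, 1, 0, 3, 4, 0, 4, 2, 2, 0]),
  ((3, 1, 1, 0), [0, 0, 0, 1, 0, 4, 2, 2, 2, 5, 0])]

/-- Lifts of the orbit exponents to degree 7, certificate A, part 4. -/
def tblA4 : List (Expo × List ℤ) := [
  ((2, 2, 1, 0), [0, 0, 0, 0, 0, 2, 0, 2, 5, 4, 3]),
  ((2, 1, 1, 1), [0, 0, 0, 0, 0, 0, 1, 0, 0, 9, 6]),
  ((4, 0, 0, 0), [1, 9, 9, 18, 3, 18, 6, 0, 0, 0, 0]),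
  ((3, 1, 0, 0), [0, 1, 3, 6, 4, 18, 6, 8, 6, 12, 0]),
  ((2, 2, 0, 0), [0, 0, 2, 0, 6, 12, 0, 12, 14, 12, 6]),
  ((2, 1, 1, 0), [0, 0, 0, 1, 0, 8, 3, 6, 12, 22, 12])]

/-- Lifts of the orbit exponents to degree 7, certificate A, part 5. -/
def tblA5 : List (Expo × List ℤ) := [
  ((1, 1, 1, 1), [0, 0, 0, 0, 0, 0, 4, 0, 0, 36, 24]),
  ((3, 0, 0, 0), [1, 12, 18, 36, 15, 72, 24, 24, 18, 36, 0]),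
  ((2, 1, 0, 0), [0, 1, 5, 8, 10, 46, 12, 32, 44, 68, 30]),
  ((1, 1, 1, 0), [0, 0, 0, 3, 0, 24, 13, 18, 36, 102, 60]),
  ((2, 0, 0, 0), [1, 15, 33, 60, 45, 210, 60, 120, 150, 240, 90]),
  ((1, 1, 0, 0), [0, 2, 10, 22, 20, 140, 50, 100, 160, 340, 180])]

/-- Lifts of the orbit exponents to degree 7, certificate A, part 6. -/
def tblA6 : List (Expo × List ℤ) := [
  ((1, 0, 0, 0), [1, 21, 63, 126, 105, 630, 210, 420, 630, 1260, 630]),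
  ((0, 0, 0, 0), [4, 84, 252, 504, 420, 2520, 840, 1680, 2520, 5040, 2520])]

/-- Lifts of the orbit exponents to degree 7, certificate A. -/
def tblA : List (Expo × List ℤ) :=
  tblA0 ++ tblA1 ++ tblA2 ++ tblA3 ++ tblA4 ++ tblA5 ++ tblA6

/-- Averaged part of the certificate A, part 0. -/
def diagA0 : List (ℤ × Expo) := [
  (-540000, (1, 0, 0, 0)),
  (43478208, (1, 1, 0, 0)),
  (-718530048, (1, 1, 1, 0)),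
  (3113054208, (1, 1, 1, 1)),
  (-718530048, (2, 1, 0, 0)),
  (15565271040, (2, 1, 1, 0)),
  (-66969649152, (2, 1, 1, 1)),
  (3113054208, (2, 2, 0, 0)),
  (-89292865536, (2, 2, 1, 0)),
  (362057859072, (2, 2, 1, 1)),
  (111402418176, (2, 2, 2, 0)),
  (-424567111680, (2, 2, 2, 1)),
  (3113054208, (3, 1, 0, 0)),
  (-52087504896, (3, 1, 1, 0)),
  (148536557568, (3, 1, 1, 1)),
  (-22323216384, (3, 2, 0, 0))]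

/-- Averaged part of the certificate A, part 1. -/
def diagA1 : List (ℤ × Expo) := [
  (408475533312, (3, 2, 1, 0)),
  (-801960099840, (3, 2, 1, 1)),
  (-377392988160, (3, 2, 2, 0)),
  (27850604544, (3, 3, 0, 0)),
  (-235870617600, (3, 3, 1, 0)),
  (-7441072128, (4, 1, 0, 0)),
  (83551813632, (4, 1, 1, 0)),
  (-117935308800, (4, 1, 1, 1)),
  (37134139392, (4, 2, 0, 0)),
  (-330218864640, (4, 2, 1, 0)),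
  (-47174123520, (4, 3, 0, 0)),
  (9283534848, (5, 1, 0, 0)),
  (-51891535872, (5, 1, 1, 0)),
  (-23587061760, (5, 2, 0, 0)),
  (-4717412352, (6, 1, 0, 0))]

/-- Averaged part of the certificate A. -/
def diagA : List (ℤ × Expo) :=
  diagA0 ++ diagA1

/-- Product part of the certificate A, part 0. -/
def crossA0 : List (ℤ × Expo × Expo) := [
  (52289, (0, 0, 0, 0), (0, 0, 0, 0)),
  (-427182, (0, 0, 0, 0), (1, 0, 0, 0)),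
  (395364, (0, 0, 0, 0), (1, 1, 0, 0)),
  (1201168, (0, 0, 0, 0), (2, 0, 0, 0)),
  (-1777584, (0, 0, 0, 0), (2, 1, 0, 0)),
  (1973712, (0, 0, 0, 0), (2, 2, 0, 0)),
  (-1083088, (0, 0, 0, 0), (3, 0, 0, 0)),
  (523008, (0, 0, 0, 0), (3, 1, 0, 0)),
  (-1046016, (0, 0, 0, 0), (3, 2, 0, 0)),
  (583792, (0, 0, 0, 0), (4, 0, 0, 0)),
  (-348672, (0, 0, 0, 0), (5, 0, 0, 0)),
  (-427182, (1, 0, 0, 0), (0, 0, 0, 0)),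
  (3592720, (1, 0, 0, 0), (1, 0, 0, 0)),
  (-4176384, (1, 0, 0, 0), (1, 1, 0, 0)),
  (-9682816, (1, 0, 0, 0), (2, 0, 0, 0)),
  (18383424, (1, 0, 0, 0), (2, 1, 0, 0))]

/-- Product part of the certificate A, part 1. -/
def crossA1 : List (ℤ × Expo × Expo) := [
  (-20061312, (1, 0, 0, 0), (2, 2, 0, 0)),
  (7103936, (1, 0, 0, 0), (3, 0, 0, 0)),
  (-4474368, (1, 0, 0, 0), (3, 1, 0, 0)),
  (8948736, (1, 0, 0, 0), (3, 2, 0, 0)),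
  (-2264960, (1, 0, 0, 0), (4, 0, 0, 0)),
  (2982912, (1, 0, 0, 0), (5, 0, 0, 0)),
  (395364, (1, 1, 0, 0), (0, 0, 0, 0)),
  (-4176384, (1, 1, 0, 0), (1, 0, 0, 0)),
  (4976640, (1, 1, 0, 0), (1, 1, 0, 0)),
  (10939584, (1, 1, 0, 0), (2, 0, 0, 0)),
  (-21772800, (1, 1, 0, 0), (2, 1, 0, 0)),
  (23639040, (1, 1, 0, 0), (2, 2, 0, 0)),
  (-7133184, (1, 1, 0, 0), (3, 0, 0, 0)),
  (4976640, (1, 1, 0, 0), (3, 1, 0, 0)),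
  (-9953280, (1, 1, 0, 0), (3, 2, 0, 0)),
  (1741824, (1, 1, 0, 0), (4, 0, 0, 0))]

/-- Product part of the certificate A, part 2. -/
def crossA2 : List (ℤ × Expo × Expo) := [
  (-3317760, (1, 1, 0, 0), (5, 0, 0, 0)),
  (1201168, (2, 0, 0, 0), (0, 0, 0, 0)),
  (-9682816, (2, 0, 0, 0), (1, 0, 0, 0)),
  (10939584, (2, 0, 0, 0), (1, 1, 0, 0)),
  (19385472, (2, 0, 0, 0), (2, 0, 0, 0)),
  (-45963264, (2, 0, 0, 0), (2, 1, 0, 0)),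
  (48168192, (2, 0, 0, 0), (2, 2, 0, 0)),
  (5739008, (2, 0, 0, 0), (3, 0, 0, 0)),
  (5879808, (2, 0, 0, 0), (3, 1, 0, 0)),
  (-11759616, (2, 0, 0, 0), (3, 2, 0, 0)),
  (-16150784, (2, 0, 0, 0), (4, 0, 0, 0)),
  (-3919872, (2, 0, 0, 0), (5, 0, 0, 0)),
  (-1777584, (2, 1, 0, 0), (0, 0, 0, 0)),
  (18383424, (2, 1, 0, 0), (1, 0, 0, 0)),
  (-21772800, (2, 1, 0, 0), (1, 1, 0, 0)),
  (-45963264, (2, 1, 0, 0), (2, 0, 0, 0))]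

/-- Product part of the certificate A, part 3. -/
def crossA3 : List (ℤ × Expo × Expo) := [
  (94556160, (2, 1, 0, 0), (2, 1, 0, 0)),
  (-102021120, (2, 1, 0, 0), (2, 2, 0, 0)),
  (23307264, (2, 1, 0, 0), (3, 0, 0, 0)),
  (-19906560, (2, 1, 0, 0), (3, 1, 0, 0)),
  (39813120, (2, 1, 0, 0), (3, 2, 0, 0)),
  (-497664, (2, 1, 0, 0), (4, 0, 0, 0)),
  (13271040, (2, 1, 0, 0), (5, 0, 0, 0)),
  (1973712, (2, 2, 0, 0), (0, 0, 0, 0)),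
  (-20061312, (2, 2, 0, 0), (1, 0, 0, 0)),
  (23639040, (2, 2, 0, 0), (1, 1, 0, 0)),
  (48168192, (2, 2, 0, 0), (2, 0, 0, 0)),
  (-102021120, (2, 2, 0, 0), (2, 1, 0, 0)),
  (109486080, (2, 2, 0, 0), (2, 2, 0, 0)),
  (-18081792, (2, 2, 0, 0), (3, 0, 0, 0)),
  (19906560, (2, 2, 0, 0), (3, 1, 0, 0)),
  (-39813120, (2, 2, 0, 0), (3, 2, 0, 0))]

/-- Product part of the certificate A, part 4. -/
def crossA4 : List (ℤ × Expo × Expo) := [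
  (-5971968, (2, 2, 0, 0), (4, 0, 0, 0)),
  (-13271040, (2, 2, 0, 0), (5, 0, 0, 0)),
  (-1083088, (3, 0, 0, 0), (0, 0, 0, 0)),
  (7103936, (3, 0, 0, 0), (1, 0, 0, 0)),
  (-7133184, (3, 0, 0, 0), (1, 1, 0, 0)),
  (5739008, (3, 0, 0, 0), (2, 0, 0, 0)),
  (23307264, (3, 0, 0, 0), (2, 1, 0, 0)),
  (-18081792, (3, 0, 0, 0), (2, 2, 0, 0)),
  (-78194688, (3, 0, 0, 0), (3, 0, 0, 0)),
  (13934592, (3, 0, 0, 0), (3, 1, 0, 0)),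
  (-27869184, (3, 0, 0, 0), (3, 2, 0, 0)),
  (77912064, (3, 0, 0, 0), (4, 0, 0, 0)),
  (-9289728, (3, 0, 0, 0), (5, 0, 0, 0)),
  (523008, (3, 1, 0, 0), (0, 0, 0, 0)),
  (-4474368, (3, 1, 0, 0), (1, 0, 0, 0)),
  (4976640, (3, 1, 0, 0), (1, 1, 0, 0))]

/-- Product part of the certificate A, part 5. -/
def crossA5 : List (ℤ × Expo × Expo) := [
  (5879808, (3, 1, 0, 0), (2, 0, 0, 0)),
  (-19906560, (3, 1, 0, 0), (2, 1, 0, 0)),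
  (19906560, (3, 1, 0, 0), (2, 2, 0, 0)),
  (13934592, (3, 1, 0, 0), (3, 0, 0, 0)),
  (-17252352, (3, 1, 0, 0), (4, 0, 0, 0)),
  (-1046016, (3, 2, 0, 0), (0, 0, 0, 0)),
  (8948736, (3, 2, 0, 0), (1, 0, 0, 0)),
  (-9953280, (3, 2, 0, 0), (1, 1, 0, 0)),
  (-11759616, (3, 2, 0, 0), (2, 0, 0, 0)),
  (39813120, (3, 2, 0, 0), (2, 1, 0, 0)),
  (-39813120, (3, 2, 0, 0), (2, 2, 0, 0)),
  (-27869184, (3, 2, 0, 0), (3, 0, 0, 0)),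
  (34504704, (3, 2, 0, 0), (4, 0, 0, 0)),
  (583792, (4, 0, 0, 0), (0, 0, 0, 0)),
  (-2264960, (4, 0, 0, 0), (1, 0, 0, 0)),
  (1741824, (4, 0, 0, 0), (1, 1, 0, 0))]

/-- Product part of the certificate A, part 6. -/
def crossA6 : List (ℤ × Expo × Expo) := [
  (-16150784, (4, 0, 0, 0), (2, 0, 0, 0)),
  (-497664, (4, 0, 0, 0), (2, 1, 0, 0)),
  (-5971968, (4, 0, 0, 0), (2, 2, 0, 0)),
  (77912064, (4, 0, 0, 0), (3, 0, 0, 0)),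
  (-17252352, (4, 0, 0, 0), (3, 1, 0, 0)),
  (34504704, (4, 0, 0, 0), (3, 2, 0, 0)),
  (-71884800, (4, 0, 0, 0), (4, 0, 0, 0)),
  (11501568, (4, 0, 0, 0), (5, 0, 0, 0)),
  (-348672, (5, 0, 0, 0), (0, 0, 0, 0)),
  (2982912, (5, 0, 0, 0), (1, 0, 0, 0)),
  (-3317760, (5, 0, 0, 0), (1, 1, 0, 0)),
  (-3919872, (5, 0, 0, 0), (2, 0, 0, 0)),
  (13271040, (5, 0, 0, 0), (2, 1, 0, 0)),
  (-13271040, (5, 0, 0, 0), (2, 2, 0, 0)),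
  (-9289728, (5, 0, 0, 0), (3, 0, 0, 0)),
  (11501568, (5, 0, 0, 0), (4, 0, 0, 0))]

/-- Product part of the certificate A. -/
def crossA : List (ℤ × Expo × Expo) :=
  crossA0 ++ crossA1 ++ crossA2 ++ crossA3 ++ crossA4 ++ crossA5 ++ crossA6

/-- Common denominator of the certificate A. -/
def denA : ℕ := 144

/-- Lifts of the orbit exponents to degree 13, certificate I, part 0. -/
def tblI0 : List (Expo × List ℤ) := [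
  ((13, 0, 0, 0), [1, 0, 0, 0, 0, 0, 0, 0, 0, 0, 0, 0, 0, 0, 0, 0, 0, 0, 0, 0, 0, 0, 0, 0, 0, 0, 0, 0, 0, 0, 0, 0, 0, 0, 0, 0, 0, 0, 0]),
  ((12, 1, 0, 0), [0, 1, 0, 0, 0, 0, 0, 0, 0, 0, 0, 0, 0, 0, 0, 0, 0, 0, 0, 0, 0, 0, 0, 0, 0, 0, 0, 0, 0, 0, 0, 0, 0, 0, 0, 0, 0, 0, 0]),
  ((11, 2, 0, 0), [0, 0, 1, 0, 0, 0, 0, 0, 0, 0, 0, 0, 0, 0, 0, 0, 0, 0, 0, 0, 0, 0, 0, 0, 0, 0, 0, 0, 0, 0, 0, 0, 0, 0, 0, 0, 0, 0, 0]),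
  ((11, 1, 1, 0), [0, 0, 0, 1, 0, 0, 0, 0, 0, 0, 0, 0, 0, 0, 0, 0, 0, 0, 0, 0, 0, 0, 0, 0, 0, 0, 0, 0, 0, 0, 0, 0, 0, 0, 0, 0, 0, 0, 0]),
  ((10, 3, 0, 0), [0, 0, 0, 0, 1, 0, 0, 0, 0, 0, 0, 0, 0, 0, 0, 0, 0, 0, 0, 0, 0, 0, 0, 0, 0, 0, 0, 0, 0, 0, 0, 0, 0, 0, 0, 0, 0, 0, 0]),
  ((10, 2, 1, 0), [0, 0, 0, 0, 0, 1, 0, 0, 0, 0, 0, 0, 0, 0, 0, 0, 0, 0, 0, 0, 0, 0, 0, 0, 0, 0, 0, 0, 0, 0, 0, 0, 0, 0, 0, 0, 0, 0, 0])]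

/-- Lifts of the orbit exponents to degree 13, certificate I, part 1. -/
def tblI1 : List (Expo × List ℤ) := [
  ((10, 1, 1, 1), [0, 0, 0, 0, 0, 0, 1, 0, 0, 0, 0, 0, 0, 0, 0, 0, 0, 0, 0, 0, 0, 0, 0, 0, 0, 0, 0, 0, 0, 0, 0, 0, 0, 0, 0, 0, 0, 0, 0]),
  ((9, 4, 0, 0), [0, 0, 0, 0, 0, 0, 0, 1, 0, 0, 0, 0, 0, 0, 0, 0, 0, 0, 0, 0, 0, 0, 0, 0, 0, 0, 0, 0, 0, 0, 0, 0, 0, 0, 0, 0, 0, 0, 0]),
  ((9, 3, 1, 0), [0, 0, 0, 0, 0, 0, 0, 0, 1, 0, 0, 0, 0, 0, 0, 0, 0, 0, 0, 0, 0, 0, 0, 0, 0, 0, 0, 0, 0, 0, 0, 0, 0, 0, 0, 0, 0, 0, 0]),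
  ((9, 2, 2, 0), [0, 0, 0, 0, 0, 0, 0, 0, 0, 1, 0, 0, 0, 0, 0, 0, 0, 0, 0, 0, 0, 0, 0, 0, 0, 0, 0, 0, 0, 0, 0, 0, 0, 0, 0, 0, 0, 0, 0]),
  ((9, 2, 1, 1), [0, 0, 0, 0, 0, 0, 0, 0, 0, 0, 1, 0, 0, 0, 0, 0, 0, 0, 0, 0, 0, 0, 0, 0, 0, 0, 0, 0, 0, 0, 0, 0, 0, 0, 0, 0, 0, 0, 0]),
  ((8, 5, 0, 0), [0, 0, 0, 0, 0, 0, 0, 0, 0, 0, 0, 1, 0, 0, 0, 0, 0, 0, 0, 0, 0, 0, 0, 0, 0, 0, 0, 0, 0, 0, 0, 0, 0, 0, 0, 0, 0, 0, 0])]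

/-- Lifts of the orbit exponents to degree 13, certificate I, part 2. -/
def tblI2 : List (Expo × List ℤ) := [
  ((8, 4, 1, 0), [0, 0, 0, 0, 0, 0, 0, 0, 0, 0, 0, 0, 1, 0, 0, 0, 0, 0, 0, 0, 0, 0, 0, 0, 0, 0, 0, 0, 0, 0, 0, 0, 0, 0, 0, 0, 0, 0, 0]),
  ((8, 3, 2, 0), [0, 0, 0, 0, 0, 0, 0, 0, 0, 0, 0, 0, 0, 1, 0, 0, 0, 0, 0, 0, 0, 0, 0, 0, 0, 0, 0, 0, 0, 0, 0, 0, 0, 0, 0, 0, 0, 0, 0]),
  ((8, 3, 1, 1), [0, 0, 0, 0, 0, 0, 0, 0, 0, 0, 0, 0, 0, 0, 1, 0, 0, 0, 0, 0, 0, 0, 0, 0, 0, 0, 0, 0, 0, 0, 0, 0, 0, 0, 0, 0, 0, 0, 0]),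
  ((8, 2, 2, 1), [0, 0, 0, 0, 0, 0, 0, 0, 0, 0, 0, 0, 0, 0, 0, 1, 0, 0, 0, 0, 0, 0, 0, 0, 0, 0, 0, 0, 0, 0, 0, 0, 0, 0, 0, 0, 0, 0, 0]),
  ((7, 6, 0, 0), [0, 0, 0, 0, 0, 0, 0, 0, 0, 0, 0, 0, 0, 0, 0, 0, 1, 0, 0, 0, 0, 0, 0, 0, 0, 0, 0, 0, 0, 0, 0, 0, 0, 0, 0, 0, 0, 0, 0]),
  ((7, 5, 1, 0), [0, 0, 0, 0, 0, 0, 0, 0, 0, 0, 0, 0, 0, 0, 0, 0, 0, 1, 0, 0, 0, 0, 0, 0, 0, 0, 0, 0, 0, 0, 0, 0, 0, 0, 0, 0, 0, 0, 0])]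

/-- Lifts of the orbit exponents to degree 13, certificate I, part 3. -/
def tblI3 : List (Expo × List ℤ) := [
  ((7, 4, 2, 0), [0, 0, 0, 0, 0, 0, 0, 0, 0, 0, 0, 0, 0, 0, 0, 0, 0, 0, 1, 0, 0, 0, 0, 0, 0, 0, 0, 0, 0, 0, 0, 0, 0, 0, 0, 0, 0, 0, 0]),
  ((7, 4, 1, 1), [0, 0, 0, 0, 0, 0, 0, 0, 0, 0, 0, 0, 0, 0, 0, 0, 0, 0, 0, 1, 0, 0, 0, 0, 0, 0, 0, 0, 0, 0, 0, 0, 0, 0, 0, 0, 0, 0, 0]),
  ((7, 3, 3, 0), [0, 0, 0, 0, 0, 0, 0, 0, 0, 0, 0, 0, 0, 0, 0, 0, 0, 0, 0, 0, 1, 0, 0, 0, 0, 0, 0, 0, 0, 0, 0, 0, 0, 0, 0, 0, 0, 0, 0]),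
  ((7, 3, 2, 1), [0, 0, 0, 0, 0, 0, 0, 0, 0, 0, 0, 0, 0, 0, 0, 0, 0, 0, 0, 0, 0, 1, 0, 0, 0, 0, 0, 0, 0, 0, 0, 0, 0, 0, 0, 0, 0, 0, 0]),
  ((7, 2, 2, 2), [0, 0, 0, 0, 0, 0, 0, 0, 0, 0, 0, 0, 0, 0, 0, 0, 0, 0, 0, 0, 0, 0, 1, 0, 0, 0, 0, 0, 0, 0, 0, 0, 0, 0, 0, 0, 0, 0, 0]),
  ((6, 6, 1, 0), [0, 0, 0, 0, 0, 0, 0, 0, 0, 0, 0, 0, 0, 0, 0, 0, 0, 0, 0, 0, 0, 0, 0, 1, 0, 0, 0, 0, 0, 0, 0, 0, 0, 0, 0, 0, 0, 0, 0])]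

/-- Lifts of the orbit exponents to degree 13, certificate I, part 4. -/
def tblI4 : List (Expo × List ℤ) := [
  ((6, 5, 2, 0), [0, 0, 0, 0, 0, 0, 0, 0, 0, 0, 0, 0, 0, 0, 0, 0, 0, 0, 0, 0, 0, 0, 0, 0, 1, 0, 0, 0, 0, 0, 0, 0, 0, 0, 0, 0, 0, 0, 0]),
  ((6, 5, 1, 1), [0, 0, 0, 0, 0, 0, 0, 0, 0, 0, 0, 0, 0, 0, 0, 0, 0, 0, 0, 0, 0, 0, 0, 0, 0, 1, 0, 0, 0, 0, 0, 0, 0, 0, 0, 0, 0, 0, 0]),
  ((6, 4, 3, 0), [0, 0, 0, 0, 0, 0, 0, 0, 0, 0, 0, 0, 0, 0, 0, 0, 0, 0, 0, 0, 0, 0, 0, 0, 0, 0, 1, 0, 0, 0, 0, 0, 0, 0, 0, 0, 0, 0, 0]),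
  ((6, 4, 2, 1), [0, 0, 0, 0, 0, 0, 0, 0, 0, 0, 0, 0, 0, 0, 0, 0, 0, 0, 0, 0, 0, 0, 0, 0, 0, 0, 0, 1, 0, 0, 0, 0, 0, 0, 0, 0, 0, 0, 0]),
  ((6, 3, 3, 1), [0, 0, 0, 0, 0, 0, 0, 0, 0, 0, 0, 0, 0, 0, 0, 0, 0, 0, 0, 0, 0, 0, 0, 0, 0, 0, 0, 0, 1, 0, 0, 0, 0, 0, 0, 0, 0, 0, 0]),
  ((6, 3, 2, 2), [0, 0, 0, 0, 0, 0, 0, 0, 0, 0, 0, 0, 0, 0, 0, 0, 0, 0, 0, 0, 0, 0, 0, 0, 0, 0, 0, 0, 0, 1, 0, 0, 0, 0, 0, 0, 0, 0, 0])]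

/-- Lifts of the orbit exponents to degree 13, certificate I, part 5. -/
def tblI5 : List (Expo × List ℤ) := [
  ((5, 5, 3, 0), [0, 0, 0, 0, 0, 0, 0, 0, 0, 0, 0, 0, 0, 0, 0, 0, 0, 0, 0, 0, 0, 0, 0, 0, 0, 0, 0, 0, 0, 0, 1, 0, 0, 0, 0, 0, 0, 0, 0]),
  ((5, 5, 2, 1), [0, 0, 0, 0, 0, 0, 0, 0, 0, 0, 0, 0, 0, 0, 0, 0, 0, 0, 0, 0, 0, 0, 0, 0, 0, 0, 0, 0, 0, 0, 0, 1, 0, 0, 0, 0, 0, 0, 0]),
  ((5, 4, 4, 0), [0, 0, 0, 0, 0, 0, 0, 0, 0, 0, 0, 0, 0, 0, 0, 0, 0, 0, 0, 0, 0, 0, 0, 0, 0, 0, 0, 0, 0, 0, 0, 0, 1, 0, 0, 0, 0, 0, 0]),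
  ((5, 4, 3, 1), [0, 0, 0, 0, 0, 0, 0, 0, 0, 0, 0, 0, 0, 0, 0, 0, 0, 0, 0, 0, 0, 0, 0, 0, 0, 0, 0, 0, 0, 0, 0, 0, 0, 1, 0, 0, 0, 0, 0]),
  ((5, 4, 2, 2), [0, 0, 0, 0, 0, 0, 0, 0, 0, 0, 0, 0, 0, 0, 0, 0, 0, 0, 0, 0, 0, 0, 0, 0, 0, 0, 0, 0, 0, 0, 0, 0, 0, 0, 1, 0, 0, 0, 0]),
  ((5, 3, 3, 2), [0, 0, 0, 0, 0, 0, 0, 0, 0, 0, 0, 0, 0, 0, 0, 0, 0, 0, 0, 0, 0, 0, 0, 0, 0, 0, 0, 0, 0, 0, 0, 0, 0, 0, 0, 1, 0, 0, 0])]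

/-- Lifts of the orbit exponents to degree 13, certificate I, part 6. -/
def tblI6 : List (Expo × List ℤ) := [
  ((4, 4, 4, 1), [0, 0, 0, 0, 0, 0, 0, 0, 0, 0, 0, 0, 0, 0, 0, 0, 0, 0, 0, 0, 0, 0, 0, 0, 0, 0, 0, 0, 0, 0, 0, 0, 0, 0, 0, 0, 1, 0, 0]),
  ((4, 4, 3, 2), [0, 0, 0, 0, 0, 0, 0, 0, 0, 0, 0, 0, 0, 0, 0, 0, 0, 0, 0, 0, 0, 0, 0, 0, 0, 0, 0, 0, 0, 0, 0, 0, 0, 0, 0, 0, 0, 1, 0]),
  ((4, 3, 3, 3), [0, 0, 0, 0, 0, 0, 0, 0, 0, 0, 0, 0, 0, 0, 0, 0, 0, 0, 0, 0, 0, 0, 0, 0, 0, 0, 0, 0, 0, 0, 0, 0, 0, 0, 0, 0, 0, 0, 1]),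
  ((12, 0, 0, 0), [1, 3, 0, 0, 0, 0, 0, 0, 0, 0, 0, 0, 0, 0, 0, 0, 0, 0, 0, 0, 0, 0, 0, 0, 0, 0, 0, 0, 0, 0, 0, 0, 0, 0, 0, 0, 0, 0, 0]),
  ((11, 1, 0, 0), [0, 1, 1, 2, 0, 0, 0, 0, 0, 0, 0, 0, 0, 0, 0, 0, 0, 0, 0, 0, 0, 0, 0, 0, 0, 0, 0, 0, 0, 0, 0, 0, 0, 0, 0, 0, 0, 0, 0]),
  ((10, 2, 0, 0), [0, 0, 1, 0, 1, 2, 0, 0, 0, 0, 0, 0, 0, 0, 0, 0, 0, 0, 0, 0, 0, 0, 0, 0, 0, 0, 0, 0, 0, 0, 0, 0, 0, 0, 0, 0, 0, 0, 0])]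

/-- Lifts of the orbit exponents to degree 13, certificate I, part 7. -/
def tblI7 : List (Expo × List ℤ) := [
  ((10, 1, 1, 0), [0, 0, 0, 1, 0, 2, 1, 0, 0, 0, 0, 0, 0, 0, 0, 0, 0, 0, 0, 0, 0, 0, 0, 0, 0, 0, 0, 0, 0, 0, 0, 0, 0, 0, 0, 0, 0, 0, 0]),
  ((9, 3, 0, 0), [0, 0, 0, 0, 1, 0, 0, 1, 2, 0, 0, 0, 0, 0, 0, 0, 0, 0, 0, 0, 0, 0, 0, 0, 0, 0, 0, 0, 0, 0, 0, 0, 0, 0, 0, 0, 0, 0, 0]),
  ((9, 2, 1, 0), [0, 0, 0, 0, 0, 1, 0, 0, 1, 1, 1, 0, 0, 0, 0, 0, 0, 0, 0, 0, 0, 0, 0, 0, 0, 0, 0, 0, 0, 0, 0, 0, 0, 0, 0, 0, 0, 0, 0]),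
  ((9, 1, 1, 1), [0, 0, 0, 0, 0, 0, 1, 0, 0, 0, 3, 0, 0, 0, 0, 0, 0, 0, 0, 0, 0, 0, 0, 0, 0, 0, 0, 0, 0, 0, 0, 0, 0, 0, 0, 0, 0, 0, 0]),
  ((8, 4, 0, 0), [0, 0, 0, 0, 0, 0, 0, 1, 0, 0, 0, 1, 2, 0, 0, 0, 0, 0, 0, 0, 0, 0, 0, 0, 0, 0, 0, 0, 0, 0, 0, 0, 0, 0, 0, 0, 0, 0, 0]),
  ((8, 3, 1, 0), [0, 0, 0, 0, 0, 0, 0, 0, 1, 0, 0, 0, 1, 1, 1, 0, 0, 0, 0, 0, 0, 0, 0, 0, 0, 0, 0, 0, 0, 0, 0, 0, 0, 0, 0, 0, 0, 0, 0])]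

/-- Lifts of the orbit exponents to degree 13, certificate I, part 8. -/
def tblI8 : List (Expo × List ℤ) := [
  ((8, 2, 2, 0), [0, 0, 0, 0, 0, 0, 0, 0, 0, 1, 0, 0, 0, 2, 0, 1, 0, 0, 0, 0, 0, 0, 0, 0, 0, 0, 0, 0, 0, 0, 0, 0, 0, 0, 0, 0, 0, 0, 0]),
  ((8, 2, 1, 1), [0, 0, 0, 0, 0, 0, 0, 0, 0, 0, 1, 0, 0, 0, 1, 2, 0, 0, 0, 0, 0, 0, 0, 0, 0, 0, 0, 0, 0, 0, 0, 0, 0, 0, 0, 0, 0, 0, 0]),
  ((7, 5, 0, 0), [0, 0, 0, 0, 0, 0, 0, 0, 0, 0, 0, 1, 0, 0, 0, 0, 1, 2, 0, 0, 0, 0, 0, 0, 0, 0, 0, 0, 0, 0, 0, 0, 0, 0, 0, 0, 0, 0, 0]),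
  ((7, 4, 1, 0), [0, 0, 0, 0, 0, 0, 0, 0, 0, 0, 0, 0, 1, 0, 0, 0, 0, 1, 1, 1, 0, 0, 0, 0, 0, 0, 0, 0, 0, 0, 0, 0, 0, 0, 0, 0, 0, 0, 0]),
  ((7, 3, 2, 0), [0, 0, 0, 0, 0, 0, 0, 0, 0, 0, 0, 0, 0, 1, 0, 0, 0, 0, 1, 0, 1, 1, 0, 0, 0, 0, 0, 0, 0, 0, 0, 0, 0, 0, 0, 0, 0, 0, 0]),
  ((7, 3, 1, 1), [0, 0, 0, 0, 0, 0, 0, 0, 0, 0, 0, 0, 0, 0, 1, 0, 0, 0, 0, 1, 0, 2, 0, 0, 0, 0, 0, 0, 0, 0, 0, 0, 0, 0, 0, 0, 0, 0, 0])]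

/-- Lifts of the orbit exponents to degree 13, certificate I, part 9. -/
def tblI9 : List (Expo × List ℤ) := [
  ((7, 2, 2, 1), [0, 0, 0, 0, 0, 0, 0, 0, 0, 0, 0, 0, 0, 0, 0, 1, 0, 0, 0, 0, 0, 2, 1, 0, 0, 0, 0, 0, 0, 0, 0, 0, 0, 0, 0, 0, 0, 0, 0]),
  ((6, 6, 0, 0), [0, 0, 0, 0, 0, 0, 0, 0, 0, 0, 0, 0, 0, 0, 0, 0, 2, 0, 0, 0, 0, 0, 0, 2, 0, 0, 0, 0, 0, 0, 0, 0, 0, 0, 0, 0, 0, 0, 0]),
  ((6, 5, 1, 0), [0, 0, 0, 0, 0, 0, 0, 0, 0, 0, 0, 0, 0, 0, 0, 0, 0, 1, 0, 0, 0, 0, 0, 1, 1, 1, 0, 0, 0, 0, 0, 0, 0, 0, 0, 0, 0, 0, 0]),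
  ((6, 4, 2, 0), [0, 0, 0, 0, 0, 0, 0, 0, 0, 0, 0, 0, 0, 0, 0, 0, 0, 0, 1, 0, 0, 0, 0, 0, 1, 0, 1, 1, 0, 0, 0, 0, 0, 0, 0, 0, 0, 0, 0]),
  ((6, 4, 1, 1), [0, 0, 0, 0, 0, 0, 0, 0, 0, 0, 0, 0, 0, 0, 0, 0, 0, 0, 0, 1, 0, 0, 0, 0, 0, 1, 0, 2, 0, 0, 0, 0, 0, 0, 0, 0, 0, 0, 0]),
  ((6, 3, 3, 0), [0, 0, 0, 0, 0, 0, 0, 0, 0, 0, 0, 0, 0, 0, 0, 0, 0, 0, 0, 0, 1, 0, 0, 0, 0, 0, 2, 0, 1, 0, 0, 0, 0, 0, 0, 0, 0, 0, 0])]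

/-- Lifts of the orbit exponents to degree 13, certificate I, part 10. -/
def tblI10 : List (Expo × List ℤ) := [
  ((6, 3, 2, 1), [0, 0, 0, 0, 0, 0, 0, 0, 0, 0, 0, 0, 0, 0, 0, 0, 0, 0, 0, 0, 0, 1, 0, 0, 0, 0, 0, 1, 1, 1, 0, 0, 0, 0, 0, 0, 0, 0, 0]),
  ((6, 2, 2, 2), [0, 0, 0, 0, 0, 0, 0, 0, 0, 0, 0, 0, 0, 0, 0, 0, 0, 0, 0, 0, 0, 0, 1, 0, 0, 0, 0, 0, 0, 3, 0, 0, 0, 0, 0, 0, 0, 0, 0]),
  ((5, 5, 2, 0), [0, 0, 0, 0, 0, 0, 0, 0, 0, 0, 0, 0, 0, 0, 0, 0, 0, 0, 0, 0, 0, 0, 0, 0, 2, 0, 0, 0, 0, 0, 1, 1, 0, 0, 0, 0, 0, 0, 0]),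
  ((5, 5, 1, 1), [0, 0, 0, 0, 0, 0, 0, 0, 0, 0, 0, 0, 0, 0, 0, 0, 0, 0, 0, 0, 0, 0, 0, 0, 0, 2, 0, 0, 0, 0, 0, 2, 0, 0, 0, 0, 0, 0, 0]),
  ((5, 4, 3, 0), [0, 0, 0, 0, 0, 0, 0, 0, 0, 0, 0, 0, 0, 0, 0, 0, 0, 0, 0, 0, 0, 0, 0, 0, 0, 0, 1, 0, 0, 0, 1, 0, 1, 1, 0, 0, 0, 0, 0]),
  ((5, 4, 2, 1), [0, 0, 0, 0, 0, 0, 0, 0, 0, 0, 0, 0, 0, 0, 0, 0, 0, 0, 0, 0, 0, 0, 0, 0, 0, 0, 0, 1, 0, 0, 0, 1, 0, 1, 1, 0, 0, 0, 0])]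

/-- Lifts of the orbit exponents to degree 13, certificate I, part 11. -/
def tblI11 : List (Expo × List ℤ) := [
  ((5, 3, 3, 1), [0, 0, 0, 0, 0, 0, 0, 0, 0, 0, 0, 0, 0, 0, 0, 0, 0, 0, 0, 0, 0, 0, 0, 0, 0, 0, 0, 0, 1, 0, 0, 0, 0, 2, 0, 1, 0, 0, 0]),
  ((5, 3, 2, 2), [0, 0, 0, 0, 0, 0, 0, 0, 0, 0, 0, 0, 0, 0, 0, 0, 0, 0, 0, 0, 0, 0, 0, 0, 0, 0, 0, 0, 0, 1, 0, 0, 0, 0, 1, 2, 0, 0, 0]),
  ((4, 4, 4, 0), [0, 0, 0, 0, 0, 0, 0, 0, 0, 0, 0, 0, 0, 0, 0, 0, 0, 0, 0, 0, 0, 0, 0, 0, 0, 0, 0, 0, 0, 0, 0, 0, 3, 0, 0, 0, 1, 0, 0]),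
  ((4, 4, 3, 1), [0, 0, 0, 0, 0, 0, 0, 0, 0, 0, 0, 0, 0, 0, 0, 0, 0, 0, 0, 0, 0, 0, 0, 0, 0, 0, 0, 0, 0, 0, 0, 0, 0, 2, 0, 0, 1, 1, 0]),
  ((4, 4, 2, 2), [0, 0, 0, 0, 0, 0, 0, 0, 0, 0, 0, 0, 0, 0, 0, 0, 0, 0, 0, 0, 0, 0, 0, 0, 0, 0, 0, 0, 0, 0, 0, 0, 0, 0, 2, 0, 0, 2, 0]),
  ((4, 3, 3, 2), [0, 0, 0, 0, 0, 0, 0, 0, 0, 0, 0, 0, 0, 0, 0, 0, 0, 0, 0, 0, 0, 0, 0, 0, 0, 0, 0, 0, 0, 0, 0, 0, 0, 0, 0, 1, 0, 2, 1])]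

/-- Lifts of the orbit exponents to degree 13, certificate I, part 12. -/
def tblI12 : List (Expo × List ℤ) := [
  ((3, 3, 3, 3), [0, 0, 0, 0, 0, 0, 0, 0, 0, 0, 0, 0, 0, 0, 0, 0, 0, 0, 0, 0, 0, 0, 0, 0, 0, 0, 0, 0, 0, 0, 0, 0, 0, 0, 0, 0, 0, 0, 4]),
  ((11, 0, 0, 0), [1, 6, 3, 6, 0, 0, 0, 0, 0, 0, 0, 0, 0, 0, 0, 0, 0, 0, 0, 0, 0, 0, 0, 0, 0, 0, 0, 0, 0, 0, 0, 0, 0, 0, 0, 0, 0, 0, 0]),
  ((10, 1, 0, 0), [0, 1, 2, 4, 1, 6, 2, 0, 0, 0, 0, 0, 0, 0, 0, 0, 0, 0, 0, 0, 0, 0, 0, 0, 0, 0, 0, 0, 0, 0, 0, 0, 0, 0, 0, 0, 0, 0, 0]),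
  ((9, 2, 0, 0), [0, 0, 1, 0, 2, 4, 0, 1, 4, 2, 2, 0, 0, 0, 0, 0, 0, 0, 0, 0, 0, 0, 0, 0, 0, 0, 0, 0, 0, 0, 0, 0, 0, 0, 0, 0, 0, 0, 0]),
  ((9, 1, 1, 0), [0, 0, 0, 1, 0, 4, 2, 0, 2, 2, 5, 0, 0, 0, 0, 0, 0, 0, 0, 0, 0, 0, 0, 0, 0, 0, 0, 0, 0, 0, 0, 0, 0, 0, 0, 0, 0, 0, 0]),
  ((8, 3, 0, 0), [0, 0, 0, 0, 1, 0, 0, 2, 4, 0, 0, 1, 4, 2, 2, 0, 0, 0, 0, 0, 0, 0, 0, 0, 0, 0, 0, 0, 0, 0, 0, 0, 0, 0, 0, 0, 0, 0, 0])]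

/-- Lifts of the orbit exponents to degree 13, certificate I, part 13. -/
def tblI13 : List (Expo × List ℤ) := [
  ((8, 2, 1, 0), [0, 0, 0, 0, 0, 1, 0, 0, 2, 2, 2, 0, 1, 3, 2, 3, 0, 0, 0, 0, 0, 0, 0, 0, 0, 0, 0, 0, 0, 0, 0, 0, 0, 0, 0, 0, 0, 0, 0]),
  ((8, 1, 1, 1), [0, 0, 0, 0, 0, 0, 1, 0, 0, 0, 6, 0, 0, 0, 3, 6, 0, 0, 0, 0, 0, 0, 0, 0, 0, 0, 0, 0, 0, 0, 0, 0, 0, 0, 0, 0, 0, 0, 0]),
  ((7, 4, 0, 0), [0, 0, 0, 0, 0, 0, 0, 1, 0, 0, 0, 2, 4, 0, 0, 0, 1, 4, 2, 2, 0, 0, 0, 0, 0, 0, 0, 0, 0, 0, 0, 0, 0, 0, 0, 0, 0, 0, 0]),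
  ((7, 3, 1, 0), [0, 0, 0, 0, 0, 0, 0, 0, 1, 0, 0, 0, 2, 2, 2, 0, 0, 1, 2, 2, 1, 3, 0, 0, 0, 0, 0, 0, 0, 0, 0, 0, 0, 0, 0, 0, 0, 0, 0]),
  ((7, 2, 2, 0), [0, 0, 0, 0, 0, 0, 0, 0, 0, 1, 0, 0, 0, 4, 0, 2, 0, 0, 2, 0, 2, 4, 1, 0, 0, 0, 0, 0, 0, 0, 0, 0, 0, 0, 0, 0, 0, 0, 0]),
  ((7, 2, 1, 1), [0, 0, 0, 0, 0, 0, 0, 0, 0, 0, 1, 0, 0, 0, 2, 4, 0, 0, 0, 1, 0, 6, 2, 0, 0, 0, 0, 0, 0, 0, 0, 0, 0, 0, 0, 0, 0, 0, 0])]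

/-- Lifts of the orbit exponents to degree 13, certificate I, part 14. -/
def tblI14 : List (Expo × List ℤ) := [
  ((6, 5, 0, 0), [0, 0, 0, 0, 0, 0, 0, 0, 0, 0, 0, 1, 0, 0, 0, 0, 3, 4, 0, 0, 0, 0, 0, 4, 2, 2, 0, 0, 0, 0, 0, 0, 0, 0, 0, 0, 0, 0, 0]),
  ((6, 4, 1, 0), [0, 0, 0, 0, 0, 0, 0, 0, 0, 0, 0, 0, 1, 0, 0, 0, 0, 2, 2, 2, 0, 0, 0, 1, 2, 2, 1, 3, 0, 0, 0, 0, 0, 0, 0, 0, 0, 0, 0]),
  ((6, 3, 2, 0), [0, 0, 0, 0, 0, 0, 0, 0, 0, 0, 0, 0, 0, 1, 0, 0, 0, 0, 2, 0, 2, 2, 0, 0, 1, 0, 3, 2, 2, 1, 0, 0, 0, 0, 0, 0, 0, 0, 0]),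
  ((6, 3, 1, 1), [0, 0, 0, 0, 0, 0, 0, 0, 0, 0, 0, 0, 0, 0, 1, 0, 0, 0, 0, 2, 0, 4, 0, 0, 0, 1, 0, 4, 2, 2, 0, 0, 0, 0, 0, 0, 0, 0, 0]),
  ((6, 2, 2, 1), [0, 0, 0, 0, 0, 0, 0, 0, 0, 0, 0, 0, 0, 0, 0, 1, 0, 0, 0, 0, 0, 4, 2, 0, 0, 0, 0, 2, 2, 5, 0, 0, 0, 0, 0, 0, 0, 0, 0]),
  ((5, 5, 1, 0), [0, 0, 0, 0, 0, 0, 0, 0, 0, 0, 0, 0, 0, 0, 0, 0, 0, 2, 0, 0, 0, 0, 0, 2, 4, 4, 0, 0, 0, 0, 1, 3, 0, 0, 0, 0, 0, 0, 0])]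

/-- Lifts of the orbit exponents to degree 13, certificate I, part 15. -/
def tblI15 : List (Expo × List ℤ) := [
  ((5, 4, 2, 0), [0, 0, 0, 0, 0, 0, 0, 0, 0, 0, 0, 0, 0, 0, 0, 0, 0, 0, 1, 0, 0, 0, 0, 0, 3, 0, 2, 2, 0, 0, 2, 2, 1, 2, 1, 0, 0, 0, 0]),
  ((5, 4, 1, 1), [0, 0, 0, 0, 0, 0, 0, 0, 0, 0, 0, 0, 0, 0, 0, 0, 0, 0, 0, 1, 0, 0, 0, 0, 0, 3, 0, 4, 0, 0, 0, 4, 0, 2, 2, 0, 0, 0, 0]),
  ((5, 3, 3, 0), [0, 0, 0, 0, 0, 0, 0, 0, 0, 0, 0, 0, 0, 0, 0, 0, 0, 0, 0, 0, 1, 0, 0, 0, 0, 0, 4, 0, 2, 0, 2, 0, 2, 4, 0, 1, 0, 0, 0]),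
  ((5, 3, 2, 1), [0, 0, 0, 0, 0, 0, 0, 0, 0, 0, 0, 0, 0, 0, 0, 0, 0, 0, 0, 0, 0, 1, 0, 0, 0, 0, 0, 2, 2, 2, 0, 1, 0, 3, 2, 3, 0, 0, 0]),
  ((5, 2, 2, 2), [0, 0, 0, 0, 0, 0, 0, 0, 0, 0, 0, 0, 0, 0, 0, 0, 0, 0, 0, 0, 0, 0, 1, 0, 0, 0, 0, 0, 0, 6, 0, 0, 0, 0, 3, 6, 0, 0, 0]),
  ((4, 4, 3, 0), [0, 0, 0, 0, 0, 0, 0, 0, 0, 0, 0, 0, 0, 0, 0, 0, 0, 0, 0, 0, 0, 0, 0, 0, 0, 0, 2, 0, 0, 0, 2, 0, 5, 4, 0, 0, 2, 1, 0])]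

/-- Lifts of the orbit exponents to degree 13, certificate I, part 16. -/
def tblI16 : List (Expo × List ℤ) := [
  ((4, 4, 2, 1), [0, 0, 0, 0, 0, 0, 0, 0, 0, 0, 0, 0, 0, 0, 0, 0, 0, 0, 0, 0, 0, 0, 0, 0, 0, 0, 0, 2, 0, 0, 0, 2, 0, 4, 4, 0, 1, 3, 0]),
  ((4, 3, 3, 1), [0, 0, 0, 0, 0, 0, 0, 0, 0, 0, 0, 0, 0, 0, 0, 0, 0, 0, 0, 0, 0, 0, 0, 0, 0, 0, 0, 0, 1, 0, 0, 0, 0, 6, 0, 2, 2, 4, 1]),
  ((4, 3, 2, 2), [0, 0, 0, 0, 0, 0, 0, 0, 0, 0, 0, 0, 0, 0, 0, 0, 0, 0, 0, 0, 0, 0, 0, 0, 0, 0, 0, 0, 0, 1, 0, 0, 0, 0, 3, 4, 0, 6, 2]),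
  ((3, 3, 3, 2), [0, 0, 0, 0, 0, 0, 0, 0, 0, 0, 0, 0, 0, 0, 0, 0, 0, 0, 0, 0, 0, 0, 0, 0, 0, 0, 0, 0, 0, 0, 0, 0, 0, 0, 0, 3, 0, 6, 7]),
  ((10, 0, 0, 0), [1, 9, 9, 18, 3, 18, 6, 0, 0, 0, 0, 0, 0, 0, 0, 0, 0, 0, 0, 0, 0, 0, 0, 0, 0, 0, 0, 0, 0, 0, 0, 0, 0, 0, 0, 0, 0, 0, 0]),
  ((9, 1, 0, 0), [0, 1, 3, 6, 3, 18, 6, 1, 8, 6, 12, 0, 0, 0, 0, 0, 0, 0, 0, 0, 0, 0, 0, 0, 0, 0, 0, 0, 0, 0, 0, 0, 0, 0, 0, 0, 0, 0, 0])]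

/-- Lifts of the orbit exponents to degree 13, certificate I, part 17. -/
def tblI17 : List (Expo × List ℤ) := [
  ((8, 2, 0, 0), [0, 0, 1, 0, 3, 6, 0, 3, 12, 6, 6, 1, 6, 8, 6, 6, 0, 0, 0, 0, 0, 0, 0, 0, 0, 0, 0, 0, 0, 0, 0, 0, 0, 0, 0, 0, 0, 0, 0]),
  ((8, 1, 1, 0), [0, 0, 0, 1, 0, 6, 3, 0, 6, 6, 15, 0, 2, 6, 7, 12, 0, 0, 0, 0, 0, 0, 0, 0, 0, 0, 0, 0, 0, 0, 0, 0, 0, 0, 0, 0, 0, 0, 0]),
  ((7, 3, 0, 0), [0, 0, 0, 0, 1, 0, 0, 3, 6, 0, 0, 3, 12, 6, 6, 0, 1, 6, 6, 6, 2, 6, 0, 0, 0, 0, 0, 0, 0, 0, 0, 0, 0, 0, 0, 0, 0, 0, 0]),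
  ((7, 2, 1, 0), [0, 0, 0, 0, 0, 1, 0, 0, 3, 3, 3, 0, 3, 9, 6, 9, 0, 1, 4, 3, 3, 13, 3, 0, 0, 0, 0, 0, 0, 0, 0, 0, 0, 0, 0, 0, 0, 0, 0]),
  ((7, 1, 1, 1), [0, 0, 0, 0, 0, 0, 1, 0, 0, 0, 9, 0, 0, 0, 9, 18, 0, 0, 0, 3, 0, 18, 6, 0, 0, 0, 0, 0, 0, 0, 0, 0, 0, 0, 0, 0, 0, 0, 0]),
  ((6, 4, 0, 0), [0, 0, 0, 0, 0, 0, 0, 1, 0, 0, 0, 3, 6, 0, 0, 0, 4, 12, 6, 6, 0, 0, 0, 6, 6, 6, 2, 6, 0, 0, 0, 0, 0, 0, 0, 0, 0, 0, 0])]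

/-- Lifts of the orbit exponents to degree 13, certificate I, part 18. -/
def tblI18 : List (Expo × List ℤ) := [
  ((6, 3, 1, 0), [0, 0, 0, 0, 0, 0, 0, 0, 1, 0, 0, 0, 3, 3, 3, 0, 0, 3, 6, 6, 3, 9, 0, 1, 3, 3, 4, 9, 4, 3, 0, 0, 0, 0, 0, 0, 0, 0, 0]),
  ((6, 2, 2, 0), [0, 0, 0, 0, 0, 0, 0, 0, 0, 1, 0, 0, 0, 6, 0, 3, 0, 0, 6, 0, 6, 12, 3, 0, 2, 0, 6, 6, 6, 7, 0, 0, 0, 0, 0, 0, 0, 0, 0]),
  ((6, 2, 1, 1), [0, 0, 0, 0, 0, 0, 0, 0, 0, 0, 1, 0, 0, 0, 3, 6, 0, 0, 0, 3, 0, 18, 6, 0, 0, 1, 0, 8, 6, 12, 0, 0, 0, 0, 0, 0, 0, 0, 0]),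
  ((5, 5, 0, 0), [0, 0, 0, 0, 0, 0, 0, 0, 0, 0, 0, 2, 0, 0, 0, 0, 6, 12, 0, 0, 0, 0, 0, 12, 12, 12, 0, 0, 0, 0, 2, 6, 0, 0, 0, 0, 0, 0, 0]),
  ((5, 4, 1, 0), [0, 0, 0, 0, 0, 0, 0, 0, 0, 0, 0, 0, 1, 0, 0, 0, 0, 4, 3, 3, 0, 0, 0, 3, 9, 9, 3, 9, 0, 0, 3, 9, 1, 4, 3, 0, 0, 0, 0]),
  ((5, 3, 2, 0), [0, 0, 0, 0, 0, 0, 0, 0, 0, 0, 0, 0, 0, 1, 0, 0, 0, 0, 3, 0, 3, 3, 0, 0, 4, 0, 9, 6, 6, 3, 4, 3, 3, 9, 3, 4, 0, 0, 0])]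

/-- Lifts of the orbit exponents to degree 13, certificate I, part 19. -/
def tblI19 : List (Expo × List ℤ) := [
  ((5, 3, 1, 1), [0, 0, 0, 0, 0, 0, 0, 0, 0, 0, 0, 0, 0, 0, 1, 0, 0, 0, 0, 3, 0, 6, 0, 0, 0, 4, 0, 12, 6, 6, 0, 6, 0, 8, 6, 6, 0, 0, 0]),
  ((5, 2, 2, 1), [0, 0, 0, 0, 0, 0, 0, 0, 0, 0, 0, 0, 0, 0, 0, 1, 0, 0, 0, 0, 0, 6, 3, 0, 0, 0, 0, 6, 6, 15, 0, 2, 0, 6, 7, 12, 0, 0, 0]),
  ((4, 4, 2, 0), [0, 0, 0, 0, 0, 0, 0, 0, 0, 0, 0, 0, 0, 0, 0, 0, 0, 0, 2, 0, 0, 0, 0, 0, 6, 0, 6, 6, 0, 0, 6, 6, 7, 12, 6, 0, 3, 4, 0]),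
  ((4, 4, 1, 1), [0, 0, 0, 0, 0, 0, 0, 0, 0, 0, 0, 0, 0, 0, 0, 0, 0, 0, 0, 2, 0, 0, 0, 0, 0, 6, 0, 12, 0, 0, 0, 12, 0, 12, 12, 0, 2, 6, 0]),
  ((4, 3, 3, 0), [0, 0, 0, 0, 0, 0, 0, 0, 0, 0, 0, 0, 0, 0, 0, 0, 0, 0, 0, 0, 1, 0, 0, 0, 0, 0, 8, 0, 3, 0, 6, 0, 12, 18, 0, 3, 6, 6, 1]),
  ((4, 3, 2, 1), [0, 0, 0, 0, 0, 0, 0, 0, 0, 0, 0, 0, 0, 0, 0, 0, 0, 0, 0, 0, 0, 1, 0, 0, 0, 0, 0, 4, 3, 3, 0, 3, 0, 13, 9, 9, 3, 13, 3])]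

/-- Lifts of the orbit exponents to degree 13, certificate I, part 20. -/
def tblI20 : List (Expo × List ℤ) := [
  ((4, 2, 2, 2), [0, 0, 0, 0, 0, 0, 0, 0, 0, 0, 0, 0, 0, 0, 0, 0, 0, 0, 0, 0, 0, 0, 1, 0, 0, 0, 0, 0, 0, 9, 0, 0, 0, 0, 12, 18, 0, 18, 6]),
  ((3, 3, 3, 1), [0, 0, 0, 0, 0, 0, 0, 0, 0, 0, 0, 0, 0, 0, 0, 0, 0, 0, 0, 0, 0, 0, 0, 0, 0, 0, 0, 0, 3, 0, 0, 0, 0, 18, 0, 9, 6, 18, 10]),
  ((3, 3, 2, 2), [0, 0, 0, 0, 0, 0, 0, 0, 0, 0, 0, 0, 0, 0, 0, 0, 0, 0, 0, 0, 0, 0, 0, 0, 0, 0, 0, 0, 0, 2, 0, 0, 0, 0, 6, 14, 0, 24, 18]),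
  ((9, 0, 0, 0), [1, 12, 18, 36, 12, 72, 24, 3, 24, 18, 36, 0, 0, 0, 0, 0, 0, 0, 0, 0, 0, 0, 0, 0, 0, 0, 0, 0, 0, 0, 0, 0, 0, 0, 0, 0, 0, 0, 0]),
  ((8, 1, 0, 0), [0, 1, 4, 8, 6, 36, 12, 4, 32, 24, 48, 1, 10, 20, 20, 30, 0, 0, 0, 0, 0, 0, 0, 0, 0, 0, 0, 0, 0, 0, 0, 0, 0, 0, 0, 0, 0, 0, 0]),
  ((7, 2, 0, 0), [0, 0, 1, 0, 4, 8, 0, 6, 24, 12, 12, 4, 24, 32, 24, 24, 1, 8, 14, 12, 8, 32, 6, 0, 0, 0, 0, 0, 0, 0, 0, 0, 0, 0, 0, 0, 0, 0, 0])]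

/-- Lifts of the orbit exponents to degree 13, certificate I, part 21. -/
def tblI21 : List (Expo × List ℤ) := [
  ((7, 1, 1, 0), [0, 0, 0, 1, 0, 8, 4, 0, 12, 12, 30, 0, 8, 24, 28, 48, 0, 2, 8, 9, 6, 44, 12, 0, 0, 0, 0, 0, 0, 0, 0, 0, 0, 0, 0, 0, 0, 0, 0]),
  ((6, 3, 0, 0), [0, 0, 0, 0, 1, 0, 0, 4, 8, 0, 0, 6, 24, 12, 12, 0, 5, 24, 24, 24, 8, 24, 0, 8, 12, 12, 10, 24, 8, 6, 0, 0, 0, 0, 0, 0, 0, 0, 0]),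
  ((6, 2, 1, 0), [0, 0, 0, 0, 0, 1, 0, 0, 4, 4, 4, 0, 6, 18, 12, 18, 0, 4, 16, 12, 12, 52, 12, 1, 5, 4, 10, 23, 16, 22, 0, 0, 0, 0, 0, 0, 0, 0, 0]),
  ((6, 1, 1, 1), [0, 0, 0, 0, 0, 0, 1, 0, 0, 0, 12, 0, 0, 0, 18, 36, 0, 0, 0, 12, 0, 72, 24, 0, 0, 3, 0, 24, 18, 36, 0, 0, 0, 0, 0, 0, 0, 0, 0]),
  ((5, 4, 0, 0), [0, 0, 0, 0, 0, 0, 0, 1, 0, 0, 0, 5, 8, 0, 0, 0, 10, 32, 12, 12, 0, 0, 0, 24, 36, 36, 8, 24, 0, 0, 8, 24, 2, 8, 6, 0, 0, 0, 0]),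
  ((5, 3, 1, 0), [0, 0, 0, 0, 0, 0, 0, 0, 1, 0, 0, 0, 4, 4, 4, 0, 0, 7, 12, 12, 6, 18, 0, 4, 16, 16, 16, 36, 16, 12, 7, 18, 4, 21, 12, 10, 0, 0, 0])]

/-- Lifts of the orbit exponents to degree 13, certificate I, part 22. -/
def tblI22 : List (Expo × List ℤ) := [
  ((5, 2, 2, 0), [0, 0, 0, 0, 0, 0, 0, 0, 0, 1, 0, 0, 0, 8, 0, 4, 0, 0, 12, 0, 12, 24, 6, 0, 10, 0, 24, 24, 24, 28, 8, 8, 6, 24, 13, 20, 0, 0, 0]),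
  ((5, 2, 1, 1), [0, 0, 0, 0, 0, 0, 0, 0, 0, 0, 1, 0, 0, 0, 4, 8, 0, 0, 0, 6, 0, 36, 12, 0, 0, 5, 0, 32, 24, 48, 0, 10, 0, 20, 20, 30, 0, 0, 0]),
  ((4, 4, 1, 0), [0, 0, 0, 0, 0, 0, 0, 0, 0, 0, 0, 0, 2, 0, 0, 0, 0, 8, 8, 8, 0, 0, 0, 6, 24, 24, 12, 36, 0, 0, 12, 36, 9, 32, 24, 0, 5, 10, 0]),
  ((4, 3, 2, 0), [0, 0, 0, 0, 0, 0, 0, 0, 0, 0, 0, 0, 0, 1, 0, 0, 0, 0, 5, 0, 4, 4, 0, 0, 10, 0, 23, 16, 12, 6, 16, 12, 22, 52, 18, 16, 12, 23, 4]),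
  ((4, 3, 1, 1), [0, 0, 0, 0, 0, 0, 0, 0, 0, 0, 0, 0, 0, 0, 1, 0, 0, 0, 0, 5, 0, 8, 0, 0, 0, 10, 0, 32, 12, 12, 0, 24, 0, 46, 36, 24, 8, 32, 6]),
  ((4, 2, 2, 1), [0, 0, 0, 0, 0, 0, 0, 0, 0, 0, 0, 0, 0, 0, 0, 1, 0, 0, 0, 0, 0, 8, 4, 0, 0, 0, 0, 14, 12, 30, 0, 8, 0, 32, 37, 48, 6, 44, 12])]

/-- Lifts of the orbit exponents to degree 13, certificate I, part 23. -/
def tblI23 : List (Expo × List ℤ) := [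
  ((3, 3, 3, 0), [0, 0, 0, 0, 0, 0, 0, 0, 0, 0, 0, 0, 0, 0, 0, 0, 0, 0, 0, 0, 3, 0, 0, 0, 0, 0, 24, 0, 12, 0, 18, 0, 36, 72, 0, 18, 24, 36, 13]),
  ((3, 3, 2, 1), [0, 0, 0, 0, 0, 0, 0, 0, 0, 0, 0, 0, 0, 0, 0, 0, 0, 0, 0, 0, 0, 2, 0, 0, 0, 0, 0, 8, 9, 8, 0, 6, 0, 44, 24, 41, 12, 68, 34]),
  ((3, 2, 2, 2), [0, 0, 0, 0, 0, 0, 0, 0, 0, 0, 0, 0, 0, 0, 0, 0, 0, 0, 0, 0, 0, 0, 1, 0, 0, 0, 0, 0, 0, 15, 0, 0, 0, 0, 30, 60, 0, 90, 60]),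
  ((8, 0, 0, 0), [1, 15, 30, 60, 30, 180, 60, 15, 120, 90, 180, 3, 30, 60, 60, 90, 0, 0, 0, 0, 0, 0, 0, 0, 0, 0, 0, 0, 0, 0, 0, 0, 0, 0, 0, 0, 0, 0, 0]),
  ((7, 1, 0, 0), [0, 1, 5, 10, 10, 60, 20, 10, 80, 60, 120, 5, 50, 100, 100, 150, 1, 12, 30, 30, 20, 120, 30, 0, 0, 0, 0, 0, 0, 0, 0, 0, 0, 0, 0, 0, 0, 0, 0]),
  ((6, 2, 0, 0), [0, 0, 1, 0, 5, 10, 0, 10, 40, 20, 20, 10, 60, 80, 60, 60, 6, 40, 70, 60, 40, 160, 30, 10, 22, 20, 30, 70, 40, 50, 0, 0, 0, 0, 0, 0, 0, 0, 0])]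

/-- Lifts of the orbit exponents to degree 13, certificate I, part 24. -/
def tblI24 : List (Expo × List ℤ) := [
  ((6, 1, 1, 0), [0, 0, 0, 1, 0, 10, 5, 0, 20, 20, 50, 0, 20, 60, 70, 120, 0, 10, 40, 45, 30, 220, 60, 2, 10, 11, 20, 70, 50, 80, 0, 0, 0, 0, 0, 0, 0, 0, 0]),
  ((5, 3, 0, 0), [0, 0, 0, 0, 1, 0, 0, 5, 10, 0, 0, 11, 40, 20, 20, 0, 15, 70, 60, 60, 20, 60, 0, 40, 80, 80, 50, 120, 40, 30, 22, 60, 10, 50, 30, 20, 0, 0, 0]),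
  ((5, 2, 1, 0), [0, 0, 0, 0, 0, 1, 0, 0, 5, 5, 5, 0, 10, 30, 20, 30, 0, 11, 40, 30, 30, 130, 30, 5, 31, 25, 50, 115, 80, 110, 15, 36, 10, 65, 45, 60, 0, 0, 0]),
  ((5, 1, 1, 1), [0, 0, 0, 0, 0, 0, 1, 0, 0, 0, 15, 0, 0, 0, 30, 60, 0, 0, 0, 30, 0, 180, 60, 0, 0, 18, 0, 120, 90, 180, 0, 30, 0, 60, 60, 90, 0, 0, 0]),
  ((4, 4, 0, 0), [0, 0, 0, 0, 0, 0, 0, 2, 0, 0, 0, 10, 20, 0, 0, 0, 20, 80, 40, 40, 0, 0, 0, 60, 120, 120, 40, 120, 0, 0, 40, 120, 22, 80, 60, 0, 10, 20, 0]),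
  ((4, 3, 1, 0), [0, 0, 0, 0, 0, 0, 0, 0, 1, 0, 0, 0, 6, 5, 5, 0, 0, 15, 25, 25, 10, 30, 0, 10, 50, 50, 51, 120, 40, 30, 35, 90, 35, 151, 90, 50, 25, 65, 10])]

/-- Lifts of the orbit exponents to degree 13, certificate I, part 25. -/
def tblI25 : List (Expo × List ℤ) := [
  ((4, 2, 2, 0), [0, 0, 0, 0, 0, 0, 0, 0, 0, 1, 0, 0, 0, 10, 0, 5, 0, 0, 22, 0, 20, 40, 10, 0, 30, 0, 70, 70, 60, 70, 40, 40, 50, 160, 86, 100, 30, 90, 20]),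
  ((4, 2, 1, 1), [0, 0, 0, 0, 0, 0, 0, 0, 0, 0, 1, 0, 0, 0, 5, 10, 0, 0, 0, 11, 0, 60, 20, 0, 0, 15, 0, 92, 60, 120, 0, 50, 0, 130, 130, 150, 20, 120, 30]),
  ((3, 3, 2, 0), [0, 0, 0, 0, 0, 0, 0, 0, 0, 0, 0, 0, 0, 2, 0, 0, 0, 0, 10, 0, 11, 10, 0, 0, 20, 0, 70, 40, 45, 20, 50, 30, 80, 220, 60, 91, 60, 150, 55]),
  ((3, 3, 1, 1), [0, 0, 0, 0, 0, 0, 0, 0, 0, 0, 0, 0, 0, 0, 2, 0, 0, 0, 0, 10, 0, 20, 0, 0, 0, 20, 0, 80, 42, 40, 0, 60, 0, 180, 120, 130, 40, 200, 80]),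
  ((3, 2, 2, 1), [0, 0, 0, 0, 0, 0, 0, 0, 0, 0, 0, 0, 0, 0, 0, 1, 0, 0, 0, 0, 0, 12, 5, 0, 0, 0, 0, 30, 30, 61, 0, 20, 0, 120, 115, 190, 30, 270, 140]),
  ((2, 2, 2, 2), [0, 0, 0, 0, 0, 0, 0, 0, 0, 0, 0, 0, 0, 0, 0, 0, 0, 0, 0, 0, 0, 0, 4, 0, 0, 0, 0, 0, 0, 60, 0, 0, 0, 0, 120, 240, 0, 360, 240])]

/-- Lifts of the orbit exponents to degree 13, certificate I, part 26. -/
def tblI26 : List (Expo × List ℤ) := [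
  ((7, 0, 0, 0), [1, 18, 45, 90, 60, 360, 120, 45, 360, 270, 540, 18, 180, 360, 360, 540, 3, 36, 90, 90, 60, 360, 90, 0, 0, 0, 0, 0, 0, 0, 0, 0, 0, 0, 0, 0, 0, 0, 0]),
  ((6, 1, 0, 0), [0, 1, 6, 12, 15, 90, 30, 20, 160, 120, 240, 15, 150, 300, 300, 450, 7, 72, 180, 180, 120, 720, 180, 14, 42, 42, 70, 210, 140, 210, 0, 0, 0, 0, 0, 0, 0, 0, 0]),
  ((5, 2, 0, 0), [0, 0, 1, 0, 6, 12, 0, 15, 60, 30, 30, 21, 120, 160, 120, 120, 21, 132, 210, 180, 120, 480, 90, 60, 164, 150, 180, 420, 240, 300, 52, 132, 30, 180, 120, 140, 0, 0, 0]),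
  ((5, 1, 1, 0), [0, 0, 0, 1, 0, 12, 6, 0, 30, 30, 75, 0, 40, 120, 140, 240, 0, 32, 120, 135, 90, 660, 180, 12, 72, 79, 120, 420, 300, 480, 30, 102, 20, 190, 150, 210, 0, 0, 0]),
  ((4, 3, 0, 0), [0, 0, 0, 0, 1, 0, 0, 7, 12, 0, 0, 21, 72, 30, 30, 0, 35, 180, 150, 150, 40, 120, 0, 120, 300, 300, 192, 480, 120, 90, 132, 360, 102, 432, 270, 120, 60, 150, 20]),
  ((4, 2, 1, 0), [0, 0, 0, 0, 0, 1, 0, 0, 6, 6, 6, 0, 16, 45, 30, 45, 0, 26, 87, 66, 60, 260, 60, 15, 111, 90, 171, 397, 240, 330, 90, 216, 95, 506, 351, 360, 75, 275, 60])]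

/-- Lifts of the orbit exponents to degree 13, certificate I, part 27. -/
def tblI27 : List (Expo × List ℤ) := [
  ((4, 1, 1, 1), [0, 0, 0, 0, 0, 0, 1, 0, 0, 0, 18, 0, 0, 0, 45, 90, 0, 0, 0, 63, 0, 360, 120, 0, 0, 63, 0, 396, 270, 540, 0, 180, 0, 450, 450, 540, 60, 360, 90]),
  ((3, 3, 1, 0), [0, 0, 0, 0, 0, 0, 0, 0, 2, 0, 0, 0, 12, 12, 12, 0, 0, 30, 60, 60, 31, 90, 0, 20, 120, 120, 172, 360, 167, 120, 120, 270, 150, 702, 360, 321, 150, 480, 155]),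
  ((3, 2, 2, 0), [0, 0, 0, 0, 0, 0, 0, 0, 0, 1, 0, 0, 0, 14, 0, 6, 0, 0, 42, 0, 42, 72, 15, 0, 70, 0, 210, 180, 180, 171, 140, 120, 210, 720, 321, 472, 180, 660, 270]),
  ((3, 2, 1, 1), [0, 0, 0, 0, 0, 0, 0, 0, 0, 0, 1, 0, 0, 0, 7, 12, 0, 0, 0, 21, 0, 104, 30, 0, 0, 35, 0, 232, 162, 282, 0, 150, 0, 550, 480, 660, 120, 860, 390]),
  ((2, 2, 2, 1), [0, 0, 0, 0, 0, 0, 0, 0, 0, 0, 0, 0, 0, 0, 0, 3, 0, 0, 0, 0, 0, 36, 19, 0, 0, 0, 0, 90, 90, 243, 0, 60, 0, 360, 465, 810, 90, 1170, 660]),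
  ((6, 0, 0, 0), [1, 21, 63, 126, 105, 630, 210, 105, 840, 630, 1260, 63, 630, 1260, 1260, 1890, 24, 252, 630, 630, 420, 2520, 630, 42, 126, 126, 210, 630, 420, 630, 0, 0, 0, 0, 0, 0, 0, 0, 0])]

/-- Lifts of the orbit exponents to degree 13, certificate I, part 28. -/
def tblI28 : List (Expo × List ℤ) := [
  ((5, 1, 0, 0), [0, 1, 7, 14, 21, 126, 42, 35, 280, 210, 420, 36, 350, 700, 700, 1050, 28, 268, 630, 630, 420, 2520, 630, 98, 350, 350, 490, 1470, 980, 1470, 112, 336, 70, 560, 420, 560, 0, 0, 0]),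
  ((4, 2, 0, 0), [0, 0, 1, 0, 7, 14, 0, 22, 84, 42, 42, 42, 224, 280, 210, 210, 56, 364, 534, 462, 280, 1120, 210, 210, 686, 630, 714, 1694, 840, 1050, 364, 924, 322, 1624, 1092, 980, 210, 700, 140]),
  ((4, 1, 1, 0), [0, 0, 0, 1, 0, 14, 7, 0, 42, 42, 105, 0, 72, 210, 245, 420, 0, 84, 294, 330, 210, 1540, 420, 42, 294, 322, 462, 1610, 1050, 1680, 210, 714, 210, 1652, 1302, 1470, 210, 910, 210]),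
  ((3, 3, 0, 0), [0, 0, 0, 0, 2, 0, 0, 14, 28, 0, 0, 42, 168, 84, 84, 0, 70, 420, 420, 420, 142, 420, 0, 280, 840, 840, 728, 1680, 574, 420, 504, 1260, 504, 2268, 1260, 882, 420, 1260, 350]),
  ((3, 2, 1, 0), [0, 0, 0, 0, 0, 1, 0, 0, 8, 7, 7, 0, 28, 71, 49, 63, 0, 56, 189, 147, 133, 526, 105, 35, 301, 245, 553, 1169, 749, 903, 350, 756, 455, 2478, 1512, 1813, 525, 2275, 875]),
  ((3, 1, 1, 1), [0, 0, 0, 0, 0, 0, 1, 0, 0, 0, 21, 0, 0, 0, 66, 126, 0, 0, 0, 126, 0, 672, 210, 0, 0, 168, 0, 1092, 756, 1386, 0, 630, 0, 2100, 1890, 2520, 420, 2940, 1260])]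

/-- Lifts of the orbit exponents to degree 13, certificate I, part 29. -/
def tblI29 : List (Expo × List ℤ) := [
  ((2, 2, 2, 0), [0, 0, 0, 0, 0, 0, 0, 0, 0, 3, 0, 0, 0, 42, 0, 21, 0, 0, 126, 0, 126, 252, 64, 0, 210, 0, 630, 630, 630, 756, 420, 420, 630, 2520, 1428, 2226, 630, 3150, 1470]),
  ((2, 2, 1, 1), [0, 0, 0, 0, 0, 0, 0, 0, 0, 0, 2, 0, 0, 0, 14, 30, 0, 0, 0, 42, 0, 280, 98, 0, 0, 70, 0, 644, 504, 1050, 0, 420, 0, 1820, 1890, 2940, 420, 4060, 2100]),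
  ((5, 0, 0, 0), [1, 24, 84, 168, 168, 1008, 336, 210, 1680, 1260, 2520, 171, 1680, 3360, 3360, 5040, 108, 1056, 2520, 2520, 1680, 10080, 2520, 336, 1176, 1176, 1680, 5040, 3360, 5040, 336, 1008, 210, 1680, 1260, 1680, 0, 0, 0]),
  ((4, 1, 0, 0), [0, 1, 8, 16, 28, 168, 56, 57, 448, 336, 672, 78, 718, 1400, 1400, 2100, 84, 800, 1752, 1752, 1120, 6720, 1680, 392, 1624, 1624, 2128, 6384, 3920, 5880, 896, 2688, 812, 5488, 4116, 4480, 630, 2520, 560]),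
  ((3, 2, 0, 0), [0, 0, 1, 0, 9, 16, 0, 36, 128, 56, 56, 84, 448, 506, 392, 336, 126, 896, 1332, 1176, 688, 2592, 420, 560, 2128, 1960, 2548, 5712, 2912, 3276, 1568, 3696, 1736, 8848, 5376, 5488, 1680, 6510, 2240]),
  ((3, 1, 1, 0), [0, 0, 0, 1, 0, 16, 8, 0, 58, 56, 140, 0, 128, 352, 409, 672, 0, 196, 672, 750, 476, 3264, 840, 112, 896, 980, 1568, 5040, 3304, 4872, 910, 2856, 1120, 8708, 6216, 7616, 1680, 8400, 3220])]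

/-- Lifts of the orbit exponents to degree 13, certificate I, part 30. -/
def tblI30 : List (Expo × List ℤ) := [
  ((2, 2, 1, 0), [0, 0, 0, 0, 0, 2, 0, 0, 16, 17, 16, 0, 56, 184, 112, 177, 0, 112, 504, 336, 392, 1584, 372, 70, 812, 560, 1736, 3612, 2632, 3612, 1120, 2352, 1540, 9296, 6342, 8792, 2100, 11760, 5320]),
  ((2, 1, 1, 1), [0, 0, 0, 0, 0, 0, 1, 0, 0, 0, 27, 0, 0, 0, 108, 216, 0, 0, 0, 252, 0, 1512, 504, 0, 0, 378, 0, 3024, 2268, 4536, 0, 1890, 0, 7560, 7560, 11340, 1680, 15120, 7560]),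
  ((4, 0, 0, 0), [1, 27, 108, 216, 252, 1512, 504, 381, 3024, 2268, 4536, 405, 3834, 7560, 7560, 11340, 360, 3456, 7776, 7776, 5040, 30240, 7560, 1512, 6048, 6048, 8064, 24192, 15120, 22680, 3024, 9072, 2646, 18144, 13608, 15120, 1890, 7560, 1680]),
  ((3, 1, 0, 0), [0, 1, 9, 18, 37, 216, 72, 93, 692, 504, 1008, 162, 1422, 2610, 2610, 3780, 210, 2088, 4428, 4428, 2760, 15840, 3780, 1176, 5544, 5544, 7812, 22176, 13440, 18900, 4284, 12096, 4788, 31752, 21924, 25200, 5670, 25830, 9240]),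
  ((2, 2, 0, 0), [0, 0, 2, 0, 18, 36, 0, 72, 288, 146, 144, 168, 1008, 1380, 1008, 1026, 252, 2016, 3672, 3024, 2160, 8352, 1584, 1260, 5880, 5040, 8568, 18648, 11088, 13776, 5376, 12096, 6552, 36288, 23436, 28560, 7560, 36540, 15120]),
  ((2, 1, 1, 0), [0, 0, 0, 1, 0, 20, 9, 0, 90, 90, 199, 0, 240, 720, 741, 1242, 0, 420, 1680, 1674, 1260, 7944, 2088, 252, 2520, 2478, 5040, 15288, 10836, 16632, 3150, 9450, 4200, 34860, 26460, 36540, 7560, 47040, 21420])]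

/-- Lifts of the orbit exponents to degree 13, certificate I, part 31. -/
def tblI31 : List (Expo × List ℤ) := [
  ((1, 1, 1, 1), [0, 0, 0, 0, 0, 0, 4, 0, 0, 0, 108, 0, 0, 0, 432, 864, 0, 0, 0, 1008, 0, 6048, 2016, 0, 0, 1512, 0, 12096, 9072, 18144, 0, 7560, 0, 30240, 30240, 45360, 6720, 60480, 30240]),
  ((3, 0, 0, 0), [1, 30, 135, 270, 363, 2160, 720, 660, 5100, 3780, 7560, 891, 8100, 15390, 15390, 22680, 990, 9720, 21060, 21060, 13320, 77760, 18900, 5040, 22680, 22680, 31500, 90720, 55440, 79380, 15876, 45360, 17010, 113400, 79380, 90720, 18900, 85050, 29400]),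
  ((2, 1, 0, 0), [0, 1, 11, 20, 55, 292, 90, 165, 1160, 830, 1550, 330, 2910, 5430, 5100, 7290, 462, 4944, 11460, 10800, 7440, 40080, 9540, 2940, 16464, 15540, 26460, 71400, 46200, 65940, 15960, 43092, 19740, 137760, 98280, 126840, 28350, 156450, 67200]),
  ((1, 1, 1, 0), [0, 0, 0, 3, 0, 60, 31, 0, 270, 270, 705, 0, 720, 2160, 2655, 4590, 0, 1260, 5040, 6030, 3780, 29880, 8280, 756, 7560, 8946, 15120, 57960, 41580, 68040, 9450, 35910, 12600, 134820, 109620, 154980, 29400, 201600, 94500]),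
  ((2, 0, 0, 0), [1, 33, 168, 330, 528, 3036, 990, 1155, 8580, 6270, 12210, 1881, 16830, 31680, 30690, 44550, 2376, 24552, 55440, 53460, 35640, 198000, 47520, 13860, 72072, 69300, 110880, 304920, 194040, 277200, 63756, 174636, 76230, 526680, 374220, 471240, 103950, 554400, 231000]),
  ((1, 1, 0, 0), [0, 2, 22, 46, 110, 704, 242, 330, 2860, 2200, 4510, 660, 7260, 15180, 15510, 23760, 924, 12408, 33000, 33660, 22440, 139920, 35640, 7392, 48048, 48972, 83160, 258720, 175560, 267960, 50820, 158004, 64680, 545160, 415800, 563640, 115500, 716100, 323400])]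

/-- Lifts of the orbit exponents to degree 13, certificate I, part 32. -/
def tblI32 : List (Expo × List ℤ) := [
  ((1, 0, 0, 0), [1, 39, 234, 468, 858, 5148, 1716, 2145, 17160, 12870, 25740, 3861, 38610, 77220, 77220, 115830, 5148, 61776, 154440, 154440, 102960, 617760, 154440, 36036, 216216, 216216, 360360, 1081080, 720720, 1081080, 216216, 648648, 270270, 2162160, 1621620, 2162160, 450450, 2702700, 1201200]),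
  ((0, 0, 0, 0), [4, 156, 936, 1872, 3432, 20592, 6864, 8580, 68640, 51480, 102960, 15444, 154440, 308880, 308880, 463320, 20592, 247104, 617760, 617760, 411840, 2471040, 617760, 144144, 864864, 864864, 1441440, 4324320, 2882880, 4324320, 864864, 2594592, 1081080, 8648640, 6486480, 8648640, 1801800, 10810800, 4804800])]

/-- Lifts of the orbit exponents to degree 13, certificate I. -/
def tblI : List (Expo × List ℤ) :=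
  tblI0 ++ tblI1 ++ tblI2 ++ tblI3 ++ tblI4 ++ tblI5 ++ tblI6 ++ tblI7 ++ tblI8 ++ tblI9 ++ tblI10 ++ tblI11 ++ tblI12 ++ tblI13 ++ tblI14 ++ tblI15 ++ tblI16 ++ tblI17 ++ tblI18 ++ tblI19 ++ tblI20 ++ tblI21 ++ tblI22 ++ tblI23 ++ tblI24 ++ tblI25 ++ tblI26 ++ tblI27 ++ tblI28 ++ tblI29 ++ tblI30 ++ tblI31 ++ tblI32

/-- Averaged part of the certificate I, part 0. -/
def diagI0 : List (ℤ × Expo) := [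
  (-94062500, (1, 0, 0, 0)),
  (11057932737720, (1, 1, 1, 1)),
  (9441275904720, (2, 1, 1, 0)),
  (-910894837248000, (2, 1, 1, 1)),
  (-9985060475820, (2, 2, 0, 0)),
  (-171533937623040, (2, 2, 1, 0)),
  (24315713402777280, (2, 2, 1, 1)),
  (2867799159696960, (2, 2, 2, 0)),
  (-259071565386078720, (2, 2, 2, 1)),
  (820166271118479360, (2, 2, 2, 2)),
  (7536560217840, (3, 1, 0, 0)),
  (-90957182791680, (3, 1, 1, 0)),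
  (5259881922036480, (3, 1, 1, 1)),
  (189226938654720, (3, 2, 0, 0)),
  (-664680116954880, (3, 2, 1, 0)),
  (-265753187718558720, (3, 2, 1, 1))]

/-- Averaged part of the certificate I, part 1. -/
def diagI1 : List (ℤ × Expo) := [
  (-49124937968785920, (3, 2, 2, 0)),
  (4050545746285854720, (3, 2, 2, 1)),
  (-14449828891262730240, (3, 2, 2, 2)),
  (-1310716392517440, (3, 3, 0, 0)),
  (21805682136253440, (3, 3, 1, 0)),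
  (623908814804582400, (3, 3, 1, 1)),
  (274298552632442880, (3, 3, 2, 0)),
  (-18327724210726010880, (3, 3, 2, 1)),
  (75598258322409062400, (3, 3, 2, 2)),
  (-601775502877163520, (3, 3, 3, 0)),
  (22893648741826560000, (3, 3, 3, 1)),
  (-123664769776248422400, (3, 3, 3, 2)),
  (41929987060452556800, (3, 3, 3, 3)),
  (824005088820, (4, 0, 0, 0)),
  (-152320975441920, (4, 1, 0, 0)),
  (220737607686720, (4, 1, 1, 0))]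

/-- Averaged part of the certificate I, part 2. -/
def diagI2 : List (ℤ × Expo) := [
  (-746555969011200, (4, 1, 1, 1)),
  (-255636175845600, (4, 2, 0, 0)),
  (37150477629826560, (4, 2, 1, 0)),
  (314632238468382720, (4, 2, 1, 1)),
  (-21900297197445120, (4, 2, 2, 0)),
  (-7735907535838863360, (4, 2, 2, 1)),
  (26213036076866764800, (4, 2, 2, 2)),
  (11608510605431040, (4, 3, 0, 0)),
  (-423508376097423360, (4, 3, 1, 0)),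
  (-1114540583814512640, (4, 3, 1, 1)),
  (55364972701532160, (4, 3, 2, 0)),
  (61649506405741363200, (4, 3, 2, 1)),
  (-205513582420190822400, (4, 3, 2, 2)),
  (2133614703874867200, (4, 3, 3, 0)),
  (-92915514314116300800, (4, 3, 3, 1)),
  (302426031174293913600, (4, 3, 3, 2))]

/-- Averaged part of the certificate I, part 3. -/
def diagI3 : List (ℤ × Expo) := [
  (-41043926376146534400, (4, 3, 3, 3)),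
  (-29689387789363200, (4, 4, 0, 0)),
  (1093744864196259840, (4, 4, 1, 0)),
  (-1000958276730470400, (4, 4, 1, 1)),
  (-1706605811826278400, (4, 4, 2, 0)),
  (-39652738171129036800, (4, 4, 2, 1)),
  (87248795419174502400, (4, 4, 2, 2)),
  (-1752399250469683200, (4, 4, 3, 0)),
  (82365355837410508800, (4, 4, 3, 1)),
  (-85287625032676147200, (4, 4, 3, 2)),
  (684155205844992000, (4, 4, 4, 0)),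
  (-10289737566388224000, (4, 4, 4, 1)),
  (-12540571742208, (5, 0, 0, 0)),
  (1315674185018688, (5, 1, 0, 0)),
  (1312409222303232, (5, 1, 1, 0)),
  (-106498442081894400, (5, 1, 1, 1))]

/-- Averaged part of the certificate I, part 4. -/
def diagI4 : List (ℤ × Expo) := [
  (-4277082905889024, (5, 2, 0, 0)),
  (-263689386917068800, (5, 2, 1, 0)),
  (1858895878890012672, (5, 2, 1, 1)),
  (907448902653321216, (5, 2, 2, 0)),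
  (249223546012631040, (5, 2, 2, 1)),
  (-17851328266685644800, (5, 2, 2, 2)),
  (-18750519116513280, (5, 3, 0, 0)),
  (1832435769578323968, (5, 3, 1, 0)),
  (-5490902906746306560, (5, 3, 1, 1)),
  (-5625447081925017600, (5, 3, 2, 0)),
  (-28624547865490882560, (5, 3, 2, 1)),
  (108508016817765089280, (5, 3, 2, 2)),
  (2712805541349949440, (5, 3, 3, 0)),
  (47238091026632540160, (5, 3, 3, 1)),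
  (-68645517494247751680, (5, 3, 3, 2)),
  (130559769480769536, (5, 4, 0, 0))]

/-- Averaged part of the certificate I, part 5. -/
def diagI5 : List (ℤ × Expo) := [
  (-5800473279022694400, (5, 4, 1, 0)),
  (10486871580742778880, (5, 4, 1, 1)),
  (11017025558827499520, (5, 4, 2, 0)),
  (38325886669962608640, (5, 4, 2, 1)),
  (-47332626372105338880, (5, 4, 2, 2)),
  (-2934386445621657600, (5, 4, 3, 0)),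
  (-49919776239585853440, (5, 4, 3, 1)),
  (-1123147254516940800, (5, 4, 4, 0)),
  (-142212244443217920, (5, 5, 0, 0)),
  (4433553414215958528, (5, 5, 1, 0)),
  (-3496741083902115840, (5, 5, 1, 1)),
  (-4444557656803246080, (5, 5, 2, 0)),
  (-13542210020409606144, (5, 5, 2, 1)),
  (-974145086268899328, (5, 5, 3, 0)),
  (86864656115616, (6, 0, 0, 0)),
  (-6359988524483328, (6, 1, 0, 0))]

/-- Averaged part of the certificate I, part 6. -/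
def diagI6 : List (ℤ × Expo) := [
  (-10218749909483520, (6, 1, 1, 0)),
  (457947638307176448, (6, 1, 1, 1)),
  (27204880055132160, (6, 2, 0, 0)),
  (861882618731741184, (6, 2, 1, 0)),
  (-7007718458229719040, (6, 2, 1, 1)),
  (-2791626362178600960, (6, 2, 2, 0)),
  (13485728859291648000, (6, 2, 2, 1)),
  (5091068084056227840, (6, 2, 2, 2)),
  (-14127855877349376, (6, 3, 0, 0)),
  (-3950365993754296320, (6, 3, 1, 0)),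
  (12743452253749248000, (6, 3, 1, 1)),
  (11408307646145495040, (6, 3, 2, 0)),
  (1481216260288020480, (6, 3, 2, 1)),
  (-34264174232390860800, (6, 3, 2, 2)),
  (-3608017784946032640, (6, 3, 3, 0)),
  (-18483858220347555840, (6, 3, 3, 1))]

/-- Averaged part of the certificate I, part 7. -/
def diagI7 : List (ℤ × Expo) := [
  (-126823475747635200, (6, 4, 0, 0)),
  (7363705189627330560, (6, 4, 1, 0)),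
  (-7181697108934656000, (6, 4, 1, 1)),
  (-8243263832441487360, (6, 4, 2, 0)),
  (-25071731284283228160, (6, 4, 2, 1)),
  (-2476305302673162240, (6, 4, 3, 0)),
  (281443405477183488, (6, 5, 0, 0)),
  (-5074759978938531840, (6, 5, 1, 0)),
  (-3285570485735129088, (6, 5, 1, 1)),
  (-1064684790856286208, (6, 5, 2, 0)),
  (-109878482860769280, (6, 6, 0, 0)),
  (8366046232707072, (6, 6, 1, 0)),
  (-350484919015168, (7, 0, 0, 0)),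
  (18955163254210560, (7, 1, 0, 0)),
  (25426622017585152, (7, 1, 1, 0)),
  (-844971920249978880, (7, 1, 1, 1))]

/-- Averaged part of the certificate I, part 8. -/
def diagI8 : List (ℤ × Expo) := [
  (-77136810682834944, (7, 2, 0, 0)),
  (-1417574207518801920, (7, 2, 1, 0)),
  (8470135704807014400, (7, 2, 1, 1)),
  (3225288039491174400, (7, 2, 2, 0)),
  (-6908724933380014080, (7, 2, 2, 1)),
  (-5474133252463656960, (7, 2, 2, 2)),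
  (99410048910950400, (7, 3, 0, 0)),
  (3925305357961789440, (7, 3, 1, 0)),
  (-5823031591210844160, (7, 3, 1, 1)),
  (-5541422465223229440, (7, 3, 2, 0)),
  (-18225236753252352000, (7, 3, 2, 1)),
  (-1373502535347732480, (7, 3, 3, 0)),
  (18760769336770560, (7, 4, 0, 0)),
  (-3151988489201909760, (7, 4, 1, 0)),
  (-3283681071731834880, (7, 4, 1, 1)),
  (-1705449750590914560, (7, 4, 2, 0))]

/-- Averaged part of the certificate I, part 9. -/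
def diagI9 : List (ℤ × Expo) := [
  (-117202885678202880, (7, 5, 0, 0)),
  (-217460139211358208, (7, 5, 1, 0)),
  (57243538015911936, (7, 6, 0, 0)),
  (896383957309440, (8, 0, 0, 0)),
  (-36169234657253376, (8, 1, 0, 0)),
  (-17141932536053760, (8, 1, 1, 0)),
  (681550650290995200, (8, 1, 1, 1)),
  (123418623369830400, (8, 2, 0, 0)),
  (997003996668887040, (8, 2, 1, 0)),
  (-2506155672584847360, (8, 2, 1, 1)),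
  (-922707786958110720, (8, 2, 2, 0)),
  (-4392055391256576000, (8, 2, 2, 1)),
  (-152495977507061760, (8, 3, 0, 0)),
  (-1016453226855137280, (8, 3, 1, 0)),
  (-2481298301087907840, (8, 3, 1, 1)),
  (-1700298244289986560, (8, 3, 2, 0))]

/-- Averaged part of the certificate I, part 10. -/
def diagI10 : List (ℤ × Expo) := [
  (52211640041472000, (8, 4, 0, 0)),
  (-546194399601623040, (8, 4, 1, 0)),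
  (11040866812035072, (8, 5, 0, 0)),
  (-1497923196274688, (9, 0, 0, 0)),
  (44292182213836800, (9, 1, 0, 0)),
  (-32736631935467520, (9, 1, 1, 0)),
  (-102112254178099200, (9, 1, 1, 1)),
  (-114775279923363840, (9, 2, 0, 0)),
  (13203558723747840, (9, 2, 1, 0)),
  (-1165672278581575680, (9, 2, 1, 1)),
  (-454698364100935680, (9, 2, 2, 0)),
  (104345526337536000, (9, 3, 0, 0)),
  (-510596170163159040, (9, 3, 1, 0)),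
  (-26596302402355200, (9, 4, 0, 0)),
  (1631613019791360, (10, 0, 0, 0)),
  (-33661838994702336, (10, 1, 0, 0))]

/-- Averaged part of the certificate I, part 11. -/
def diagI11 : List (ℤ × Expo) := [
  (61743343872245760, (10, 1, 1, 0)),
  (-97707431200555008, (10, 1, 1, 1)),
  (57951421527490560, (10, 2, 0, 0)),
  (-242949264028729344, (10, 2, 1, 0)),
  (-27571390082187264, (10, 3, 0, 0)),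
  (-1116617622945792, (11, 0, 0, 0)),
  (14449756046622720, (11, 1, 0, 0)),
  (-29037588029374464, (11, 1, 1, 0)),
  (-12299683608133632, (11, 2, 0, 0)),
  (435939332587520, (12, 0, 0, 0)),
  (-2676934017810432, (12, 1, 0, 0)),
  (-74058406821888, (13, 0, 0, 0))]

/-- Averaged part of the certificate I. -/
def diagI : List (ℤ × Expo) :=
  diagI0 ++ diagI1 ++ diagI2 ++ diagI3 ++ diagI4 ++ diagI5 ++ diagI6 ++ diagI7 ++ diagI8 ++ diagI9 ++ diagI10 ++ diagI11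

/-- Product part of the certificate I, part 0. -/
def crossI0 : List (ℤ × Expo × Expo) := [
  (76106250, (0, 0, 0, 0), (0, 0, 0, 0)),
  (-1418953125, (0, 0, 0, 0), (1, 0, 0, 0)),
  (5317200000, (0, 0, 0, 0), (1, 1, 0, 0)),
  (-7312800000, (0, 0, 0, 0), (1, 1, 1, 0)),
  (7275112500, (0, 0, 0, 0), (2, 0, 0, 0)),
  (-32258475000, (0, 0, 0, 0), (2, 1, 0, 0)),
  (43876800000, (0, 0, 0, 0), (2, 1, 1, 0)),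
  (46916100000, (0, 0, 0, 0), (2, 2, 0, 0)),
  (-87753600000, (0, 0, 0, 0), (2, 2, 1, 0)),
  (58502400000, (0, 0, 0, 0), (2, 2, 2, 0)),
  (-16811175000, (0, 0, 0, 0), (3, 0, 0, 0)),
  (34137000000, (0, 0, 0, 0), (3, 1, 0, 0)),
  (-87836400000, (0, 0, 0, 0), (3, 2, 0, 0)),
  (26083200000, (0, 0, 0, 0), (3, 3, 0, 0)),
  (16561500000, (0, 0, 0, 0), (4, 0, 0, 0)),
  (-14493600000, (0, 0, 0, 0), (4, 1, 0, 0))]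

/-- Product part of the certificate I, part 1. -/
def crossI1 : List (ℤ × Expo × Expo) := [
  (28987200000, (0, 0, 0, 0), (4, 2, 0, 0)),
  (-4858800000, (0, 0, 0, 0), (5, 0, 0, 0)),
  (-1144000000, (0, 0, 0, 0), (6, 0, 0, 0)),
  (-1418953125, (1, 0, 0, 0), (0, 0, 0, 0)),
  (24877500000, (1, 0, 0, 0), (1, 0, 0, 0)),
  (-80973000000, (1, 0, 0, 0), (1, 1, 0, 0)),
  (103044000000, (1, 0, 0, 0), (1, 1, 1, 0)),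
  (-122297625000, (1, 0, 0, 0), (2, 0, 0, 0)),
  (483283125000, (1, 0, 0, 0), (2, 1, 0, 0)),
  (-618264000000, (1, 0, 0, 0), (2, 1, 1, 0)),
  (-694359000000, (1, 0, 0, 0), (2, 2, 0, 0)),
  (1236528000000, (1, 0, 0, 0), (2, 2, 1, 0)),
  (-824352000000, (1, 0, 0, 0), (2, 2, 2, 0)),
  (271161375000, (1, 0, 0, 0), (3, 0, 0, 0)),
  (-493119000000, (1, 0, 0, 0), (3, 1, 0, 0)),
  (1261890000000, (1, 0, 0, 0), (3, 2, 0, 0))]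

/-- Product part of the certificate I, part 2. -/
def crossI2 : List (ℤ × Expo × Expo) := [
  (-367536000000, (1, 0, 0, 0), (3, 3, 0, 0)),
  (-258570000000, (1, 0, 0, 0), (4, 0, 0, 0)),
  (204228000000, (1, 0, 0, 0), (4, 1, 0, 0)),
  (-408456000000, (1, 0, 0, 0), (4, 2, 0, 0)),
  (76530000000, (1, 0, 0, 0), (5, 0, 0, 0)),
  (16120000000, (1, 0, 0, 0), (6, 0, 0, 0)),
  (5317200000, (1, 1, 0, 0), (0, 0, 0, 0)),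
  (-80973000000, (1, 1, 0, 0), (1, 0, 0, 0)),
  (162432000000, (1, 1, 0, 0), (1, 1, 0, 0)),
  (-127641600000, (1, 1, 0, 0), (1, 1, 1, 0)),
  (354708000000, (1, 1, 0, 0), (2, 0, 0, 0)),
  (-893764800000, (1, 1, 0, 0), (2, 1, 0, 0)),
  (765849600000, (1, 1, 0, 0), (2, 1, 1, 0)),
  (1201824000000, (1, 1, 0, 0), (2, 2, 0, 0)),
  (-1531699200000, (1, 1, 0, 0), (2, 2, 1, 0)),
  (1021132800000, (1, 1, 0, 0), (2, 2, 2, 0))]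

/-- Product part of the certificate I, part 3. -/
def crossI3 : List (ℤ × Expo × Expo) := [
  (-687960000000, (1, 1, 0, 0), (3, 0, 0, 0)),
  (735091200000, (1, 1, 0, 0), (3, 1, 0, 0)),
  (-1811635200000, (1, 1, 0, 0), (3, 2, 0, 0)),
  (455270400000, (1, 1, 0, 0), (3, 3, 0, 0)),
  (579168000000, (1, 1, 0, 0), (4, 0, 0, 0)),
  (-252979200000, (1, 1, 0, 0), (4, 1, 0, 0)),
  (505958400000, (1, 1, 0, 0), (4, 2, 0, 0)),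
  (-177638400000, (1, 1, 0, 0), (5, 0, 0, 0)),
  (-19968000000, (1, 1, 0, 0), (6, 0, 0, 0)),
  (-7312800000, (1, 1, 1, 0), (0, 0, 0, 0)),
  (103044000000, (1, 1, 1, 0), (1, 0, 0, 0)),
  (-127641600000, (1, 1, 1, 0), (1, 1, 0, 0)),
  (-417494400000, (1, 1, 1, 0), (2, 0, 0, 0)),
  (606297600000, (1, 1, 1, 0), (2, 1, 0, 0)),
  (-702028800000, (1, 1, 1, 0), (2, 2, 0, 0)),
  (723302400000, (1, 1, 1, 0), (3, 0, 0, 0))]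

/-- Product part of the certificate I, part 4. -/
def crossI4 : List (ℤ × Expo × Expo) := [
  (-255283200000, (1, 1, 1, 0), (3, 1, 0, 0)),
  (510566400000, (1, 1, 1, 0), (3, 2, 0, 0)),
  (-531840000000, (1, 1, 1, 0), (4, 0, 0, 0)),
  (170188800000, (1, 1, 1, 0), (5, 0, 0, 0)),
  (7275112500, (2, 0, 0, 0), (0, 0, 0, 0)),
  (-122297625000, (2, 0, 0, 0), (1, 0, 0, 0)),
  (354708000000, (2, 0, 0, 0), (1, 1, 0, 0)),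
  (-417494400000, (2, 0, 0, 0), (1, 1, 1, 0)),
  (582627000000, (2, 0, 0, 0), (2, 0, 0, 0)),
  (-2084600700000, (2, 0, 0, 0), (2, 1, 0, 0)),
  (2504966400000, (2, 0, 0, 0), (2, 1, 1, 0)),
  (2959776000000, (2, 0, 0, 0), (2, 2, 0, 0)),
  (-5009932800000, (2, 0, 0, 0), (2, 2, 1, 0)),
  (3339955200000, (2, 0, 0, 0), (2, 2, 2, 0)),
  (-1249582500000, (2, 0, 0, 0), (3, 0, 0, 0)),
  (2051200800000, (2, 0, 0, 0), (3, 1, 0, 0))]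

/-- Product part of the certificate I, part 5. -/
def crossI5 : List (ℤ × Expo × Expo) := [
  (-5219236800000, (2, 0, 0, 0), (3, 2, 0, 0)),
  (1489113600000, (2, 0, 0, 0), (3, 3, 0, 0)),
  (1158612000000, (2, 0, 0, 0), (4, 0, 0, 0)),
  (-827452800000, (2, 0, 0, 0), (4, 1, 0, 0)),
  (1654905600000, (2, 0, 0, 0), (4, 2, 0, 0)),
  (-345585600000, (2, 0, 0, 0), (5, 0, 0, 0)),
  (-65312000000, (2, 0, 0, 0), (6, 0, 0, 0)),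
  (-32258475000, (2, 1, 0, 0), (0, 0, 0, 0)),
  (483283125000, (2, 1, 0, 0), (1, 0, 0, 0)),
  (-893764800000, (2, 1, 0, 0), (1, 1, 0, 0)),
  (606297600000, (2, 1, 0, 0), (1, 1, 1, 0)),
  (-2084600700000, (2, 1, 0, 0), (2, 0, 0, 0)),
  (4825893600000, (2, 1, 0, 0), (2, 1, 0, 0)),
  (-3637785600000, (2, 1, 0, 0), (2, 1, 1, 0)),
  (-6380834400000, (2, 1, 0, 0), (2, 2, 0, 0)),
  (7275571200000, (2, 1, 0, 0), (2, 2, 1, 0))]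

/-- Product part of the certificate I, part 6. -/
def crossI6 : List (ℤ × Expo × Expo) := [
  (-4850380800000, (2, 1, 0, 0), (2, 2, 2, 0)),
  (3960349200000, (2, 1, 0, 0), (3, 0, 0, 0)),
  (-3736108800000, (2, 1, 0, 0), (3, 1, 0, 0)),
  (9094118400000, (2, 1, 0, 0), (3, 2, 0, 0)),
  (-2162534400000, (2, 1, 0, 0), (3, 3, 0, 0)),
  (-3260268000000, (2, 1, 0, 0), (4, 0, 0, 0)),
  (1201651200000, (2, 1, 0, 0), (4, 1, 0, 0)),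
  (-2403302400000, (2, 1, 0, 0), (4, 2, 0, 0)),
  (1006732800000, (2, 1, 0, 0), (5, 0, 0, 0)),
  (94848000000, (2, 1, 0, 0), (6, 0, 0, 0)),
  (43876800000, (2, 1, 1, 0), (0, 0, 0, 0)),
  (-618264000000, (2, 1, 1, 0), (1, 0, 0, 0)),
  (765849600000, (2, 1, 1, 0), (1, 1, 0, 0)),
  (2504966400000, (2, 1, 1, 0), (2, 0, 0, 0)),
  (-3637785600000, (2, 1, 1, 0), (2, 1, 0, 0)),
  (4212172800000, (2, 1, 1, 0), (2, 2, 0, 0))]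

/-- Product part of the certificate I, part 7. -/
def crossI7 : List (ℤ × Expo × Expo) := [
  (-4339814400000, (2, 1, 1, 0), (3, 0, 0, 0)),
  (1531699200000, (2, 1, 1, 0), (3, 1, 0, 0)),
  (-3063398400000, (2, 1, 1, 0), (3, 2, 0, 0)),
  (3191040000000, (2, 1, 1, 0), (4, 0, 0, 0)),
  (-1021132800000, (2, 1, 1, 0), (5, 0, 0, 0)),
  (46916100000, (2, 2, 0, 0), (0, 0, 0, 0)),
  (-694359000000, (2, 2, 0, 0), (1, 0, 0, 0)),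
  (1201824000000, (2, 2, 0, 0), (1, 1, 0, 0)),
  (-702028800000, (2, 2, 0, 0), (1, 1, 1, 0)),
  (2959776000000, (2, 2, 0, 0), (2, 0, 0, 0)),
  (-6380834400000, (2, 2, 0, 0), (2, 1, 0, 0)),
  (4212172800000, (2, 2, 0, 0), (2, 1, 1, 0)),
  (8306496000000, (2, 2, 0, 0), (2, 2, 0, 0)),
  (-8424345600000, (2, 2, 0, 0), (2, 2, 1, 0)),
  (5616230400000, (2, 2, 0, 0), (2, 2, 2, 0)),
  (-5531652000000, (2, 2, 0, 0), (3, 0, 0, 0))]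

/-- Product part of the certificate I, part 8. -/
def crossI8 : List (ℤ × Expo × Expo) := [
  (4659897600000, (2, 2, 0, 0), (3, 1, 0, 0)),
  (-11197785600000, (2, 2, 0, 0), (3, 2, 0, 0)),
  (2503987200000, (2, 2, 0, 0), (3, 3, 0, 0)),
  (4470624000000, (2, 2, 0, 0), (4, 0, 0, 0)),
  (-1391385600000, (2, 2, 0, 0), (4, 1, 0, 0)),
  (2782771200000, (2, 2, 0, 0), (4, 2, 0, 0)),
  (-1388275200000, (2, 2, 0, 0), (5, 0, 0, 0)),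
  (-109824000000, (2, 2, 0, 0), (6, 0, 0, 0)),
  (-87753600000, (2, 2, 1, 0), (0, 0, 0, 0)),
  (1236528000000, (2, 2, 1, 0), (1, 0, 0, 0)),
  (-1531699200000, (2, 2, 1, 0), (1, 1, 0, 0)),
  (-5009932800000, (2, 2, 1, 0), (2, 0, 0, 0)),
  (7275571200000, (2, 2, 1, 0), (2, 1, 0, 0)),
  (-8424345600000, (2, 2, 1, 0), (2, 2, 0, 0)),
  (8679628800000, (2, 2, 1, 0), (3, 0, 0, 0)),
  (-3063398400000, (2, 2, 1, 0), (3, 1, 0, 0))]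

/-- Product part of the certificate I, part 9. -/
def crossI9 : List (ℤ × Expo × Expo) := [
  (6126796800000, (2, 2, 1, 0), (3, 2, 0, 0)),
  (-6382080000000, (2, 2, 1, 0), (4, 0, 0, 0)),
  (2042265600000, (2, 2, 1, 0), (5, 0, 0, 0)),
  (58502400000, (2, 2, 2, 0), (0, 0, 0, 0)),
  (-824352000000, (2, 2, 2, 0), (1, 0, 0, 0)),
  (1021132800000, (2, 2, 2, 0), (1, 1, 0, 0)),
  (3339955200000, (2, 2, 2, 0), (2, 0, 0, 0)),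
  (-4850380800000, (2, 2, 2, 0), (2, 1, 0, 0)),
  (5616230400000, (2, 2, 2, 0), (2, 2, 0, 0)),
  (-5786419200000, (2, 2, 2, 0), (3, 0, 0, 0)),
  (2042265600000, (2, 2, 2, 0), (3, 1, 0, 0)),
  (-4084531200000, (2, 2, 2, 0), (3, 2, 0, 0)),
  (4254720000000, (2, 2, 2, 0), (4, 0, 0, 0)),
  (-1361510400000, (2, 2, 2, 0), (5, 0, 0, 0)),
  (-16811175000, (3, 0, 0, 0), (0, 0, 0, 0)),
  (271161375000, (3, 0, 0, 0), (1, 0, 0, 0))]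

/-- Product part of the certificate I, part 10. -/
def crossI10 : List (ℤ × Expo × Expo) := [
  (-687960000000, (3, 0, 0, 0), (1, 1, 0, 0)),
  (723302400000, (3, 0, 0, 0), (1, 1, 1, 0)),
  (-1249582500000, (3, 0, 0, 0), (2, 0, 0, 0)),
  (3960349200000, (3, 0, 0, 0), (2, 1, 0, 0)),
  (-4339814400000, (3, 0, 0, 0), (2, 1, 1, 0)),
  (-5531652000000, (3, 0, 0, 0), (2, 2, 0, 0)),
  (8679628800000, (3, 0, 0, 0), (2, 2, 1, 0)),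
  (-5786419200000, (3, 0, 0, 0), (2, 2, 2, 0)),
  (2581008000000, (3, 0, 0, 0), (3, 0, 0, 0)),
  (-3700540800000, (3, 0, 0, 0), (3, 1, 0, 0)),
  (9335980800000, (3, 0, 0, 0), (3, 2, 0, 0)),
  (-2579865600000, (3, 0, 0, 0), (3, 3, 0, 0)),
  (-2313252000000, (3, 0, 0, 0), (4, 0, 0, 0)),
  (1433548800000, (3, 0, 0, 0), (4, 1, 0, 0)),
  (-2867097600000, (3, 0, 0, 0), (4, 2, 0, 0)),
  (696633600000, (3, 0, 0, 0), (5, 0, 0, 0))]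

/-- Product part of the certificate I, part 11. -/
def crossI11 : List (ℤ × Expo × Expo) := [
  (113152000000, (3, 0, 0, 0), (6, 0, 0, 0)),
  (34137000000, (3, 1, 0, 0), (0, 0, 0, 0)),
  (-493119000000, (3, 1, 0, 0), (1, 0, 0, 0)),
  (735091200000, (3, 1, 0, 0), (1, 1, 0, 0)),
  (-255283200000, (3, 1, 0, 0), (1, 1, 1, 0)),
  (2051200800000, (3, 1, 0, 0), (2, 0, 0, 0)),
  (-3736108800000, (3, 1, 0, 0), (2, 1, 0, 0)),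
  (1531699200000, (3, 1, 0, 0), (2, 1, 1, 0)),
  (4659897600000, (3, 1, 0, 0), (2, 2, 0, 0)),
  (-3063398400000, (3, 1, 0, 0), (2, 2, 1, 0)),
  (2042265600000, (3, 1, 0, 0), (2, 2, 2, 0)),
  (-3700540800000, (3, 1, 0, 0), (3, 0, 0, 0)),
  (2290636800000, (3, 1, 0, 0), (3, 1, 0, 0)),
  (-5264179200000, (3, 1, 0, 0), (3, 2, 0, 0)),
  (910540800000, (3, 1, 0, 0), (3, 3, 0, 0)),
  (2867616000000, (3, 1, 0, 0), (4, 0, 0, 0))]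

/-- Product part of the certificate I, part 12. -/
def crossI12 : List (ℤ × Expo × Expo) := [
  (-505958400000, (3, 1, 0, 0), (4, 1, 0, 0)),
  (1011916800000, (3, 1, 0, 0), (4, 2, 0, 0)),
  (-902246400000, (3, 1, 0, 0), (5, 0, 0, 0)),
  (-39936000000, (3, 1, 0, 0), (6, 0, 0, 0)),
  (-87836400000, (3, 2, 0, 0), (0, 0, 0, 0)),
  (1261890000000, (3, 2, 0, 0), (1, 0, 0, 0)),
  (-1811635200000, (3, 2, 0, 0), (1, 1, 0, 0)),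
  (510566400000, (3, 2, 0, 0), (1, 1, 1, 0)),
  (-5219236800000, (3, 2, 0, 0), (2, 0, 0, 0)),
  (9094118400000, (3, 2, 0, 0), (2, 1, 0, 0)),
  (-3063398400000, (3, 2, 0, 0), (2, 1, 1, 0)),
  (-11197785600000, (3, 2, 0, 0), (2, 2, 0, 0)),
  (6126796800000, (3, 2, 0, 0), (2, 2, 1, 0)),
  (-4084531200000, (3, 2, 0, 0), (2, 2, 2, 0)),
  (9335980800000, (3, 2, 0, 0), (3, 0, 0, 0)),
  (-5264179200000, (3, 2, 0, 0), (3, 1, 0, 0))]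

/-- Product part of the certificate I, part 13. -/
def crossI13 : List (ℤ × Expo × Expo) := [
  (11894169600000, (3, 2, 0, 0), (3, 2, 0, 0)),
  (-1821081600000, (3, 2, 0, 0), (3, 3, 0, 0)),
  (-7157952000000, (3, 2, 0, 0), (4, 0, 0, 0)),
  (1011916800000, (3, 2, 0, 0), (4, 1, 0, 0)),
  (-2023833600000, (3, 2, 0, 0), (4, 2, 0, 0)),
  (2259763200000, (3, 2, 0, 0), (5, 0, 0, 0)),
  (79872000000, (3, 2, 0, 0), (6, 0, 0, 0)),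
  (26083200000, (3, 3, 0, 0), (0, 0, 0, 0)),
  (-367536000000, (3, 3, 0, 0), (1, 0, 0, 0)),
  (455270400000, (3, 3, 0, 0), (1, 1, 0, 0)),
  (1489113600000, (3, 3, 0, 0), (2, 0, 0, 0)),
  (-2162534400000, (3, 3, 0, 0), (2, 1, 0, 0)),
  (2503987200000, (3, 3, 0, 0), (2, 2, 0, 0)),
  (-2579865600000, (3, 3, 0, 0), (3, 0, 0, 0)),
  (910540800000, (3, 3, 0, 0), (3, 1, 0, 0)),
  (-1821081600000, (3, 3, 0, 0), (3, 2, 0, 0))]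

/-- Product part of the certificate I, part 14. -/
def crossI14 : List (ℤ × Expo × Expo) := [
  (1896960000000, (3, 3, 0, 0), (4, 0, 0, 0)),
  (-607027200000, (3, 3, 0, 0), (5, 0, 0, 0)),
  (16561500000, (4, 0, 0, 0), (0, 0, 0, 0)),
  (-258570000000, (4, 0, 0, 0), (1, 0, 0, 0)),
  (579168000000, (4, 0, 0, 0), (1, 1, 0, 0)),
  (-531840000000, (4, 0, 0, 0), (1, 1, 1, 0)),
  (1158612000000, (4, 0, 0, 0), (2, 0, 0, 0)),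
  (-3260268000000, (4, 0, 0, 0), (2, 1, 0, 0)),
  (3191040000000, (4, 0, 0, 0), (2, 1, 1, 0)),
  (4470624000000, (4, 0, 0, 0), (2, 2, 0, 0)),
  (-6382080000000, (4, 0, 0, 0), (2, 2, 1, 0)),
  (4254720000000, (4, 0, 0, 0), (2, 2, 2, 0)),
  (-2313252000000, (4, 0, 0, 0), (3, 0, 0, 0)),
  (2867616000000, (4, 0, 0, 0), (3, 1, 0, 0)),
  (-7157952000000, (4, 0, 0, 0), (3, 2, 0, 0)),
  (1896960000000, (4, 0, 0, 0), (3, 3, 0, 0))]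

/-- Product part of the certificate I, part 15. -/
def crossI15 : List (ℤ × Expo × Expo) := [
  (2006400000000, (4, 0, 0, 0), (4, 0, 0, 0)),
  (-1054080000000, (4, 0, 0, 0), (4, 1, 0, 0)),
  (2108160000000, (4, 0, 0, 0), (4, 2, 0, 0)),
  (-609984000000, (4, 0, 0, 0), (5, 0, 0, 0)),
  (-83200000000, (4, 0, 0, 0), (6, 0, 0, 0)),
  (-14493600000, (4, 1, 0, 0), (0, 0, 0, 0)),
  (204228000000, (4, 1, 0, 0), (1, 0, 0, 0)),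
  (-252979200000, (4, 1, 0, 0), (1, 1, 0, 0)),
  (-827452800000, (4, 1, 0, 0), (2, 0, 0, 0)),
  (1201651200000, (4, 1, 0, 0), (2, 1, 0, 0)),
  (-1391385600000, (4, 1, 0, 0), (2, 2, 0, 0)),
  (1433548800000, (4, 1, 0, 0), (3, 0, 0, 0)),
  (-505958400000, (4, 1, 0, 0), (3, 1, 0, 0)),
  (1011916800000, (4, 1, 0, 0), (3, 2, 0, 0)),
  (-1054080000000, (4, 1, 0, 0), (4, 0, 0, 0)),
  (337305600000, (4, 1, 0, 0), (5, 0, 0, 0))]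

/-- Product part of the certificate I, part 16. -/
def crossI16 : List (ℤ × Expo × Expo) := [
  (28987200000, (4, 2, 0, 0), (0, 0, 0, 0)),
  (-408456000000, (4, 2, 0, 0), (1, 0, 0, 0)),
  (505958400000, (4, 2, 0, 0), (1, 1, 0, 0)),
  (1654905600000, (4, 2, 0, 0), (2, 0, 0, 0)),
  (-2403302400000, (4, 2, 0, 0), (2, 1, 0, 0)),
  (2782771200000, (4, 2, 0, 0), (2, 2, 0, 0)),
  (-2867097600000, (4, 2, 0, 0), (3, 0, 0, 0)),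
  (1011916800000, (4, 2, 0, 0), (3, 1, 0, 0)),
  (-2023833600000, (4, 2, 0, 0), (3, 2, 0, 0)),
  (2108160000000, (4, 2, 0, 0), (4, 0, 0, 0)),
  (-674611200000, (4, 2, 0, 0), (5, 0, 0, 0)),
  (-4858800000, (5, 0, 0, 0), (0, 0, 0, 0)),
  (76530000000, (5, 0, 0, 0), (1, 0, 0, 0)),
  (-177638400000, (5, 0, 0, 0), (1, 1, 0, 0)),
  (170188800000, (5, 0, 0, 0), (1, 1, 1, 0)),
  (-345585600000, (5, 0, 0, 0), (2, 0, 0, 0))]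

/-- Product part of the certificate I, part 17. -/
def crossI17 : List (ℤ × Expo × Expo) := [
  (1006732800000, (5, 0, 0, 0), (2, 1, 0, 0)),
  (-1021132800000, (5, 0, 0, 0), (2, 1, 1, 0)),
  (-1388275200000, (5, 0, 0, 0), (2, 2, 0, 0)),
  (2042265600000, (5, 0, 0, 0), (2, 2, 1, 0)),
  (-1361510400000, (5, 0, 0, 0), (2, 2, 2, 0)),
  (696633600000, (5, 0, 0, 0), (3, 0, 0, 0)),
  (-902246400000, (5, 0, 0, 0), (3, 1, 0, 0)),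
  (2259763200000, (5, 0, 0, 0), (3, 2, 0, 0)),
  (-607027200000, (5, 0, 0, 0), (3, 3, 0, 0)),
  (-609984000000, (5, 0, 0, 0), (4, 0, 0, 0)),
  (337305600000, (5, 0, 0, 0), (4, 1, 0, 0)),
  (-674611200000, (5, 0, 0, 0), (4, 2, 0, 0)),
  (184934400000, (5, 0, 0, 0), (5, 0, 0, 0)),
  (26624000000, (5, 0, 0, 0), (6, 0, 0, 0)),
  (-1144000000, (6, 0, 0, 0), (0, 0, 0, 0)),
  (16120000000, (6, 0, 0, 0), (1, 0, 0, 0))]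

/-- Product part of the certificate I, part 18. -/
def crossI18 : List (ℤ × Expo × Expo) := [
  (-19968000000, (6, 0, 0, 0), (1, 1, 0, 0)),
  (-65312000000, (6, 0, 0, 0), (2, 0, 0, 0)),
  (94848000000, (6, 0, 0, 0), (2, 1, 0, 0)),
  (-109824000000, (6, 0, 0, 0), (2, 2, 0, 0)),
  (113152000000, (6, 0, 0, 0), (3, 0, 0, 0)),
  (-39936000000, (6, 0, 0, 0), (3, 1, 0, 0)),
  (79872000000, (6, 0, 0, 0), (3, 2, 0, 0)),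
  (-83200000000, (6, 0, 0, 0), (4, 0, 0, 0)),
  (26624000000, (6, 0, 0, 0), (5, 0, 0, 0))]

/-- Product part of the certificate I. -/
def crossI : List (ℤ × Expo × Expo) :=
  crossI0 ++ crossI1 ++ crossI2 ++ crossI3 ++ crossI4 ++ crossI5 ++ crossI6 ++ crossI7 ++ crossI8 ++ crossI9 ++ crossI10 ++ crossI11 ++ crossI12 ++ crossI13 ++ crossI14 ++ crossI15 ++ crossI16 ++ crossI17 ++ crossI18

/-- Common denominator of the certificate I. -/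
def denI : ℕ := 24

end Vale.Agent.P154.Q4
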