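import Vale.Agent.P154.Q4.Reduce
import Vale.Agent.P154.Q4.Expand
import Vale.Agent.P154.Q4.ExpandI
import Vale.Agent.P154.Q4.CertData
import Vale.Agent.P154.Q4.GlueData
import Vale.Agent.P154.Q4.Pack

/-!
P154, four states: the kernel inequalities follow from nonnegativity of the two bilinear
certificates.  The symmetrised monomials are lifted to a common degree using that both
vectors have unit mean.
-/

namespace Vale.Agent.P154.Q4

namespace Glue

/-- Total degree. -/
def deg (e : Expo) : ℕ := e.1 + e.2.1 + e.2.2.1 + e.2.2.2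

/-- Ordering of one pair of exponents. -/
def ord01 (e : Expo) : Expo := if e.1 < e.2.1 then (e.2.1, e.1, e.2.2.1, e.2.2.2) else e

/-- Ordering of one pair of exponents. -/
def ord23 (e : Expo) : Expo := if e.2.2.1 < e.2.2.2 then (e.1, e.2.1, e.2.2.2, e.2.2.1) else e

/-- Ordering of one pair of exponents. -/
def ord02 (e : Expo) : Expo := if e.1 < e.2.2.1 then (e.2.2.1, e.2.1, e.1, e.2.2.2) else e

/-- Ordering of one pair of exponents. -/
def ord13 (e : Expo) : Expo := if e.2.1 < e.2.2.2 then (e.1, e.2.2.2, e.2.2.1, e.2.1) else e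

/-- Ordering of one pair of exponents. -/
def ord12 (e : Expo) : Expo := if e.2.1 < e.2.2.1 then (e.1, e.2.2.1, e.2.1, e.2.2.2) else e

/-- Exponents in decreasing order. -/
def srt (e : Expo) : Expo := ord12 (ord13 (ord02 (ord23 (ord01 e))))

/-- Adding a multiple of one list to another. -/
def addS (k : ℤ) : List ℤ → List ℤ → List ℤ
  | a :: r, b :: s => (k * a + b) :: addS k r s
  | a :: r, [] => (k * a) :: addS k r []
  | [], s => s

/-- Adding a multiple of an outer product to a matrix. -/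
def addO (c : ℤ) : List ℤ → List ℤ → List (List ℤ) → List (List ℤ)
  | a :: x, r, row :: M => (if a = 0 then row else addS (c * a) r row) :: addO c x r M
  | a :: x, r, [] => (if a = 0 then [] else addS (c * a) r []) :: addO c x r []
  | [], _, M => M

/-- Look-up in a table. -/
def lk : List (Expo × List ℤ) → Expo → Option (List ℤ)
  | [], _ => none
  | r :: t, e => if r.1 = e then some r.2 else lk t e

/-- Indicator list of one exponent. -/
def unitV : List Expo → Expo → List ℤ
  | [], _ => []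
  | m :: ms, e => (if m = e then 1 else 0) :: unitV ms e

/-- A row of the table of lifts is correct. -/
def rowOK (D : ℕ) (ms : List Expo) (t : List (Expo × List ℤ)) (r : Expo × List ℤ) : Bool :=
  if deg r.1 = D then decide (ms.count r.1 = 1 ∧ r.2 = unitV ms r.1)
  else decide (deg r.1 < D) &&
    match lk t (srt (r.1.1 + 1, r.1.2.1, r.1.2.2.1, r.1.2.2.2)),
      lk t (srt (r.1.1, r.1.2.1 + 1, r.1.2.2.1, r.1.2.2.2)),
      lk t (srt (r.1.1, r.1.2.1, r.1.2.2.1 + 1, r.1.2.2.2)),
      lk t (srt (r.1.1, r.1.2.1, r.1.2.2.1, r.1.2.2.2 + 1)) with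
    | some a, some b, some c, some d => decide (r.2 = addS 1 a (addS 1 b (addS 1 c d)))
    | _, _, _, _ => false

/-- The lifted vector of an exponent. -/
def vecOf (t : List (Expo × List ℤ)) (e : Expo) : List ℤ := (lk t e).getD []

/-- The matrix of a list of products. -/
def comb (t : List (Expo × List ℤ)) : List (ℤ × Expo × Expo) → List (List ℤ)
  | [] => []
  | x :: l => addO x.1 (vecOf t x.2.1) (vecOf t x.2.2) (comb t l)

/-- Products coming from averaged monomials and from products of functionals. -/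
def terms (dg : List (ℤ × Expo)) (cx : List (ℤ × Expo × Expo)) : List (ℤ × Expo × Expo) :=
  dg.map (fun x => (x.1, x.2, x.2)) ++ cx

/-- All exponents used are in the table. -/
def usedOK (t : List (Expo × List ℤ)) (l : List (ℤ × Expo × Expo)) : Bool :=
  l.all fun x => (lk t x.2.1).isSome && (lk t x.2.2).isSome

variable {v u w : Fin 4 → ℝ}

/-- Values of a list of symmetrised monomials. -/
def vals (ms : List Expo) (v : Fin 4 → ℝ) : List ℝ := ms.map fun e => symL e v

lemma symL_eq (a b c e : ℕ) (v : Fin 4 → ℝ) : symL (a, b, c, e) v = symx a b c e v := by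
  simp [symL, T24, monE, symx]
  ring

lemma symL_s01 (a b c e : ℕ) (v : Fin 4 → ℝ) : symL (b, a, c, e) v = symL (a, b, c, e) v := by
  simp [symL, T24, monE]
  ring

lemma symL_s23 (a b c e : ℕ) (v : Fin 4 → ℝ) : symL (a, b, e, c) v = symL (a, b, c, e) v := by
  simp [symL, T24, monE]
  ring

lemma symL_s02 (a b c e : ℕ) (v : Fin 4 → ℝ) : symL (c, b, a, e) v = symL (a, b, c, e) v := by
  simp [symL, T24, monE]
  ring

lemma symL_s13 (a b c e : ℕ) (v : Fin 4 → ℝ) : symL (a, e, c, b) v = symL (a, b, c, e) v := by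
  simp [symL, T24, monE]
  ring

lemma symL_s12 (a b c e : ℕ) (v : Fin 4 → ℝ) : symL (a, c, b, e) v = symL (a, b, c, e) v := by
  simp [symL, T24, monE]
  ring

lemma symL_ord01 (x : Expo) (v : Fin 4 → ℝ) : symL (ord01 x) v = symL x v := by
  unfold ord01
  split
  · exact symL_s01 x.1 x.2.1 x.2.2.1 x.2.2.2 v
  · rfl

lemma deg_ord01 (x : Expo) : deg (ord01 x) = deg x := by
  unfold ord01 deg
  split
  · dsimp only; omega
  · rfl

lemma symL_ord23 (x : Expo) (v : Fin 4 → ℝ) : symL (ord23 x) v = symL x v := by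
  unfold ord23
  split
  · exact symL_s23 x.1 x.2.1 x.2.2.1 x.2.2.2 v
  · rfl

lemma deg_ord23 (x : Expo) : deg (ord23 x) = deg x := by
  unfold ord23 deg
  split
  · dsimp only; omega
  · rfl

lemma symL_ord02 (x : Expo) (v : Fin 4 → ℝ) : symL (ord02 x) v = symL x v := by
  unfold ord02
  split
  · exact symL_s02 x.1 x.2.1 x.2.2.1 x.2.2.2 v
  · rfl

lemma deg_ord02 (x : Expo) : deg (ord02 x) = deg x := by
  unfold ord02 deg
  split
  · dsimp only; omega
  · rfl

lemma symL_ord13 (x : Expo) (v : Fin 4 → ℝ) : symL (ord13 x) v = symL x v := by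
  unfold ord13
  split
  · exact symL_s13 x.1 x.2.1 x.2.2.1 x.2.2.2 v
  · rfl

lemma deg_ord13 (x : Expo) : deg (ord13 x) = deg x := by
  unfold ord13 deg
  split
  · dsimp only; omega
  · rfl

lemma symL_ord12 (x : Expo) (v : Fin 4 → ℝ) : symL (ord12 x) v = symL x v := by
  unfold ord12
  split
  · exact symL_s12 x.1 x.2.1 x.2.2.1 x.2.2.2 v
  · rfl

lemma deg_ord12 (x : Expo) : deg (ord12 x) = deg x := by
  unfold ord12 deg
  split
  · dsimp only; omega
  · rfl

lemma symL_srt (e : Expo) (v : Fin 4 → ℝ) : symL (srt e) v = symL e v := by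
  rw [srt, symL_ord12, symL_ord13, symL_ord02, symL_ord23, symL_ord01]

lemma deg_srt (e : Expo) : deg (srt e) = deg e := by
  rw [srt, deg_ord12, deg_ord13, deg_ord02, deg_ord23, deg_ord01]

lemma symL_step (a b c e : ℕ) (hv : v 0 + v 1 + v 2 + v 3 = 4) :
    4 * symL (a, b, c, e) v = symL (a + 1, b, c, e) v + symL (a, b + 1, c, e) v
      + symL (a, b, c + 1, e) v + symL (a, b, c, e + 1) v := by
  rw [← hv]
  simp [symL, T24, monE, pow_succ]
  ring

lemma dotL_addS (k : ℤ) (r s : List ℤ) (x : List ℝ) :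
    dotL (addS k r s) x = (k : ℝ) * dotL r x + dotL s x := by
  induction r generalizing s x with
  | nil => cases s <;> simp [addS, dotL]
  | cons a r ih =>
    cases s with
    | nil =>
      cases x with
      | nil => simp [addS, dotL]
      | cons y x => simp [addS, dotL, ih]; ring
    | cons b s =>
      cases x with
      | nil => simp [addS, dotL]
      | cons y x => simp [addS, dotL, ih]; ring

lemma dotS_addO (c : ℤ) (a r : List ℤ) (M : List (List ℤ)) (x y : List ℝ) :
    dotS x ((addO c a r M).map fun s => dotL s y)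
      = (c : ℝ) * dotL a x * dotL r y + dotS x (M.map fun s => dotL s y) := by
  induction a generalizing M x with
  | nil => cases M <;> simp [addO, dotL]
  | cons b a ih =>
    cases x with
    | nil => cases M <;> simp [addO, dotL, dotS]
    | cons z x =>
      cases M with
      | nil =>
        by_cases hb : b = 0
        · simp [addO, dotL, dotS, hb, ih]
        · simp [addO, dotL, dotS, hb, ih, dotL_addS]; ring
      | cons row M =>
        by_cases hb : b = 0
        · simp [addO, dotL, dotS, hb, ih]; ring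
        · simp [addO, dotL, dotS, hb, ih, dotL_addS]; ring

lemma dotL_smul (k : ℤ) (r : List ℤ) (x : List ℝ) :
    dotL (r.map (k * ·)) x = (k : ℝ) * dotL r x := by
  induction r generalizing x with
  | nil => simp [dotL]
  | cons a r ih => cases x <;> simp [dotL, ih]; ring

lemma dotS_smul (k : ℤ) (M : List (List ℤ)) (x y : List ℝ) :
    dotS x ((M.map (List.map (k * ·))).map fun s => dotL s y)
      = (k : ℝ) * dotS x (M.map fun s => dotL s y) := by
  induction M generalizing x with
  | nil => cases x <;> simp [dotS]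
  | cons r M ih =>
    cases x with
    | nil => simp [dotS]
    | cons z x =>
      simp only [List.map_cons, dotS, dotL_smul, ih]
      ring

lemma dotL_unitV (ms : List Expo) (e : Expo) (v : Fin 4 → ℝ) :
    dotL (unitV ms e) (vals ms v) = (ms.count e : ℝ) * symL e v := by
  induction ms with
  | nil => simp [unitV, vals, dotL]
  | cons m ms ih =>
    simp only [unitV, vals, List.map_cons, dotL] at ih ⊢
    rw [ih, List.count_cons]
    by_cases h : m = e
    · subst h; simp; ring
    · simp [h]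

lemma mem_of_lk {t : List (Expo × List ℤ)} {e : Expo} {vec : List ℤ} (h : lk t e = some vec) :
    (e, vec) ∈ t := by
  induction t with
  | nil => simp [lk] at h
  | cons r t ih =>
    simp only [lk] at h
    split at h
    · subst_vars
      obtain ⟨a, b⟩ := r
      simp_all
    · exact List.mem_cons_of_mem _ (ih h)

lemma table_sound {D : ℕ} {ms : List Expo} {t : List (Expo × List ℤ)}
    (ht : t.all (rowOK D ms t) = true) (hv : v 0 + v 1 + v 2 + v 3 = 4) :
    ∀ n, ∀ r ∈ t, deg r.1 + n = D → dotL r.2 (vals ms v) = 4 ^ n * symL r.1 v := by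
  rw [List.all_eq_true] at ht
  intro n
  induction n with
  | zero =>
    intro r hr hd
    have h := ht r hr
    rw [rowOK, if_pos (by omega)] at h
    simp only [decide_eq_true_eq] at h
    rw [h.2, dotL_unitV, h.1]
    simp
  | succ n ih =>
    intro r hr hd
    have h := ht r hr
    rw [rowOK, if_neg (by omega), Bool.and_eq_true] at h
    obtain ⟨-, h⟩ := h
    split at h
    · rename_i a b c d ha hb hc he
      simp only [decide_eq_true_eq] at h
      have key : ∀ f : Expo, ∀ z, lk t (srt f) = some z → deg f + n = D →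
          dotL z (vals ms v) = 4 ^ n * symL f v := by
        intro f z hz hf
        have := ih (srt f, z) (mem_of_lk hz) (by rw [deg_srt]; exact hf)
        rwa [symL_srt] at this
      simp only [deg] at hd key
      rw [h, dotL_addS, dotL_addS, dotL_addS, key _ a ha (by dsimp only; omega), key _ b hb (by dsimp only; omega),
        key _ c hc (by dsimp only; omega), key _ d he (by dsimp only; omega), pow_succ, mul_assoc, symL_step _ _ _ _ hv]
      push_cast
      ring
    · simp at h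

lemma vecOf_eval {D : ℕ} {ms : List Expo} {t : List (Expo × List ℤ)}
    (ht : t.all (rowOK D ms t) = true) (hv : v 0 + v 1 + v 2 + v 3 = 4) {e : Expo}
    (he : (lk t e).isSome = true) :
    dotL (vecOf t e) (vals ms v) = 4 ^ (D - deg e) * symL e v := by
  obtain ⟨vec, h⟩ := Option.isSome_iff_exists.1 he
  rw [vecOf, h]
  refine table_sound ht hv _ (e, vec) (mem_of_lk h) ?_
  have := List.all_eq_true.1 ht _ (mem_of_lk h)
  rw [rowOK] at this
  split at this <;> simp_all <;> omega

/-- Value of the products, lifted to degree `D`. -/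
def evX (D : ℕ) : List (ℤ × Expo × Expo) → (Fin 4 → ℝ) → (Fin 4 → ℝ) → ℝ
  | [], _, _ => 0
  | x :: l, u, w =>
    (x.1 : ℝ) * 4 ^ (D - deg x.2.1) * 4 ^ (D - deg x.2.2) * (symL x.2.1 u * symL x.2.2 w)
      + evX D l u w

/-- Value of an averaged combination, lifted to degree `D`. -/
def evP (D : ℕ) : List (ℤ × Expo) → (Fin 4 → ℝ) → ℝ
  | [], _ => 0
  | x :: l, v => (x.1 : ℝ) * 4 ^ (D - deg x.2) * 4 ^ (D - deg x.2) * symL x.2 v + evP D l v

/-- `addS` by the recursor. -/
noncomputable def addSR (k : ℤ) (r : List ℤ) : List ℤ → List ℤ :=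
  List.rec (motive := fun _ => List ℤ → List ℤ) (fun s => s)
    (fun a _ ih s => List.casesOn (motive := fun _ => List ℤ) s (k * a :: ih [])
      fun b s => (k * a + b) :: ih s) r

/-- Equality of exponents by recursors, which is cheap for the kernel. -/
noncomputable def beqE (r e : Expo) : Bool :=
  Bool.rec false (Bool.rec false (Bool.rec false (Nat.beq r.2.2.2 e.2.2.2)
    (Nat.beq r.2.2.1 e.2.2.1)) (Nat.beq r.2.1 e.2.1)) (Nat.beq r.1 e.1)

/-- `vecOf` by the recursor. -/
noncomputable def lkR (t : List (Expo × List ℤ)) (e : Expo) : List ℤ :=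
  List.rec (motive := fun _ => List ℤ) []
    (fun r _ ih => Bool.rec (motive := fun _ => List ℤ) ih r.2 (beqE r.1 e)) t

/-- The packed rows of `comb`. -/
noncomputable def combP (B : ℕ) (t : List (Expo × List ℤ)) (l : List (ℤ × Expo × Expo)) :
    List ℤ :=
  List.rec (motive := fun _ => List ℤ) []
    (fun x _ ih => addSR (x.1 * pack B (lkR t x.2.2)) (lkR t x.2.1) ih) l

/-- Sum of the absolute values. -/
def absSum : List ℤ → ℤ
  | [] => 0
  | a :: l => |a| + absSum l

/-- A bound for the entries of `comb`. -/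
noncomputable def combB (t : List (Expo × List ℤ)) (l : List (ℤ × Expo × Expo)) : ℤ :=
  List.rec (motive := fun _ => ℤ) 0
    (fun x _ ih => |x.1| * absSum (lkR t x.2.1) * absSum (lkR t x.2.2) + ih) l

/-- The packed form of the test that `comb` gives `k` times the matrix. -/
noncomputable def combOK (B k : ℕ) (t : List (Expo × List ℤ)) (l : List (ℤ × Expo × Expo))
    (M : List (List ℤ)) : Bool :=
  decide (combB t l < 2 ^ B) && decide (combP (B + 1) t l = M.map fun r => (k : ℤ) * pack (B + 1) r)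
    && M.all fun r => r.all fun z => decide (|(k : ℤ) * z| < 2 ^ B)

lemma addSR_eq (k : ℤ) : ∀ r s : List ℤ, addSR k r s = addS k r s
  | [], s => by cases s <;> rfl
  | a :: r, [] => congrArg (k * a :: ·) (addSR_eq k r [])
  | a :: r, b :: s => congrArg ((k * a + b) :: ·) (addSR_eq k r s)

lemma beqE_eq (r e : Expo) : beqE r e = decide (r = e) := by
  obtain ⟨a, b, c, d⟩ := r
  obtain ⟨a', b', c', d'⟩ := e
  rw [Bool.eq_iff_iff, decide_eq_true_eq, Prod.mk.injEq, Prod.mk.injEq, Prod.mk.injEq]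
  simp only [beqE]
  cases h1 : Nat.beq a a' <;> cases h2 : Nat.beq b b' <;> cases h3 : Nat.beq c c' <;>
    simp_all [← Nat.beq_eq]

lemma lkR_eq (e : Expo) : ∀ t : List (Expo × List ℤ), lkR t e = vecOf t e
  | [] => rfl
  | r :: t => by
    show (Bool.rec (lkR t e) r.2 (beqE r.1 e) : List ℤ) = _
    rw [lkR_eq e t, beqE_eq, vecOf, vecOf, lk]
    by_cases h : r.1 = e <;> simp [h]

/-- `List.all` by the recursor. -/
noncomputable def allG {α : Type} (f : α → Bool) (l : List α) : Bool :=
  List.rec (motive := fun _ => Bool) true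
    (fun a _ ih => Bool.rec (motive := fun _ => Bool) false ih (f a)) l

lemma allG_eq {α : Type} (f : α → Bool) : ∀ l : List α, allG f l = l.all f
  | [] => rfl
  | a :: l => by
    show (Bool.rec false (allG f l) (f a) : Bool) = _
    rw [allG_eq f l, List.all_cons]
    cases f a <;> rfl

/-- The list is not empty. -/
noncomputable def nonnilR (l : List ℤ) : Bool :=
  List.rec (motive := fun _ => Bool) false (fun _ _ _ => true) l

lemma lk_of_nonnil {t : List (Expo × List ℤ)} {e : Expo} (h : nonnilR (lkR t e) = true) :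
    lk t e = some (lkR t e) := by
  rw [lkR_eq, vecOf] at h ⊢
  cases hh : lk t e with
  | none => rw [hh] at h; exact absurd h (by simp [nonnilR])
  | some v => rfl

/-- `usedOK` by recursors. -/
noncomputable def usedR (t : List (Expo × List ℤ)) (l : List (ℤ × Expo × Expo)) : Bool :=
  allG (fun x => nonnilR (lkR t x.2.1) && nonnilR (lkR t x.2.2)) l

lemma usedOK_of_usedR {t : List (Expo × List ℤ)} {l : List (ℤ × Expo × Expo)}
    (h : usedR t l = true) : usedOK t l = true := by
  simp only [usedR, allG_eq, List.all_eq_true, Bool.and_eq_true] at h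
  simp only [usedOK, List.all_eq_true, Bool.and_eq_true]
  exact fun x hx => by simp [lk_of_nonnil (h x hx).1, lk_of_nonnil (h x hx).2]

/-- `rowOK` by recursors. -/
noncomputable def rowR (D : ℕ) (ms : List Expo) (t : List (Expo × List ℤ))
    (r : Expo × List ℤ) : Bool :=
  if deg r.1 = D then decide (ms.count r.1 = 1 ∧ r.2 = unitV ms r.1)
  else decide (deg r.1 < D) &&
    (nonnilR (lkR t (srt (r.1.1 + 1, r.1.2.1, r.1.2.2.1, r.1.2.2.2))) &&
      (nonnilR (lkR t (srt (r.1.1, r.1.2.1 + 1, r.1.2.2.1, r.1.2.2.2))) &&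
        (nonnilR (lkR t (srt (r.1.1, r.1.2.1, r.1.2.2.1 + 1, r.1.2.2.2))) &&
          (nonnilR (lkR t (srt (r.1.1, r.1.2.1, r.1.2.2.1, r.1.2.2.2 + 1))) &&
    decide (r.2 = addSR 1 (lkR t (srt (r.1.1 + 1, r.1.2.1, r.1.2.2.1, r.1.2.2.2)))
      (addSR 1 (lkR t (srt (r.1.1, r.1.2.1 + 1, r.1.2.2.1, r.1.2.2.2)))
        (addSR 1 (lkR t (srt (r.1.1, r.1.2.1, r.1.2.2.1 + 1, r.1.2.2.2)))
          (lkR t (srt (r.1.1, r.1.2.1, r.1.2.2.1, r.1.2.2.2 + 1))))))))))

lemma all_rowOK_of_rowR {D : ℕ} {ms : List Expo} {t : List (Expo × List ℤ)}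
    (h : allG (rowR D ms t) t = true) : t.all (rowOK D ms t) = true := by
  simp only [allG_eq, List.all_eq_true] at h ⊢
  intro r hr
  have h := h r hr
  unfold rowR at h
  unfold rowOK
  split
  · next hd => rwa [if_pos hd] at h
  · next hd =>
    rw [if_neg hd] at h
    simp only [Bool.and_eq_true, decide_eq_true_eq, addSR_eq] at h
    obtain ⟨h0, h1, h2, h3, h4, h5⟩ := h
    simp [lk_of_nonnil h1, lk_of_nonnil h2, lk_of_nonnil h3, lk_of_nonnil h4, h0, ← h5]

lemma pack_addS (B : ℕ) (k : ℤ) : ∀ r s : List ℤ,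
    pack B (addS k r s) = k * pack B r + pack B s
  | [], s => by cases s <;> simp [addS, pack]
  | a :: r, [] => by simp [addS, pack, pack_addS B k r []]; ring
  | a :: r, b :: s => by simp [addS, pack, pack_addS B k r s]; ring

lemma pack_smul (B : ℕ) (k : ℤ) (r : List ℤ) : pack B (r.map (k * ·)) = k * pack B r := by
  induction r with
  | nil => simp [pack]
  | cons a r ih => simp [pack, ih]; ring

lemma map_pack_addO (B : ℕ) (c : ℤ) : ∀ (a r : List ℤ) (M : List (List ℤ)),
    (addO c a r M).map (pack B) = addS (c * pack B r) a (M.map (pack B))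
  | [], r, M => by cases M <;> simp [addO, addS]
  | b :: a, r, [] => by
    by_cases hb : b = 0
    · simp [addO, addS, hb, map_pack_addO B c a r [], pack]
    · simp [addO, addS, hb, map_pack_addO B c a r [], pack, pack_addS]; ring
  | b :: a, r, row :: M => by
    by_cases hb : b = 0
    · simp [addO, addS, hb, map_pack_addO B c a r M]
    · simp [addO, addS, hb, map_pack_addO B c a r M, pack_addS]; ring

lemma combP_eq (B : ℕ) (t : List (Expo × List ℤ)) : ∀ l,
    combP B t l = (comb t l).map (pack B)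
  | [] => rfl
  | x :: l => by
    show addSR (x.1 * pack B (lkR t x.2.2)) (lkR t x.2.1) (combP B t l) = _
    rw [addSR_eq, lkR_eq, lkR_eq, combP_eq B t l, comb, map_pack_addO]

lemma absSum_nonneg : ∀ l, 0 ≤ absSum l
  | [] => le_rfl
  | a :: l => add_nonneg (abs_nonneg a) (absSum_nonneg l)

lemma le_absSum : ∀ (l : List ℤ), ∀ z ∈ l, |z| ≤ absSum l
  | [], _, h => by simp at h
  | a :: l, z, h => by
    rcases List.mem_cons.1 h with rfl | h
    · exact le_add_of_nonneg_right (absSum_nonneg l)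
    · exact (le_absSum l z h).trans (le_add_of_nonneg_left (abs_nonneg a))

lemma abs_addS {k : ℤ} : ∀ (r s : List ℤ) {N : ℤ}, 0 ≤ N → (∀ z ∈ s, |z| ≤ N) →
    ∀ z ∈ addS k r s, |z| ≤ |k| * absSum r + N
  | [], s, N, _, hs, z, hz => by
    have hz : z ∈ s := by cases s <;> simpa [addS] using hz
    simpa [absSum] using hs z hz
  | a :: r, [], N, hN, hs, z, hz => by
    have h0 := mul_nonneg (abs_nonneg k) (absSum_nonneg r)
    have h1 := mul_nonneg (abs_nonneg k) (abs_nonneg a)
    simp only [addS, List.mem_cons] at hz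
    rw [absSum, mul_add]
    rcases hz with rfl | hz
    · rw [abs_mul]; linarith
    · linarith [abs_addS r [] hN hs z hz]
  | a :: r, b :: s, N, hN, hs, z, hz => by
    have h0 := mul_nonneg (abs_nonneg k) (absSum_nonneg r)
    have h1 := mul_nonneg (abs_nonneg k) (abs_nonneg a)
    simp only [addS, List.mem_cons] at hz
    rw [absSum, mul_add]
    rcases hz with rfl | hz
    · have := hs b (List.mem_cons_self ..)
      have := abs_add_le (k * a) b
      rw [abs_mul] at this
      linarith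
    · linarith [abs_addS r s hN (fun y hy => hs y (List.mem_cons_of_mem _ hy)) z hz]

lemma abs_addO {c : ℤ} : ∀ (a r : List ℤ) (M : List (List ℤ)) {N : ℤ}, 0 ≤ N →
    (∀ row ∈ M, ∀ z ∈ row, |z| ≤ N) →
    ∀ row ∈ addO c a r M, ∀ z ∈ row, |z| ≤ |c| * absSum a * absSum r + N
  | [], r, M, N, _, hM, row, hrow, z, hz => by
    have hrow : row ∈ M := by cases M <;> simpa [addO] using hrow
    simpa [absSum] using hM row hrow z hz
  | b :: a, r, M, N, hN, hM, row, hrow, z, hz => by
    have ha := absSum_nonneg a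
    have hr := absSum_nonneg r
    have h0 : 0 ≤ |c| * absSum a * absSum r := by positivity
    have h1 : 0 ≤ |c| * |b| * absSum r := by positivity
    rw [absSum, mul_add, add_mul]
    have step : ∀ (q : List ℤ), (∀ y ∈ q, |y| ≤ N) → z ∈ (if b = 0 then q else addS (c * b) r q) →
        |z| ≤ |c| * |b| * absSum r + N := by
      intro q hq hz
      split at hz
      · linarith [hq z hz]
      · simpa [abs_mul] using abs_addS r q hN hq z hz
    cases M with
    | nil =>
      simp only [addO, List.mem_cons] at hrow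
      rcases hrow with rfl | hrow
      · linarith [step [] (by simp) hz]
      · linarith [abs_addO a r [] hN (by simp) row hrow z hz]
    | cons q M =>
      simp only [addO, List.mem_cons] at hrow
      rcases hrow with rfl | hrow
      · linarith [step q (hM q (List.mem_cons_self ..)) hz]
      · linarith [abs_addO a r M hN (fun y hy => hM y (List.mem_cons_of_mem _ hy)) row hrow z hz]

lemma combB_spec (t : List (Expo × List ℤ)) : ∀ l,
    0 ≤ combB t l ∧ ∀ row ∈ comb t l, ∀ z ∈ row, |z| ≤ combB t l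
  | [] => ⟨le_rfl, by simp [comb]⟩
  | x :: l => by
    obtain ⟨h0, h⟩ := combB_spec t l
    have e : combB t (x :: l) =
        |x.1| * absSum (vecOf t x.2.1) * absSum (vecOf t x.2.2) + combB t l := by
      show |x.1| * absSum (lkR t x.2.1) * absSum (lkR t x.2.2) + combB t l = _
      rw [lkR_eq, lkR_eq]
    rw [e, comb]
    have ha := absSum_nonneg (vecOf t x.2.1)
    have hr := absSum_nonneg (vecOf t x.2.2)
    exact ⟨by positivity, abs_addO _ _ _ h0 h⟩

lemma head_eq_of_pack {B : ℕ} {c d p q : ℤ} (hc : |c| < 2 ^ B) (hd : |d| < 2 ^ B)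
    (h : c + 2 ^ (B + 1) * p = d + 2 ^ (B + 1) * q) : c = d ∧ p = q := by
  have h2 : c - d = 2 ^ (B + 1) * (q - p) := by linarith
  have h3 : |2 ^ (B + 1) * (q - p)| < (2 : ℤ) ^ (B + 1) := by
    rw [← h2, pow_succ]
    have := abs_sub c d
    linarith
  rw [abs_mul, abs_of_pos (by positivity : (0 : ℤ) < 2 ^ (B + 1))] at h3
  have h4 : |q - p| < 1 := (mul_lt_iff_lt_one_right (by positivity)).1 h3
  have h5 : q - p = 0 := Int.abs_lt_one_iff.1 h4
  rw [h5, mul_zero] at h2
  exact ⟨by linarith, by linarith⟩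

lemma dotL_eq_of_pack {B : ℕ} : ∀ (xs ys : List ℤ) (v : List ℝ),
    (∀ z ∈ xs, |z| < 2 ^ B) → (∀ z ∈ ys, |z| < 2 ^ B) → pack (B + 1) xs = pack (B + 1) ys →
    dotL xs v = dotL ys v
  | [], [], v, _, _, _ => rfl
  | [], d :: ys, v, hx, hy, h => by
    obtain ⟨h1, h2⟩ := head_eq_of_pack (c := 0) (p := 0) (by simp) (hy d (List.mem_cons_self ..))
      (by simpa [pack] using h)
    cases v with
    | nil => simp [dotL]
    | cons y v =>
      have := dotL_eq_of_pack [] ys v hx (fun z hz => hy z (List.mem_cons_of_mem _ hz)) h2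
      simp [dotL, ← h1] at this ⊢
      exact this
  | c :: xs, [], v, hx, hy, h => by
    obtain ⟨h1, h2⟩ := head_eq_of_pack (d := 0) (q := 0) (hx c (List.mem_cons_self ..)) (by simp)
      (by simpa [pack] using h)
    cases v with
    | nil => simp [dotL]
    | cons y v =>
      have := dotL_eq_of_pack xs [] v (fun z hz => hx z (List.mem_cons_of_mem _ hz)) hy h2
      simp [dotL, h1] at this ⊢
      exact this
  | c :: xs, d :: ys, v, hx, hy, h => by
    obtain ⟨h1, h2⟩ := head_eq_of_pack (hx c (List.mem_cons_self ..))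
      (hy d (List.mem_cons_self ..)) (by simpa [pack] using h)
    cases v with
    | nil => simp [dotL]
    | cons y v =>
      simp [dotL, h1, dotL_eq_of_pack xs ys v (fun z hz => hx z (List.mem_cons_of_mem _ hz))
        (fun z hz => hy z (List.mem_cons_of_mem _ hz)) h2]

lemma map_dotL_eq_of_pack {B : ℕ} (v : List ℝ) : ∀ R S : List (List ℤ),
    (∀ r ∈ R, ∀ z ∈ r, |z| < 2 ^ B) → (∀ r ∈ S, ∀ z ∈ r, |z| < 2 ^ B) →
    R.map (pack (B + 1)) = S.map (pack (B + 1)) →
    (R.map fun r => dotL r v) = S.map fun r => dotL r v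
  | [], [], _, _, _ => rfl
  | [], _ :: _, _, _, h => by simp at h
  | _ :: _, [], _, _, h => by simp at h
  | r :: R, s :: S, hR, hS, h => by
    simp only [List.map_cons, List.cons.injEq] at h ⊢
    exact ⟨dotL_eq_of_pack r s v (hR r (List.mem_cons_self ..)) (hS s (List.mem_cons_self ..)) h.1,
      map_dotL_eq_of_pack v R S (fun q hq => hR q (List.mem_cons_of_mem _ hq))
        (fun q hq => hS q (List.mem_cons_of_mem _ hq)) h.2⟩

lemma comb_eval {B k : ℕ} {t : List (Expo × List ℤ)} {l : List (ℤ × Expo × Expo)}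
    {M : List (List ℤ)} (h : combOK B k t l M = true) (v : List ℝ) :
    ((comb t l).map fun r => dotL r v) = (M.map (List.map ((k : ℤ) * ·))).map fun r => dotL r v := by
  simp only [combOK, Bool.and_eq_true, decide_eq_true_eq, List.all_eq_true] at h
  obtain ⟨⟨hb, he⟩, hM⟩ := h
  refine map_dotL_eq_of_pack v _ _ (fun r hr z hz => ((combB_spec t l).2 r hr z hz).trans_lt hb)
    (fun r hr z hz => ?_) ?_
  · obtain ⟨q, hq, rfl⟩ := List.mem_map.1 hr
    obtain ⟨y, hy, rfl⟩ := List.mem_map.1 hz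
    exact hM q hq y hy
  · rw [← combP_eq, he, List.map_map]
    exact List.map_congr_left fun r _ => (pack_smul _ _ r).symm

lemma bil_eq {D : ℕ} {ms : List Expo} {t : List (Expo × List ℤ)} {M : List (List ℤ)}
    {l : List (ℤ × Expo × Expo)} {k : ℕ}
    (ht : t.all (rowOK D ms t) = true) (hl : usedOK t l = true)
    {B : ℕ} (hM : combOK B k t l M = true)
    (hu : u 0 + u 1 + u 2 + u 3 = 4) (hw : w 0 + w 1 + w 2 + w 3 = 4) :
    (k : ℝ) * bil M ms u w = evX D l u w := by
  have h : ∀ l, usedOK t l = true →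
      dotS (vals ms u) ((comb t l).map fun s => dotL s (vals ms w)) = evX D l u w := by
    intro l hl
    induction l with
    | nil => cases h : vals ms u <;> simp [comb, evX, dotS]
    | cons x l ih =>
      simp only [usedOK, List.all_cons, Bool.and_eq_true] at hl
      rw [comb, evX, dotS_addO, ih hl.2, vecOf_eval ht hu hl.1.1, vecOf_eval ht hw hl.1.2]
      ring
  have := h l hl
  rw [comb_eval hM, dotS_smul] at this
  rw [← this, bil]
  rfl

lemma evX_terms (D : ℕ) (dg : List (ℤ × Expo)) (cx : List (ℤ × Expo × Expo)) :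
    evX D (terms dg cx) u w = 24 * avg24 (evP D dg) u w + evX D cx u w := by
  induction dg with
  | nil => simp [terms, evP, avg24]
  | cons x dg ih =>
    have h : avg24 (evP D (x :: dg)) u w = (x.1 : ℝ) * 4 ^ (D - deg x.2) * 4 ^ (D - deg x.2)
        * (symL x.2 u * symL x.2 w / 24) + avg24 (evP D dg) u w := by
      obtain ⟨k, a, b, c, e⟩ := x
      rw [symL_eq, symL_eq, ← sym_eq_symx, ← sym_eq_symx, ← avg24_sym]
      simp only [avg24, sym_eq_symx, ← symL_eq, evP, Finset.sum_add_distrib, ← Finset.mul_sum]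
      ring
    simp only [terms, List.map_cons, List.cons_append] at ih ⊢
    rw [evX, ih, h]
    ring

lemma mom2_expand (hv : v 0 + v 1 + v 2 + v 3 = 4) : mom 2 v =
    (1 / 24 : ℝ) * symL (0, 0, 0, 0) v
    + (-1 / 12 : ℝ) * symL (1, 0, 0, 0) v
    + (1 / 24 : ℝ) * symL (2, 0, 0, 0) v := by
  have hp : pP v = 1 := by rw [pP_four, hv]; norm_num
  simp [mom, hp, Fin.sum_univ_four, symL, T24, monE]
  ring

lemma mom3_expand (hv : v 0 + v 1 + v 2 + v 3 = 4) : mom 3 v =
    (-1 / 24 : ℝ) * symL (0, 0, 0, 0) v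
    + (1 / 8 : ℝ) * symL (1, 0, 0, 0) v
    + (-1 / 8 : ℝ) * symL (2, 0, 0, 0) v
    + (1 / 24 : ℝ) * symL (3, 0, 0, 0) v := by
  have hp : pP v = 1 := by rw [pP_four, hv]; norm_num
  simp [mom, hp, Fin.sum_univ_four, symL, T24, monE]
  ring

lemma mom2sq_expand (hv : v 0 + v 1 + v 2 + v 3 = 4) : mom 2 v ^ 2 =
    (1 / 24 : ℝ) * symL (0, 0, 0, 0) v
    + (-1 / 6 : ℝ) * symL (1, 0, 0, 0) v
    + (1 / 8 : ℝ) * symL (1, 1, 0, 0) v
    + (1 / 8 : ℝ) * symL (2, 0, 0, 0) v
    + (-1 / 8 : ℝ) * symL (2, 1, 0, 0) v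
    + (1 / 32 : ℝ) * symL (2, 2, 0, 0) v
    + (-1 / 24 : ℝ) * symL (3, 0, 0, 0) v
    + (1 / 96 : ℝ) * symL (4, 0, 0, 0) v := by
  have hp : pP v = 1 := by rw [pP_four, hv]; norm_num
  simp [mom, hp, Fin.sum_univ_four, symL, T24, monE]
  ring

lemma fI_expand (hv : v 0 + v 1 + v 2 + v 3 = 4) : fI v =
    (-11 / 300 : ℝ) * symL (0, 0, 0, 0) v
    + (31 / 240 : ℝ) * symL (1, 0, 0, 0) v
    + (-1 / 25 : ℝ) * symL (1, 1, 0, 0) v
    + (-157 / 1200 : ℝ) * symL (2, 0, 0, 0) v
    + (19 / 400 : ℝ) * symL (2, 1, 0, 0) v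
    + (-11 / 800 : ℝ) * symL (2, 2, 0, 0) v
    + (17 / 300 : ℝ) * symL (3, 0, 0, 0) v
    + (-1 / 200 : ℝ) * symL (3, 1, 0, 0) v
    + (1 / 400 : ℝ) * symL (3, 2, 0, 0) v
    + (-1 / 96 : ℝ) * symL (4, 0, 0, 0) v
    + (1 / 1200 : ℝ) * symL (5, 0, 0, 0) v := by
  have hp : pP v = 1 := by rw [pP_four, hv]; norm_num
  simp [fI, mom, hp, Fin.sum_univ_four, symL, T24, monE]
  ring

lemma fG_expand (hv : v 0 + v 1 + v 2 + v 3 = 4) : fG v =
    (227 / 3600 : ℝ) * symL (0, 0, 0, 0) v
    + (-971 / 7200 : ℝ) * symL (1, 0, 0, 0) v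
    + (3 / 80 : ℝ) * symL (1, 1, 0, 0) v
    + (319 / 7200 : ℝ) * symL (2, 0, 0, 0) v
    + (-3 / 80 : ℝ) * symL (2, 1, 0, 0) v
    + (3 / 320 : ℝ) * symL (2, 2, 0, 0) v
    + (21 / 800 : ℝ) * symL (3, 0, 0, 0) v
    + (-13 / 1600 : ℝ) * symL (4, 0, 0, 0) v := by
  have hp : pP v = 1 := by rw [pP_four, hv]; norm_num
  simp [fG, mom, hp, Fin.sum_univ_four, symL, T24, monE]
  ring

lemma fJ_expand (hv : v 0 + v 1 + v 2 + v 3 = 4) : fJ v =
    (-607 / 12000 : ℝ) * symL (0, 0, 0, 0) v
    + (107 / 200 : ℝ) * symL (1, 0, 0, 0) v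
    + (-141 / 200 : ℝ) * symL (1, 1, 0, 0) v
    + (277 / 1000 : ℝ) * symL (1, 1, 1, 0) v
    + (-1237 / 1600 : ℝ) * symL (2, 0, 0, 0) v
    + (35277 / 32000 : ℝ) * symL (2, 1, 0, 0) v
    + (-831 / 2000 : ℝ) * symL (2, 1, 1, 0) v
    + (-1311 / 3200 : ℝ) * symL (2, 2, 0, 0) v
    + (831 / 4000 : ℝ) * symL (2, 2, 1, 0) v
    + (-277 / 8000 : ℝ) * symL (2, 2, 2, 0) v
    + (3163 / 6400 : ℝ) * symL (3, 0, 0, 0) v
    + (-4971 / 16000 : ℝ) * symL (3, 1, 0, 0) v
    + (6453 / 32000 : ℝ) * symL (3, 2, 0, 0) v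
    + (-247 / 16000 : ℝ) * symL (3, 3, 0, 0) v
    + (-209 / 1600 : ℝ) * symL (4, 0, 0, 0) v
    + (549 / 16000 : ℝ) * symL (4, 1, 0, 0) v
    + (-549 / 32000 : ℝ) * symL (4, 2, 0, 0) v
    + (301 / 32000 : ℝ) * symL (5, 0, 0, 0) v
    + (13 / 19200 : ℝ) * symL (6, 0, 0, 0) v := by
  have hp : pP v = 1 := by rw [pP_four, hv]; norm_num
  simp [fJ, mom, hp, Fin.sum_univ_four, symL, T24, monE]
  ring

lemma r2_nonneg {L M : Fin 4 → ℝ} (hL : L 0 + L 1 + L 2 + L 3 = 4) (hM : M 0 + M 1 + M 2 + M 3 = 4) :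
    mom 3 L * mom 3 M ≤ 2 / 3 * (mom 2 L ^ 2 * mom 2 M + mom 2 L * mom 2 M ^ 2) := by
  have h : ∀ x : Fin 4 → ℝ, x 0 + x 1 + x 2 + x 3 = 0 → ∀ m, 0 ≤ m →
      3 * m ^ 2 = (x 0 ^ 2 + x 1 ^ 2 + x 2 ^ 2 + x 3 ^ 2) / 4 →
      (x 0 ^ 3 + x 1 ^ 3 + x 2 ^ 3 + x 3 ^ 3) / 4 ≤ 6 * m ^ 3 := by
    intro x hs m hm0 hm
    have key : ∀ a b c d : ℝ, a + b + c + d = 0 → 12 * m ^ 2 = a ^ 2 + b ^ 2 + c ^ 2 + d ^ 2 →
        (a + m) ^ 2 * (a - 3 * m) ≤ 0 := by
      intro a b c d h1 h2
      refine mul_nonpos_of_nonneg_of_nonpos (sq_nonneg _) ?_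
      have h3 : a ^ 2 ≤ (3 * m) ^ 2 := by
        have ha : a = -(b + c + d) := by linarith
        subst ha
        nlinarith [sq_nonneg (b - c), sq_nonneg (b - d), sq_nonneg (c - d)]
      linarith [abs_le_of_sq_le_sq' h3 (by positivity)]
    have k0 := key (x 0) (x 1) (x 2) (x 3) hs (by linarith)
    have k1 := key (x 1) (x 0) (x 2) (x 3) (by linarith) (by linarith)
    have k2 := key (x 2) (x 1) (x 0) (x 3) (by linarith) (by linarith)
    have k3 := key (x 3) (x 1) (x 2) (x 0) (by linarith) (by linarith)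
    have e : (x 0 + m) ^ 2 * (x 0 - 3 * m) + (x 1 + m) ^ 2 * (x 1 - 3 * m)
        + (x 2 + m) ^ 2 * (x 2 - 3 * m) + (x 3 + m) ^ 2 * (x 3 - 3 * m)
        = (x 0 ^ 3 + x 1 ^ 3 + x 2 ^ 3 + x 3 ^ 3) - 24 * m ^ 3 := by
      linear_combination (-5 * m ^ 2) * hs + 4 * m * hm
    linarith
  have habs : ∀ v : Fin 4 → ℝ, v 0 + v 1 + v 2 + v 3 = 4 →
      ∃ m, 0 ≤ m ∧ 3 * m ^ 2 = mom 2 v ∧ |mom 3 v| ≤ 6 * m ^ 3 := by
    intro v hv
    have hp : pP v = 1 := by rw [pP_four, hv]; norm_num
    have hmom : ∀ k, mom k v = ((v 0 - 1) ^ k + (v 1 - 1) ^ k + (v 2 - 1) ^ k + (v 3 - 1) ^ k) / 4 := by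
      intro k; simp [mom, hp, Fin.sum_univ_four]
    have hA : 0 ≤ mom 2 v / 3 := by rw [hmom]; positivity
    refine ⟨Real.sqrt (mom 2 v / 3), Real.sqrt_nonneg _, by rw [Real.sq_sqrt hA]; ring, abs_le.2 ⟨?_, ?_⟩⟩
    · have := h (fun i => 1 - v i) (by linarith) _ (Real.sqrt_nonneg _)
        (by rw [Real.sq_sqrt hA, hmom]; ring)
      rw [hmom 3]
      linarith
    · have := h (fun i => v i - 1) (by linarith) _ (Real.sqrt_nonneg _)
        (by rw [Real.sq_sqrt hA, hmom]; ring)
      rw [hmom 3]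
      linarith
  obtain ⟨m, hm, hA, hT⟩ := habs L hL
  obtain ⟨n, hn, hB, hS⟩ := habs M hM
  refine (le_abs_self _).trans ?_
  rw [abs_mul, ← hA, ← hB]
  refine (mul_le_mul hT hS (abs_nonneg _) (by positivity)).trans ?_
  nlinarith [mul_nonneg (mul_nonneg (sq_nonneg m) (sq_nonneg n)) (sq_nonneg (m - n))]

lemma tblA_ok : tblA.all (rowOK 7 musA tblA) = true := by decide +kernel

lemma tblI_rows : allG (rowR 13 musI tblI) tblI = true := by decide +kernel

lemma tblI_ok : tblI.all (rowOK 13 musI tblI) = true := all_rowOK_of_rowR tblI_rows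

lemma usedA_ok : usedOK tblA (terms diagA crossA) = true := by decide +kernel

lemma usedI_used : usedR tblI (terms diagI crossI) = true := by decide +kernel

lemma usedI_ok : usedOK tblI (terms diagI crossI) = true := usedOK_of_usedR usedI_used

lemma combA_ok : combOK 120 denA tblA (terms diagA crossA) matA = true := by decide +kernel

lemma combI_bound : decide (combB tblI (terms diagI crossI) < 2 ^ 180) = true := by
  decide +kernel

lemma combI_rows : decide (combP (180 + 1) tblI (terms diagI crossI)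
    = matI.map fun r => (denI : ℤ) * pack (180 + 1) r) = true := by decide +kernel

lemma combI_small : (matI.all fun r => r.all fun z => decide (|(denI : ℤ) * z| < 2 ^ 180))
    = true := by decide +kernel

lemma combI_ok : combOK 180 denI tblI (terms diagI crossI) matI = true := by
  rw [combOK, combI_bound, combI_rows, combI_small]; rfl

lemma evP_append (D : ℕ) (a b : List (ℤ × Expo)) (v : Fin 4 → ℝ) :
    evP D (a ++ b) v = evP D a v + evP D b v := by
  induction a with
  | nil => simp [evP]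
  | cons x a ih => simp [evP, ih, add_assoc]

lemma evP_diagA (v : Fin 4 → ℝ) :
    evP 7 diagA v = -((denA : ℝ) * scaleA / 24) * polA v := by
  rw [polA_expand]
  simp only [diagA, evP_append]
  simp [diagA0, diagA1, evP, deg, symL_eq, denA, scaleA]
  ring

lemma evP_diagI (v : Fin 4 → ℝ) :
    evP 13 diagI v = ((denI : ℝ) * scaleI / 24) * polI v := by
  rw [polI_expand]
  simp only [diagI, evP_append]
  simp [diagI0, diagI1, diagI2, diagI3, diagI4, diagI5, diagI6, diagI7, diagI8, diagI9, diagI10, diagI11, evP, deg, symL_eq, denI, scaleI]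
  ring

lemma symL_zero (v : Fin 4 → ℝ) : symL ((0, 0, 0, 0) : Expo) v = 24 := by
  simp [symL, T24, monE]
  norm_num

lemma evX_append (D : ℕ) (a b : List (ℤ × Expo × Expo)) :
    evX D (a ++ b) u w = evX D a u w + evX D b u w := by
  induction a with
  | nil => simp [evX]
  | cons x a ih => simp [evX, ih, add_assoc]

lemma evX_crossA (hu : u 0 + u 1 + u 2 + u 3 = 4) (hw : w 0 + w 1 + w 2 + w 3 = 4) :
    evX 7 crossA u w = (denA : ℝ) * scaleA
      * (mom 2 u * 1 + 1 * mom 2 w - (fI u * fG w + fG u * fI w)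
        - 1 / 200 * (mom 2 u ^ 2 * mom 2 w + mom 2 u * mom 2 w ^ 2)
        - 1 / 60 * (2 / 3 * (mom 2 u ^ 2 * mom 2 w + mom 2 u * mom 2 w ^ 2) - mom 3 u * mom 3 w)) := by
  rw [mom2sq_expand hu, mom2sq_expand hw, mom2_expand hu, mom2_expand hw, mom3_expand hu,
    mom3_expand hw, fI_expand hu, fI_expand hw, fG_expand hu, fG_expand hw]
  simp only [crossA, evX_append]
  simp [crossA0, crossA1, crossA2, crossA3, crossA4, crossA5, crossA6, evX, deg, denA, scaleA, symL_zero]
  ring

lemma evX_crossI (hu : u 0 + u 1 + u 2 + u 3 = 4) (hw : w 0 + w 1 + w 2 + w 3 = 4) :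
    evX 13 crossI u w = (denI : ℝ) * scaleI
      * (-(fI u * 1) - 1 * fI w + (fI u * fJ w + fJ u * fI w)) := by
  rw [fI_expand hu, fI_expand hw, fJ_expand hu, fJ_expand hw]
  simp only [crossI, evX_append]
  simp [crossI0, crossI1, crossI2, crossI3, crossI4, crossI5, crossI6, crossI7, crossI8, crossI9, crossI10, crossI11, crossI12, crossI13, crossI14, crossI15, crossI16, crossI17, crossI18, evX, deg, denI, scaleI, symL_zero]
  ring

end Glue

open Glue in
/-- The first kernel inequality follows from nonnegativity of its certificate. -/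
theorem kernelA_of_pos (h : ∀ u w : Fin 4 → ℝ, (∀ i, 0 ≤ u i) → (∀ i, 0 ≤ w i) →
    0 ≤ bil matA musA u w) : KernelA := by
  refine kernelA_of_pol fun u w hu hw hu1 hw1 => ?_
  have hus : u 0 + u 1 + u 2 + u 3 = 4 := by rw [pP_four] at hu1; linarith
  have hws : w 0 + w 1 + w 2 + w 3 = 4 := by rw [pP_four] at hw1; linarith
  have e := bil_eq tblA_ok usedA_ok combA_ok hus hws
  have hav : avg24 (evP 7 diagA) u w = -((denA : ℝ) * scaleA / 24) * avg24 polA u w := by
    simp only [avg24, evP_diagA, ← Finset.mul_sum, mul_div_assoc]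
  rw [evX_terms, hav, evX_crossA hus hws] at e
  have hb := mul_nonneg (Nat.cast_nonneg denA : (0 : ℝ) ≤ denA) (h u w hu hw)
  have hr := r2_nonneg hus hws
  have hd : (0 : ℝ) < (denA : ℝ) * scaleA := by norm_num [denA, scaleA]
  simp only [fA, fA2, hu1, hw1, one_mul]
  have key : 0 ≤ mom 2 u + mom 2 w - (fI u * fG w + fG u * fI w)
      - 1 / 200 * (mom 2 u ^ 2 * mom 2 w + mom 2 u * mom 2 w ^ 2)
      - 1 / 60 * (2 / 3 * (mom 2 u ^ 2 * mom 2 w + mom 2 u * mom 2 w ^ 2) - mom 3 u * mom 3 w)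
      - avg24 polA u w :=
    nonneg_of_mul_nonneg_right (a := (denA : ℝ) * scaleA) (by linarith) hd
  linarith

open Glue in
/-- The second kernel inequality follows from nonnegativity of its certificate. -/
theorem kernelI_of_pos (h : ∀ u w : Fin 4 → ℝ, (∀ i, 0 ≤ u i) → (∀ i, 0 ≤ w i) →
    0 ≤ bil matI musI u w) : KernelI := by
  refine kernelI_of_pol fun u w hu hw hu1 hw1 => ?_
  have hus : u 0 + u 1 + u 2 + u 3 = 4 := by rw [pP_four] at hu1; linarith
  have hws : w 0 + w 1 + w 2 + w 3 = 4 := by rw [pP_four] at hw1; linarith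
  have e := bil_eq tblI_ok usedI_ok combI_ok hus hws
  have hav : avg24 (evP 13 diagI) u w = ((denI : ℝ) * scaleI / 24) * avg24 polI u w := by
    simp only [avg24, evP_diagI, ← Finset.mul_sum, mul_div_assoc]
  rw [evX_terms, hav, evX_crossI hus hws] at e
  have hb := mul_nonneg (Nat.cast_nonneg denI : (0 : ℝ) ≤ denI) (h u w hu hw)
  have hd : (0 : ℝ) < (denI : ℝ) * scaleI := by norm_num [denI, scaleI]
  have key : 0 ≤ avg24 polI u w - (fI u + fI w - (fI u * fJ w + fJ u * fI w)) :=
    nonneg_of_mul_nonneg_right (a := (denI : ℝ) * scaleI) (by linarith) hd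
  linarith

end Vale.Agent.P154.Q4
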