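import Vale.Agent.P154.Q4.Node
import Vale.Agent.P154.Q4.Bounds
import Vale.Agent.P154.Q4.Glue
import Vale.Agent.P154.Q4.Cover
import Vale.Agent.P154.Q4.CertLeaves

/-!
P154, four states: all four kernel statements hold.
-/

namespace Vale.Agent.P154.Q4

/-- The first kernel inequality. -/
theorem kernelA : KernelA :=
  kernelA_of_pos (bil_nonneg_of_cover (D := 7) (by decide) leafA coverA)

/-- The second kernel inequality. -/
theorem kernelI : KernelI :=
  kernelI_of_pos (bil_nonneg_of_cover (D := 13) (by decide) leafI coverI)

/-- All kernel statements. -/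
theorem kernels : Kernels := ⟨kernelA, kernelI, weightBounds, kernelMix⟩

end Vale.Agent.P154.Q4
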