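import Vale.Agent.P154.Q4.FastCheck

/-!
P154, four states: the test of a pair of cones in four parts, which keeps the memory of each
kernel run small.
-/

namespace Vale.Agent.P154.Q4

/-- The vectors of the second cone that belong to part `i`. -/
def selPart (i : ℕ) (l : List (List ℕ)) : List (List ℕ) :=
  match i with
  | 0 => l.take 140
  | 1 => (l.drop 140).take 140
  | 2 => (l.drop 280).take 140
  | _ => l.drop 420

lemma mem_selPart {l : List (List ℕ)} {q : List ℕ} (hq : q ∈ l) :
    q ∈ selPart 0 l ∨ q ∈ selPart 1 l ∨ q ∈ selPart 2 l ∨ q ∈ selPart 3 l := by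
  have key : ∀ s, q ∈ l.drop s → q ∈ (l.drop s).take 140 ∨ q ∈ l.drop (s + 140) := by
    intro s h
    rw [← List.take_append_drop 140 (l.drop s), List.mem_append, List.drop_drop] at h
    exact h
  rcases key 0 hq with h | h
  · exact Or.inl h
  rcases key 140 h with h | h
  · exact Or.inr (Or.inl h)
  rcases key 280 h with h | h
  · exact Or.inr (Or.inr (Or.inl h))
  · exact Or.inr (Or.inr (Or.inr h))

/-- Part `i` of the test of a pair of cones. -/
noncomputable def partR (B w n : ℕ) (M : List (List ℤ)) (mus : List Expo) (U W : Cell) (i : ℕ) :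
    Bool :=
  scanQR B (lenR mus) M (vecsR w n (vals mus U (ptN w n)))
    (selPart i (vecsR w n (vals mus W (ptN w n))))
    (List.replicate mus.length 0) (List.replicate mus.length 0) 0

lemma partR_sound {B w n : ℕ} {M : List (List ℤ)} {mus : List Expo} {U W : Cell} {i : ℕ}
    (h : partR B w n M mus U W i = true) :
    ∀ p ∈ vecs w n (vals mus U (ptN w n)), ∀ q ∈ selPart i (vecs w n (vals mus W (ptN w n))),
      0 ≤ dot (toZ p) (mulVec M (toZ q)) := by
  rw [partR, scanQR_eq, vecsR_eq, vecsR_eq, lenR_eq] at h
  have hs0 := scanQ_sound _ [] _ _ _ (fun _ hr => absurd hr List.not_mem_nil)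
    (by simp [toZ, packV]) (List.length_replicate ..) (fun _ hr => absurd hr List.not_mem_nil)
    rfl h
  exact fun p hp q hq => hs0 p hp q (by simpa using hq)

/-- The four parts together give the sign of all coefficients. -/
lemma pairPos_of_parts {B w n : ℕ} {M : List (List ℤ)} {mus : List Expo} {U W : Cell}
    (h0 : partR B w n M mus U W 0 = true) (h1 : partR B w n M mus U W 1 = true)
    (h2 : partR B w n M mus U W 2 = true) (h3 : partR B w n M mus U W 3 = true) :
    PairPos w n M mus U W := fun p hp q hq => by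
  rcases mem_selPart hq with h | h | h | h
  · exact partR_sound h0 p hp q h
  · exact partR_sound h1 p hp q h
  · exact partR_sound h2 p hp q h
  · exact partR_sound h3 p hp q h

/-- The form is nonnegative on a cone and all its partners. -/
def GroupPos (M : List (List ℤ)) (mus : List Expo) (g : Cell × List Cell) : Prop :=
  ∀ W ∈ g.2, ∀ σ τ : ℕ → ℝ, (∀ i, 0 ≤ σ i) → (∀ i, 0 ≤ τ i) →
    0 ≤ bil M mus (uval g.1 σ) (uval W τ)

lemma groupPos_of_parts {t w n : ℕ} {M : List (List ℤ)} {mus : List Expo} {U : Cell}
    {Ws : List Cell} (hU : cellOK t w n mus U = true)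
    (h : ∀ W ∈ Ws, cellOK t w n mus W = true ∧ PairPos w n M mus U W) :
    GroupPos M mus (U, Ws) := fun W hW σ τ hσ hτ =>
  bil_nonneg_of_pairPos hU (h W hW).1 (h W hW).2 hσ hτ

end Vale.Agent.P154.Q4
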