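import Vale.Agent.P154.Q4.WeightCert

/-!
P154, four states: the quartic part of the invariant is nonnegative.
-/

namespace Vale.Agent.P154.Q4

/-- Second elementary symmetric function of four numbers. -/
def se2 (a b c e : ℝ) : ℝ := a * b + a * c + a * e + b * c + b * e + c * e

/-- Quartic part of the invariant. -/
noncomputable def gP (a b c e : ℝ) : ℝ :=
  1 / 2 * m3 a b c e * ((a + b + c + e) / 4) - 1 / 5 * m2 a b c e ^ 2 - 1 / 10 * m4 a b c e
    + 1741 / 1000 * ((a + b + c + e) / 4) ^ 4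
    - 3 / 5 * se2 a b c e * ((a + b + c + e) / 4) ^ 2 + 3 / 50 * se2 a b c e ^ 2

lemma gP_cell {p q r s : ℝ} (hp : 0 ≤ p) (hq : 0 ≤ q) (hr : 0 ≤ r) (hs : 0 ≤ s) :
    0 ≤ gP (p)
      (p + 4 / 3 * q)
      (p + 4 / 3 * q + 2 * r)
      (p + 4 / 3 * q + 2 * r + 4 * s) := by
  simp only [gP, se2, m2, m3, m4]
  ring_nf
  positivity

theorem gP_nonneg {a b c e : ℝ} (ha : 0 ≤ a) (hb : 0 ≤ b) (hc : 0 ≤ c) (he : 0 ≤ e) :
    0 ≤ gP a b c e := by
  refine nonneg_of_sorted gP ?_ ?_ ?_ (fun a b c e ha hab hbc hce => ?_) ha hb hc he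
  iterate 3 (intro a b c e; simp only [gP, se2, m2, m3, m4]; ring)
  convert gP_cell ha (show (0 : ℝ) ≤ 3 / 4 * (b - a) by linarith)
    (show (0 : ℝ) ≤ (c - b) / 2 by linarith) (show (0 : ℝ) ≤ (e - c) / 4 by linarith) using 1
  ring_nf

end Vale.Agent.P154.Q4
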