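import Vale.Agent.P154.Q4.Node
import Vale.Agent.P154.Model

/-!
The broadcasting model as a sequence of channels; nonreconstruction below and at the
Kesten–Stigum value.
-/

namespace Vale.Agent.P154.Q4

open Filter Topology

variable {lam : ℝ} {ν : ℕ → ℝ}

lemma Chan.E_nonneg' (C : Chan) {F : (Fin 4 → ℝ) → ℝ} (h : ∀ y, 0 ≤ F (C.V y)) : 0 ≤ C.E F :=
  tsum_nonneg h

lemma sum_potts_eq_mixv (lam : ℝ) (L : Fin 4 → ℝ) (i : Fin 4) :
    ∑ j, potts 4 lam i j * L j = mixv lam L i := by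
  simp only [Fin.sum_univ_four, potts, mixv, pP]
  fin_cases i <;> simp <;> ring

/-- The channel made of the leaf spin. -/
noncomputable def baseChan : Chan where
  ι := Fin 4
  V y i := if y = i then 1 else 0
  nonneg y i := by split_ifs <;> norm_num
  total i := hasSum_ite_eq i 1
  sym π := ⟨π.symm, fun y i => by simp [Equiv.symm_apply_eq]⟩

lemma lik_facts (h0 : 0 ≤ lam) (h1 : lam ≤ 1) (hν : ∀ k, 0 ≤ ν k) (hν1 : HasSum ν 1) : ∀ n : ℕ,
    (∀ (y : Obs 4 n) i, 0 ≤ lik 4 lam ν n y i) ∧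
      (∀ i, HasSum (fun y : Obs 4 n => lik 4 lam ν n y i) 1) ∧
      ∀ π : Equiv.Perm (Fin 4), ∃ e : Obs 4 n ≃ Obs 4 n,
        ∀ y i, lik 4 lam ν n (e y) i = lik 4 lam ν n y (π i) := by
  intro n
  induction n with
  | zero => exact ⟨baseChan.nonneg, baseChan.total, baseChan.sym⟩
  | succ n ih =>
    let C : Chan := ⟨Obs 4 n, lik 4 lam ν n, ih.1, ih.2.1, ih.2.2⟩
    let N := (C.mix lam h0 h1).node ν hν hν1
    have e : ∀ (y : Obs 4 (n + 1)) i, lik 4 lam ν (n + 1) y i = N.V y i := by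
      rintro ⟨k, ys⟩ i
      simp only [lik, sum_potts_eq_mixv]
      rfl
    refine ⟨fun y i => by rw [e]; exact N.nonneg y i, fun i => ?_, fun π => ?_⟩
    · simp only [e]; exact N.total i
    · obtain ⟨f, hf⟩ := N.sym π
      exact ⟨f, fun y i => by rw [e, e]; exact hf y i⟩

/-- The channel of depth `n`. -/
noncomputable def treeChan (h0 : 0 ≤ lam) (h1 : lam ≤ 1) (hν : ∀ k, 0 ≤ ν k) (hν1 : HasSum ν 1)
    (n : ℕ) : Chan :=
  ⟨Obs 4 n, lik 4 lam ν n, (lik_facts h0 h1 hν hν1 n).1, (lik_facts h0 h1 hν hν1 n).2.1,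
    (lik_facts h0 h1 hν hν1 n).2.2⟩

/-- Summand of the advantage. -/
noncomputable def fD (L : Fin 4 → ℝ) : ℝ := (1 / 2) * ∑ i, |L i / 4 - (∑ j, L j / 4) / 4|

lemma fD_eq (L : Fin 4 → ℝ) : fD L = (∑ i, |L i - pP L|) / 8 := by
  have e : ∀ i, |L i / 4 - (∑ j, L j / 4) / 4| = |L i - pP L| / 4 := fun i => by
    rw [← abs_of_pos (by norm_num : (0:ℝ) < 4), ← abs_div, abs_of_pos (by norm_num : (0:ℝ) < 4)]
    congr 1
    simp only [Fin.sum_univ_four, pP]; ring
  simp only [fD, e]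
  rw [← Finset.sum_div]
  ring

lemma fD_nonneg (L : Fin 4 → ℝ) : 0 ≤ fD L := by unfold fD; positivity

lemma fD_le_pP {L : Fin 4 → ℝ} (h : ∀ i, 0 ≤ L i) : fD L ≤ 2 * pP L := by
  rw [fD_eq]
  have b : ∀ i, |L i - pP L| ≤ 4 * pP L := fun i => by
    have := le_four_pP h i; have := h i; have := pP_nonneg h
    rw [abs_le]; constructor <;> linarith
  rw [Fin.sum_univ_four]
  linarith [b 0, b 1, b 2, b 3]

lemma adm_fD : Adm fD := ⟨2, fun L h => by rw [abs_of_nonneg (fD_nonneg L)]; exact fD_le_pP h⟩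

lemma advantage_eq (h0 : 0 ≤ lam) (h1 : lam ≤ 1) (hν : ∀ k, 0 ≤ ν k) (hν1 : HasSum ν 1) (n : ℕ) :
    advantage 4 lam ν n = (treeChan h0 h1 hν hν1 n).E fD := by
  simp only [advantage, Chan.E, treeChan, fD, Nat.cast_ofNat]

lemma tree_succ (h0 : 0 ≤ lam) (h1 : lam ≤ 1) (hν : ∀ k, 0 ≤ ν k) (hν1 : HasSum ν 1) (n : ℕ)
    (F : (Fin 4 → ℝ) → ℝ) :
    (treeChan h0 h1 hν hν1 (n + 1)).E F =
      (((treeChan h0 h1 hν hν1 n).mix lam h0 h1).node ν hν hν1).E F := by
  simp only [Chan.E]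
  refine tsum_congr fun y => congrArg F (funext fun i => ?_)
  obtain ⟨k, ys⟩ := y
  simp only [treeChan, lik, sum_potts_eq_mixv]
  rfl

/-- `|L_i - P|` is controlled by the chi-square functional. -/
lemma fD_le (L : Fin 4 → ℝ) (hL : ∀ i, 0 ≤ L i) {e : ℝ} (he : 0 < e) :
    fD L ≤ e * pP L + fA L / e := by
  rcases (pP_nonneg hL).lt_or_eq with hp | hz
  · have hA : fA L / e = (∑ i, (L i - pP L) ^ 2 / (e * pP L)) / 4 := by
      rw [← Finset.sum_div, fA, mom]
      have e1 : ∀ i, (L i / pP L - 1) ^ 2 = (L i - pP L) ^ 2 / pP L ^ 2 := fun i => by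
        rw [← div_pow, sub_div, div_self hp.ne']
      simp only [e1, ← Finset.sum_div]
      field_simp
    have k : ∀ d : ℝ, |d| ≤ e * pP L + d ^ 2 / (e * pP L) := by
      intro d
      have hep : 0 < e * pP L := by positivity
      rw [← sub_le_iff_le_add', le_div_iff₀ hep]
      nlinarith [sq_nonneg (|d| - e * pP L), sq_abs d, abs_nonneg d]
    have := Finset.sum_le_sum (s := Finset.univ) fun i _ => k (L i - pP L)
    rw [Finset.sum_add_distrib, Finset.sum_const, Finset.card_univ, Fintype.card_fin,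
      nsmul_eq_mul] at this
    have hn : 0 ≤ fA L / e := div_nonneg (fA_nonneg hL) he.le
    have : 0 ≤ e * pP L := by positivity
    rw [fD_eq]
    push_cast at *
    linarith
  · have e0 : ∀ i, L i = 0 := fun i => by
      have := le_four_pP hL i; have := hL i; linarith
    simp [fD, fA, pP, e0]

lemma Chan.fD_tendsto_zero {C : ℕ → Chan} (h : Tendsto (fun n => (C n).E fA) atTop (𝓝 0)) :
    Tendsto (fun n => (C n).E fD) atTop (𝓝 0) := by
  rw [Metric.tendsto_atTop] at h ⊢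
  intro ε hε
  have he : 0 < ε / 2 := by positivity
  obtain ⟨N, hN⟩ := h (ε / 2 * (ε / 2)) (by positivity)
  refine ⟨N, fun n hn => ?_⟩
  have hB := hN n hn
  have nB := (C n).E_nonneg fun L hL => fA_nonneg hL
  have nA : 0 ≤ (C n).E fD := (C n).E_nonneg fun L _ => fD_nonneg L
  rw [Real.dist_eq, sub_zero, abs_of_nonneg nB] at hB
  rw [Real.dist_eq, sub_zero, abs_of_nonneg nA]
  have hle : (C n).E fD ≤ ε / 2 * 1 + (C n).E fA / (ε / 2) :=
    hasSum_le (fun y => fD_le _ ((C n).nonneg y) he) ((C n).summable adm_fD).hasSum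
      (((C n).hasSum_pP.mul_left (ε / 2)).add ((HasSum.div_const (((C n).summable adm_fA).hasSum) (ε / 2))))
  have : (C n).E fA / (ε / 2) < ε / 2 := by rw [div_lt_iff₀ he]; exact hB
  linarith

/-- A nonnegative sequence with `y' ≤ a y - c y³`, `a ≤ 1`, `c > 0`, tends to zero. -/
lemma tendsto_zero_of_cubic {y : ℕ → ℝ} {a c : ℝ} (hy : ∀ n, 0 ≤ y n) (ha : a ≤ 1) (hc : 0 < c)
    (h : ∀ n, y (n + 1) ≤ a * y n - c * y n ^ 3) : Tendsto y atTop (𝓝 0) := by
  have hd : ∀ n, y (n + 1) ≤ y n := fun n => by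
    nlinarith [h n, hy n, mul_nonneg hc.le (pow_nonneg (hy n) 3)]
  have anti : Antitone y := antitone_nat_of_succ_le hd
  have hbdd : BddBelow (Set.range y) := ⟨0, by rintro _ ⟨n, rfl⟩; exact hy n⟩
  have hl := tendsto_atTop_ciInf anti hbdd
  set l := ⨅ n, y n
  have h2 : Tendsto (fun n => a * y n - c * y n ^ 3) atTop (𝓝 (a * l - c * l ^ 3)) :=
    (hl.const_mul a).sub ((hl.pow 3).const_mul c)
  have h3 := le_of_tendsto_of_tendsto' (hl.comp (tendsto_add_atTop_nat 1)) h2 h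
  have l0 : 0 ≤ l := le_ciInf hy
  have : c * l ^ 3 ≤ 0 := by nlinarith [mul_le_mul_of_nonneg_right ha l0]
  have : l = 0 := by
    by_contra hne
    have : 0 < c * l ^ 3 := mul_pos hc (pow_pos (lt_of_le_of_ne l0 (Ne.symm hne)) 3)
    linarith
  rwa [this] at hl

/-- Nonreconstruction for `q = 4` whenever `m lam² ≤ 1`, given the kernel inequalities. -/
theorem nonrecon_of_le (hK : Kernels) (h0 : 0 ≤ lam) (h1 : lam ≤ 1) (hν : ∀ k, 0 ≤ ν k)
    (hν1 : HasSum ν 1) {m : ℝ} (hm : HasSum (fun k => ν k * k) m)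
    (hk : ∃ k₀, 2 ≤ k₀ ∧ 0 < ν k₀) (hle : m * lam ^ 2 ≤ 1) :
    Tendsto (advantage 4 lam ν) atTop (𝓝 0) := by
  obtain ⟨k₀, hk₀, hpos⟩ := hk
  set T := treeChan h0 h1 hν hν1
  have inv : ∀ n, 0 ≤ (T n).E fI := by
    intro n
    induction n with
    | zero =>
      refine tsum_nonneg fun y => ?_
      have : (T 0).V y = fun i => if (show Fin 4 from y) = i then 1 else 0 := rfl
      rw [this]
      generalize (show Fin 4 from y) = j
      simp only [fI, mom, pP, Fin.sum_univ_four]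
      fin_cases j <;> norm_num [Fin.ext_iff]
    | succ n ih =>
      rw [tree_succ]
      exact (Chan.node_bound hK _ (le_trans (mul_nonneg (pow_nonneg h0 3) ih)
        ((T n).E_mix hK.2.2.2 h0 h1).2) ν hν hν1 hm hk₀).1
  have rec' : ∀ n, (T (n + 1)).E fA ≤
      (m * lam ^ 2) * (T n).E fA - ν k₀ / 100 * lam ^ 6 * (T n).E fA ^ 3 := by
    intro n
    rw [tree_succ]
    have := (Chan.node_bound hK _ (le_trans (mul_nonneg (pow_nonneg h0 3) (inv n))
      ((T n).E_mix hK.2.2.2 h0 h1).2) ν hν hν1 hm hk₀).2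
    rw [((T n).E_mix hK.2.2.2 h0 h1).1] at this
    linarith
  have nonneg : ∀ n, 0 ≤ (T n).E fA := fun n => (T n).E_nonneg fun L hL => fA_nonneg hL
  have hB : Tendsto (fun n => (T n).E fA) atTop (𝓝 0) := by
    rcases h0.lt_or_eq with hl | hl
    · exact tendsto_zero_of_cubic nonneg hle (by positivity) rec'
    · refine tendsto_atTop_of_eventually_const (i₀ := 1) fun n hn => ?_
      obtain ⟨j, rfl⟩ : ∃ j, n = j + 1 := ⟨n - 1, by omega⟩
      have := rec' j
      rw [← hl] at this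
      have := nonneg (j + 1)
      simp at *
      linarith
  exact (Chan.fD_tendsto_zero hB).congr fun n => (advantage_eq h0 h1 hν hν1 n).symm

end Vale.Agent.P154.Q4
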