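import Mathlib

/-!
P154, four states: polynomial lower bounds for negative powers of one plus the centred mean.
-/

namespace Vale.Agent.P154.Q4

/-- Lower bound for the power `-1` of `1 + w`. -/
noncomputable def ser1 (w : ℝ) : ℝ :=
  1 - 1 * w ^ 1 + 1 * w ^ 2 - 1 * w ^ 3 + 957 / 1250 * w ^ 4 - 1333 / 5000 * w ^ 5

/-- Lower bound for the power `-3` of `1 + w`. -/
noncomputable def ser3 (w : ℝ) : ℝ :=
  1 - 3 * w ^ 1 + 6 * w ^ 2 - 10 * w ^ 3 + 30804341 / 2500000 * w ^ 4 - 99321401 / 10000000 * w ^ 5 + 49818673 / 10000000 * w ^ 6 - 5971 / 4000 * w ^ 7 + 2443111 / 10000000 * w ^ 8 - 167961 / 10000000 * w ^ 9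

/-- Lower bound for the power `-4` of `1 + w`. -/
noncomputable def ser4 (w : ℝ) : ℝ :=
  1 - 4 * w ^ 1 + 10 * w ^ 2 - 20 * w ^ 3 + 291212733 / 10000000 * w ^ 4 - 63168841 / 2500000 * w ^ 5 + 108818651 / 10000000 * w ^ 6 - 8861749 / 5000000 * w ^ 7

lemma ser1_mul_le {w : ℝ} (h0 : -1 ≤ w) : ser1 w * (1 + w) ≤ 1 := by
  have e : 1 - ser1 w * (1 + w)
      = w ^ 4 * (2344 / 10000 - 4990 / 10000 * w + 2666 / 10000 * w ^ 2) := by
    unfold ser1; ring
  have : (0 : ℝ) ≤ 2344 / 10000 - 4990 / 10000 * w + 2666 / 10000 * w ^ 2 := by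
    nlinarith [sq_nonneg (w - 4990 / 5332)]
  nlinarith [pow_nonneg (sq_nonneg w) 2]

/-- Quotient of the remainder of `ser3` by the fourth power. -/
noncomputable def rem3 (w u : ℝ) : ℝ :=
  6695659 / 2500000 * u ^ 8 - 30330691 / 10000000 * w ^ 1 * u ^ 7 - 10753281 / 5000000 * w ^ 2 * u ^ 6 + 502729 / 125000 * w ^ 3 * u ^ 5 - 7795229 / 10000000 * w ^ 4 * u ^ 4 - 2439509 / 2000000 * w ^ 5 * u ^ 3 + 162041 / 200000 * w ^ 6 * u ^ 2 - 484807 / 2500000 * w ^ 7 * u ^ 1 + 167961 / 10000000 * w ^ 8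

lemma rem3_cell0 {w : ℝ} (ha : (-1) ≤ w) (hb : w ≤ (1)) : 0 ≤ rem3 w 1 := by
  have key : ∀ p q : ℝ, 0 ≤ p → 0 ≤ q → 0 ≤ rem3 ((-1) * p + (1) * q) (p + q) := by
    intro p q hp hq
    unfold rem3
    ring_nf
    positivity
  convert key (((1) - w) / ((1) - (-1))) ((w - (-1)) / ((1) - (-1)))
    (div_nonneg (by linarith) (by norm_num)) (div_nonneg (by linarith) (by norm_num)) using 2 <;> ring

lemma rem3_cell1 {w : ℝ} (ha : (1) ≤ w) (hb : w ≤ (5 / 4)) : 0 ≤ rem3 w 1 := by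
  have key : ∀ p q : ℝ, 0 ≤ p → 0 ≤ q → 0 ≤ rem3 ((1) * p + (5 / 4) * q) (p + q) := by
    intro p q hp hq
    unfold rem3
    ring_nf
    positivity
  convert key (((5 / 4) - w) / ((5 / 4) - (1))) ((w - (1)) / ((5 / 4) - (1)))
    (div_nonneg (by linarith) (by norm_num)) (div_nonneg (by linarith) (by norm_num)) using 2 <;> ring

lemma rem3_cell2 {w : ℝ} (ha : (5 / 4) ≤ w) (hb : w ≤ (11 / 8)) : 0 ≤ rem3 w 1 := by
  have key : ∀ p q : ℝ, 0 ≤ p → 0 ≤ q → 0 ≤ rem3 ((5 / 4) * p + (11 / 8) * q) (p + q) := by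
    intro p q hp hq
    unfold rem3
    ring_nf
    positivity
  convert key (((11 / 8) - w) / ((11 / 8) - (5 / 4))) ((w - (5 / 4)) / ((11 / 8) - (5 / 4)))
    (div_nonneg (by linarith) (by norm_num)) (div_nonneg (by linarith) (by norm_num)) using 2 <;> ring

lemma rem3_cell3 {w : ℝ} (ha : (11 / 8) ≤ w) (hb : w ≤ (3 / 2)) : 0 ≤ rem3 w 1 := by
  have key : ∀ p q : ℝ, 0 ≤ p → 0 ≤ q → 0 ≤ rem3 ((11 / 8) * p + (3 / 2) * q) (p + q) := by
    intro p q hp hq
    unfold rem3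
    ring_nf
    positivity
  convert key (((3 / 2) - w) / ((3 / 2) - (11 / 8))) ((w - (11 / 8)) / ((3 / 2) - (11 / 8)))
    (div_nonneg (by linarith) (by norm_num)) (div_nonneg (by linarith) (by norm_num)) using 2 <;> ring

lemma rem3_cell4 {w : ℝ} (ha : (3 / 2) ≤ w) (hb : w ≤ (2)) : 0 ≤ rem3 w 1 := by
  have key : ∀ p q : ℝ, 0 ≤ p → 0 ≤ q → 0 ≤ rem3 ((3 / 2) * p + (2) * q) (p + q) := by
    intro p q hp hq
    unfold rem3
    ring_nf
    positivity
  convert key (((2) - w) / ((2) - (3 / 2))) ((w - (3 / 2)) / ((2) - (3 / 2)))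
    (div_nonneg (by linarith) (by norm_num)) (div_nonneg (by linarith) (by norm_num)) using 2 <;> ring

lemma rem3_cell5 {w : ℝ} (ha : (2) ≤ w) (hb : w ≤ (5 / 2)) : 0 ≤ rem3 w 1 := by
  have key : ∀ p q : ℝ, 0 ≤ p → 0 ≤ q → 0 ≤ rem3 ((2) * p + (5 / 2) * q) (p + q) := by
    intro p q hp hq
    unfold rem3
    ring_nf
    positivity
  convert key (((5 / 2) - w) / ((5 / 2) - (2))) ((w - (2)) / ((5 / 2) - (2)))
    (div_nonneg (by linarith) (by norm_num)) (div_nonneg (by linarith) (by norm_num)) using 2 <;> ring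

lemma rem3_cell6 {w : ℝ} (ha : (5 / 2) ≤ w) (hb : w ≤ (11 / 4)) : 0 ≤ rem3 w 1 := by
  have key : ∀ p q : ℝ, 0 ≤ p → 0 ≤ q → 0 ≤ rem3 ((5 / 2) * p + (11 / 4) * q) (p + q) := by
    intro p q hp hq
    unfold rem3
    ring_nf
    positivity
  convert key (((11 / 4) - w) / ((11 / 4) - (5 / 2))) ((w - (5 / 2)) / ((11 / 4) - (5 / 2)))
    (div_nonneg (by linarith) (by norm_num)) (div_nonneg (by linarith) (by norm_num)) using 2 <;> ring

lemma rem3_cell7 {w : ℝ} (ha : (11 / 4) ≤ w) (hb : w ≤ (23 / 8)) : 0 ≤ rem3 w 1 := by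
  have key : ∀ p q : ℝ, 0 ≤ p → 0 ≤ q → 0 ≤ rem3 ((11 / 4) * p + (23 / 8) * q) (p + q) := by
    intro p q hp hq
    unfold rem3
    ring_nf
    positivity
  convert key (((23 / 8) - w) / ((23 / 8) - (11 / 4))) ((w - (11 / 4)) / ((23 / 8) - (11 / 4)))
    (div_nonneg (by linarith) (by norm_num)) (div_nonneg (by linarith) (by norm_num)) using 2 <;> ring

lemma rem3_cell8 {w : ℝ} (ha : (23 / 8) ≤ w) (hb : w ≤ (47 / 16)) : 0 ≤ rem3 w 1 := by
  have key : ∀ p q : ℝ, 0 ≤ p → 0 ≤ q → 0 ≤ rem3 ((23 / 8) * p + (47 / 16) * q) (p + q) := by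
    intro p q hp hq
    unfold rem3
    ring_nf
    positivity
  convert key (((47 / 16) - w) / ((47 / 16) - (23 / 8))) ((w - (23 / 8)) / ((47 / 16) - (23 / 8)))
    (div_nonneg (by linarith) (by norm_num)) (div_nonneg (by linarith) (by norm_num)) using 2 <;> ring

lemma rem3_cell9 {w : ℝ} (ha : (47 / 16) ≤ w) (hb : w ≤ (95 / 32)) : 0 ≤ rem3 w 1 := by
  have key : ∀ p q : ℝ, 0 ≤ p → 0 ≤ q → 0 ≤ rem3 ((47 / 16) * p + (95 / 32) * q) (p + q) := by
    intro p q hp hq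
    unfold rem3
    ring_nf
    positivity
  convert key (((95 / 32) - w) / ((95 / 32) - (47 / 16))) ((w - (47 / 16)) / ((95 / 32) - (47 / 16)))
    (div_nonneg (by linarith) (by norm_num)) (div_nonneg (by linarith) (by norm_num)) using 2 <;> ring

lemma rem3_cell10 {w : ℝ} (ha : (95 / 32) ≤ w) (hb : w ≤ (3)) : 0 ≤ rem3 w 1 := by
  have key : ∀ p q : ℝ, 0 ≤ p → 0 ≤ q → 0 ≤ rem3 ((95 / 32) * p + (3) * q) (p + q) := by
    intro p q hp hq
    unfold rem3
    ring_nf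
    positivity
  convert key (((3) - w) / ((3) - (95 / 32))) ((w - (95 / 32)) / ((3) - (95 / 32)))
    (div_nonneg (by linarith) (by norm_num)) (div_nonneg (by linarith) (by norm_num)) using 2 <;> ring

lemma ser3_mul_le {w : ℝ} (h0 : -1 ≤ w) (h1 : w ≤ 3) : ser3 w * (1 + w) ^ 3 ≤ 1 := by
  have e : 1 - ser3 w * (1 + w) ^ 3 = w ^ 4 * rem3 w 1 := by
    unfold ser3 rem3; ring
  have h : 0 ≤ rem3 w 1 := by
    rcases le_total w (1) with c0 | c0
    · exact rem3_cell0 h0 c0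
    rcases le_total w (5 / 4) with c1 | c1
    · exact rem3_cell1 c0 c1
    rcases le_total w (11 / 8) with c2 | c2
    · exact rem3_cell2 c1 c2
    rcases le_total w (3 / 2) with c3 | c3
    · exact rem3_cell3 c2 c3
    rcases le_total w (2) with c4 | c4
    · exact rem3_cell4 c3 c4
    rcases le_total w (5 / 2) with c5 | c5
    · exact rem3_cell5 c4 c5
    rcases le_total w (11 / 4) with c6 | c6
    · exact rem3_cell6 c5 c6
    rcases le_total w (23 / 8) with c7 | c7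
    · exact rem3_cell7 c6 c7
    rcases le_total w (47 / 16) with c8 | c8
    · exact rem3_cell8 c7 c8
    rcases le_total w (95 / 32) with c9 | c9
    · exact rem3_cell9 c8 c9
    exact rem3_cell10 c9 h1
  nlinarith [mul_nonneg (pow_nonneg (sq_nonneg w) 2) h]

/-- Quotient of the remainder of `ser4` by the fourth power. -/
noncomputable def rem4 (w u : ℝ) : ℝ :=
  58787267 / 10000000 * u ^ 7 - 4510973 / 625000 * w ^ 1 * u ^ 6 - 145393593 / 10000000 * w ^ 2 * u ^ 5 + 66825073 / 5000000 * w ^ 3 * u ^ 4 + 137470809 / 10000000 * w ^ 4 * u ^ 3 - 19064563 / 2500000 * w ^ 5 * u ^ 2 - 37924659 / 10000000 * w ^ 6 * u ^ 1 + 8861749 / 5000000 * w ^ 7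

lemma rem4_cell0 {w : ℝ} (ha : (-1) ≤ w) (hb : w ≤ (0)) : 0 ≤ rem4 w 1 := by
  have key : ∀ p q : ℝ, 0 ≤ p → 0 ≤ q → 0 ≤ rem4 ((-1) * p + (0) * q) (p + q) := by
    intro p q hp hq
    unfold rem4
    ring_nf
    positivity
  convert key (((0) - w) / ((0) - (-1))) ((w - (-1)) / ((0) - (-1)))
    (div_nonneg (by linarith) (by norm_num)) (div_nonneg (by linarith) (by norm_num)) using 2 <;> ring

lemma rem4_cell1 {w : ℝ} (ha : (0) ≤ w) (hb : w ≤ (1 / 2)) : 0 ≤ rem4 w 1 := by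
  have key : ∀ p q : ℝ, 0 ≤ p → 0 ≤ q → 0 ≤ rem4 ((0) * p + (1 / 2) * q) (p + q) := by
    intro p q hp hq
    unfold rem4
    ring_nf
    positivity
  convert key (((1 / 2) - w) / ((1 / 2) - (0))) ((w - (0)) / ((1 / 2) - (0)))
    (div_nonneg (by linarith) (by norm_num)) (div_nonneg (by linarith) (by norm_num)) using 2 <;> ring

lemma rem4_cell2 {w : ℝ} (ha : (1 / 2) ≤ w) (hb : w ≤ (5 / 8)) : 0 ≤ rem4 w 1 := by
  have key : ∀ p q : ℝ, 0 ≤ p → 0 ≤ q → 0 ≤ rem4 ((1 / 2) * p + (5 / 8) * q) (p + q) := by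
    intro p q hp hq
    unfold rem4
    ring_nf
    positivity
  convert key (((5 / 8) - w) / ((5 / 8) - (1 / 2))) ((w - (1 / 2)) / ((5 / 8) - (1 / 2)))
    (div_nonneg (by linarith) (by norm_num)) (div_nonneg (by linarith) (by norm_num)) using 2 <;> ring

lemma rem4_cell3 {w : ℝ} (ha : (5 / 8) ≤ w) (hb : w ≤ (11 / 16)) : 0 ≤ rem4 w 1 := by
  have key : ∀ p q : ℝ, 0 ≤ p → 0 ≤ q → 0 ≤ rem4 ((5 / 8) * p + (11 / 16) * q) (p + q) := by
    intro p q hp hq
    unfold rem4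
    ring_nf
    positivity
  convert key (((11 / 16) - w) / ((11 / 16) - (5 / 8))) ((w - (5 / 8)) / ((11 / 16) - (5 / 8)))
    (div_nonneg (by linarith) (by norm_num)) (div_nonneg (by linarith) (by norm_num)) using 2 <;> ring

lemma rem4_cell4 {w : ℝ} (ha : (11 / 16) ≤ w) (hb : w ≤ (23 / 32)) : 0 ≤ rem4 w 1 := by
  have key : ∀ p q : ℝ, 0 ≤ p → 0 ≤ q → 0 ≤ rem4 ((11 / 16) * p + (23 / 32) * q) (p + q) := by
    intro p q hp hq
    unfold rem4
    ring_nf
    positivity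
  convert key (((23 / 32) - w) / ((23 / 32) - (11 / 16))) ((w - (11 / 16)) / ((23 / 32) - (11 / 16)))
    (div_nonneg (by linarith) (by norm_num)) (div_nonneg (by linarith) (by norm_num)) using 2 <;> ring

lemma rem4_cell5 {w : ℝ} (ha : (23 / 32) ≤ w) (hb : w ≤ (3 / 4)) : 0 ≤ rem4 w 1 := by
  have key : ∀ p q : ℝ, 0 ≤ p → 0 ≤ q → 0 ≤ rem4 ((23 / 32) * p + (3 / 4) * q) (p + q) := by
    intro p q hp hq
    unfold rem4
    ring_nf
    positivity
  convert key (((3 / 4) - w) / ((3 / 4) - (23 / 32))) ((w - (23 / 32)) / ((3 / 4) - (23 / 32)))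
    (div_nonneg (by linarith) (by norm_num)) (div_nonneg (by linarith) (by norm_num)) using 2 <;> ring

lemma rem4_cell6 {w : ℝ} (ha : (3 / 4) ≤ w) (hb : w ≤ (1)) : 0 ≤ rem4 w 1 := by
  have key : ∀ p q : ℝ, 0 ≤ p → 0 ≤ q → 0 ≤ rem4 ((3 / 4) * p + (1) * q) (p + q) := by
    intro p q hp hq
    unfold rem4
    ring_nf
    positivity
  convert key (((1) - w) / ((1) - (3 / 4))) ((w - (3 / 4)) / ((1) - (3 / 4)))
    (div_nonneg (by linarith) (by norm_num)) (div_nonneg (by linarith) (by norm_num)) using 2 <;> ring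

lemma rem4_cell7 {w : ℝ} (ha : (1) ≤ w) (hb : w ≤ (2)) : 0 ≤ rem4 w 1 := by
  have key : ∀ p q : ℝ, 0 ≤ p → 0 ≤ q → 0 ≤ rem4 ((1) * p + (2) * q) (p + q) := by
    intro p q hp hq
    unfold rem4
    ring_nf
    positivity
  convert key (((2) - w) / ((2) - (1))) ((w - (1)) / ((2) - (1)))
    (div_nonneg (by linarith) (by norm_num)) (div_nonneg (by linarith) (by norm_num)) using 2 <;> ring

lemma rem4_cell8 {w : ℝ} (ha : (2) ≤ w) (hb : w ≤ (65 / 32)) : 0 ≤ rem4 w 1 := by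
  have key : ∀ p q : ℝ, 0 ≤ p → 0 ≤ q → 0 ≤ rem4 ((2) * p + (65 / 32) * q) (p + q) := by
    intro p q hp hq
    unfold rem4
    ring_nf
    positivity
  convert key (((65 / 32) - w) / ((65 / 32) - (2))) ((w - (2)) / ((65 / 32) - (2)))
    (div_nonneg (by linarith) (by norm_num)) (div_nonneg (by linarith) (by norm_num)) using 2 <;> ring

lemma rem4_cell9 {w : ℝ} (ha : (65 / 32) ≤ w) (hb : w ≤ (131 / 64)) : 0 ≤ rem4 w 1 := by
  have key : ∀ p q : ℝ, 0 ≤ p → 0 ≤ q → 0 ≤ rem4 ((65 / 32) * p + (131 / 64) * q) (p + q) := by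
    intro p q hp hq
    unfold rem4
    ring_nf
    positivity
  convert key (((131 / 64) - w) / ((131 / 64) - (65 / 32))) ((w - (65 / 32)) / ((131 / 64) - (65 / 32)))
    (div_nonneg (by linarith) (by norm_num)) (div_nonneg (by linarith) (by norm_num)) using 2 <;> ring

lemma rem4_cell10 {w : ℝ} (ha : (131 / 64) ≤ w) (hb : w ≤ (33 / 16)) : 0 ≤ rem4 w 1 := by
  have key : ∀ p q : ℝ, 0 ≤ p → 0 ≤ q → 0 ≤ rem4 ((131 / 64) * p + (33 / 16) * q) (p + q) := by
    intro p q hp hq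
    unfold rem4
    ring_nf
    positivity
  convert key (((33 / 16) - w) / ((33 / 16) - (131 / 64))) ((w - (131 / 64)) / ((33 / 16) - (131 / 64)))
    (div_nonneg (by linarith) (by norm_num)) (div_nonneg (by linarith) (by norm_num)) using 2 <;> ring

lemma rem4_cell11 {w : ℝ} (ha : (33 / 16) ≤ w) (hb : w ≤ (17 / 8)) : 0 ≤ rem4 w 1 := by
  have key : ∀ p q : ℝ, 0 ≤ p → 0 ≤ q → 0 ≤ rem4 ((33 / 16) * p + (17 / 8) * q) (p + q) := by
    intro p q hp hq
    unfold rem4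
    ring_nf
    positivity
  convert key (((17 / 8) - w) / ((17 / 8) - (33 / 16))) ((w - (33 / 16)) / ((17 / 8) - (33 / 16)))
    (div_nonneg (by linarith) (by norm_num)) (div_nonneg (by linarith) (by norm_num)) using 2 <;> ring

lemma rem4_cell12 {w : ℝ} (ha : (17 / 8) ≤ w) (hb : w ≤ (9 / 4)) : 0 ≤ rem4 w 1 := by
  have key : ∀ p q : ℝ, 0 ≤ p → 0 ≤ q → 0 ≤ rem4 ((17 / 8) * p + (9 / 4) * q) (p + q) := by
    intro p q hp hq
    unfold rem4
    ring_nf
    positivity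
  convert key (((9 / 4) - w) / ((9 / 4) - (17 / 8))) ((w - (17 / 8)) / ((9 / 4) - (17 / 8)))
    (div_nonneg (by linarith) (by norm_num)) (div_nonneg (by linarith) (by norm_num)) using 2 <;> ring

lemma rem4_cell13 {w : ℝ} (ha : (9 / 4) ≤ w) (hb : w ≤ (5 / 2)) : 0 ≤ rem4 w 1 := by
  have key : ∀ p q : ℝ, 0 ≤ p → 0 ≤ q → 0 ≤ rem4 ((9 / 4) * p + (5 / 2) * q) (p + q) := by
    intro p q hp hq
    unfold rem4
    ring_nf
    positivity
  convert key (((5 / 2) - w) / ((5 / 2) - (9 / 4))) ((w - (9 / 4)) / ((5 / 2) - (9 / 4)))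
    (div_nonneg (by linarith) (by norm_num)) (div_nonneg (by linarith) (by norm_num)) using 2 <;> ring

lemma rem4_cell14 {w : ℝ} (ha : (5 / 2) ≤ w) (hb : w ≤ (3)) : 0 ≤ rem4 w 1 := by
  have key : ∀ p q : ℝ, 0 ≤ p → 0 ≤ q → 0 ≤ rem4 ((5 / 2) * p + (3) * q) (p + q) := by
    intro p q hp hq
    unfold rem4
    ring_nf
    positivity
  convert key (((3) - w) / ((3) - (5 / 2))) ((w - (5 / 2)) / ((3) - (5 / 2)))
    (div_nonneg (by linarith) (by norm_num)) (div_nonneg (by linarith) (by norm_num)) using 2 <;> ring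

lemma ser4_mul_le {w : ℝ} (h0 : -1 ≤ w) (h1 : w ≤ 3) : ser4 w * (1 + w) ^ 4 ≤ 1 := by
  have e : 1 - ser4 w * (1 + w) ^ 4 = w ^ 4 * rem4 w 1 := by
    unfold ser4 rem4; ring
  have h : 0 ≤ rem4 w 1 := by
    rcases le_total w (0) with c0 | c0
    · exact rem4_cell0 h0 c0
    rcases le_total w (1 / 2) with c1 | c1
    · exact rem4_cell1 c0 c1
    rcases le_total w (5 / 8) with c2 | c2
    · exact rem4_cell2 c1 c2
    rcases le_total w (11 / 16) with c3 | c3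
    · exact rem4_cell3 c2 c3
    rcases le_total w (23 / 32) with c4 | c4
    · exact rem4_cell4 c3 c4
    rcases le_total w (3 / 4) with c5 | c5
    · exact rem4_cell5 c4 c5
    rcases le_total w (1) with c6 | c6
    · exact rem4_cell6 c5 c6
    rcases le_total w (2) with c7 | c7
    · exact rem4_cell7 c6 c7
    rcases le_total w (65 / 32) with c8 | c8
    · exact rem4_cell8 c7 c8
    rcases le_total w (131 / 64) with c9 | c9
    · exact rem4_cell9 c8 c9
    rcases le_total w (33 / 16) with c10 | c10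
    · exact rem4_cell10 c9 c10
    rcases le_total w (17 / 8) with c11 | c11
    · exact rem4_cell11 c10 c11
    rcases le_total w (9 / 4) with c12 | c12
    · exact rem4_cell12 c11 c12
    rcases le_total w (5 / 2) with c13 | c13
    · exact rem4_cell13 c12 c13
    exact rem4_cell14 c13 h1
  nlinarith [mul_nonneg (pow_nonneg (sq_nonneg w) 2) h]

end Vale.Agent.P154.Q4
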