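import Vale.Agent.P154.Q4.Funcs
import Vale.Agent.P154.Q4.Series
import Vale.Agent.P154.Q4.QuarticCert

/-!
P154, four states: reduction of the two kernel inequalities to polynomial inequalities for
normalised likelihood vectors, and averaging of symmetrised monomials over rearrangements.
-/

namespace Vale.Agent.P154.Q4

open scoped BigOperators

/-- Second elementary symmetric function. -/
def ee2 (v : Fin 4 → ℝ) : ℝ := se2 (v 0) (v 1) (v 2) (v 3)

/-- Third elementary symmetric function. -/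
def ee3 (v : Fin 4 → ℝ) : ℝ := v 0 * v 1 * v 2 + v 0 * v 1 * v 3 + v 0 * v 2 * v 3 + v 1 * v 2 * v 3

/-- Quintic part of the invariant. -/
noncomputable def quint (v : Fin 4 → ℝ) : ℝ := 3 / 100 * (6 * pP v ^ 2 - ee2 v) * ee3 v

/-- Polynomial upper bound for the chi-square functional. -/
noncomputable def polA (v : Fin 4 → ℝ) : ℝ := 3 * pP v - ee2 v / 2 * ser1 (pP v - 1)

/-- Polynomial lower bound for the invariant. -/
noncomputable def polI (v : Fin 4 → ℝ) : ℝ :=
  -301 / 1000 * pP v + gP (v 0) (v 1) (v 2) (v 3) * ser3 (pP v - 1)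
    + quint v * ser4 (pP v - 1)

lemma pP_four (v : Fin 4 → ℝ) : pP v = (v 0 + v 1 + v 2 + v 3) / 4 := by
  rw [pP, Fin.sum_univ_four]

lemma eq_zero_of_pP {v : Fin 4 → ℝ} (hv : ∀ i, 0 ≤ v i) (h : pP v = 0) (i : Fin 4) : v i = 0 := by
  rw [pP, div_eq_zero_iff] at h
  rcases h with h | h
  · exact (Finset.sum_eq_zero_iff_of_nonneg fun j _ => hv j).1 h i (Finset.mem_univ i)
  · norm_num at h

lemma mom_two_eq {v : Fin 4 → ℝ} (h : pP v ≠ 0) (k : ℕ) :
    mom k v = ((v 0 - pP v) ^ k + (v 1 - pP v) ^ k + (v 2 - pP v) ^ k + (v 3 - pP v) ^ k) / 4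
      / pP v ^ k := by
  have e : ∀ i, (v i / pP v - 1) ^ k = (v i - pP v) ^ k / pP v ^ k := fun i => by
    rw [← div_pow, sub_div, div_self h]
  rw [mom, Finset.sum_congr rfl fun i _ => e i, ← Finset.sum_div, div_right_comm,
    Fin.sum_univ_four]

lemma fA_le_polA {v : Fin 4 → ℝ} (hv : ∀ i, 0 ≤ v i) : fA v ≤ polA v := by
  have hp0 : 0 ≤ pP v := div_nonneg (Finset.sum_nonneg fun i _ => hv i) (by norm_num)
  have he : 0 ≤ ee2 v := by
    unfold ee2 se2
    have := hv 0; have := hv 1; have := hv 2; have := hv 3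
    positivity
  rcases hp0.eq_or_lt with hp | hp
  · have hz := eq_zero_of_pP hv hp.symm
    simp [fA, polA, ee2, se2, ← hp, hz]
  have e : fA v = 3 * pP v - ee2 v / 2 * (pP v)⁻¹ := by
    rw [fA, mom_two_eq hp.ne', pP_four]
    have hs : (v 0 + v 1 + v 2 + v 3) ≠ 0 := by
      rw [pP_four] at hp; intro h; rw [h] at hp; norm_num at hp
    unfold ee2 se2
    field_simp
    ring
  have h : ser1 (pP v - 1) ≤ (pP v)⁻¹ := by
    have := ser1_mul_le (w := pP v - 1) (by linarith)
    rw [add_sub_cancel] at this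
    rwa [← one_div, le_div_iff₀ hp]
  rw [e, polA]
  linarith [mul_le_mul_of_nonneg_left h (div_nonneg he (show (0 : ℝ) ≤ 2 by norm_num))]

lemma polI_le_fI {v : Fin 4 → ℝ} (hv : ∀ i, 0 ≤ v i) (h4 : pP v ≤ 4) : polI v ≤ fI v := by
  have hp0 : 0 ≤ pP v := div_nonneg (Finset.sum_nonneg fun i _ => hv i) (by norm_num)
  rcases hp0.eq_or_lt with hp | hp
  · have hz := eq_zero_of_pP hv hp.symm
    simp [fI, polI, quint, ee2, ee3, gP, se2, m2, m3, m4, ← hp, hz]
  have hP4 := gP_nonneg (hv 0) (hv 1) (hv 2) (hv 3)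
  have hN : 0 ≤ quint v := by
    have h6 : ee2 v ≤ 6 * pP v ^ 2 := by
      rw [pP_four]; unfold ee2 se2
      nlinarith [sq_nonneg (v 0 - v 1), sq_nonneg (v 0 - v 2), sq_nonneg (v 0 - v 3),
        sq_nonneg (v 1 - v 2), sq_nonneg (v 1 - v 3), sq_nonneg (v 2 - v 3)]
    have h3 : 0 ≤ ee3 v := by
      unfold ee3
      have := hv 0; have := hv 1; have := hv 2; have := hv 3
      positivity
    unfold quint
    exact mul_nonneg (mul_nonneg (by norm_num) (sub_nonneg.2 h6)) h3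
  have e : fI v = -301 / 1000 * pP v + gP (v 0) (v 1) (v 2) (v 3) * (pP v ^ 3)⁻¹
      + quint v * (pP v ^ 4)⁻¹ := by
    rw [fI, mom_two_eq hp.ne', mom_two_eq hp.ne', mom_two_eq hp.ne']
    have hs : (v 0 + v 1 + v 2 + v 3) ≠ 0 := by
      rw [pP_four] at hp; intro h; rw [h] at hp; norm_num at hp
    simp only [quint, gP, ee2, ee3, se2, m2, m3, m4, pP_four]
    field_simp
    ring
  have b3 : ser3 (pP v - 1) ≤ (pP v ^ 3)⁻¹ := by
    have := ser3_mul_le (w := pP v - 1) (by linarith) (by linarith)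
    rw [add_sub_cancel] at this
    rwa [← one_div, le_div_iff₀ (by positivity)]
  have b4 : ser4 (pP v - 1) ≤ (pP v ^ 4)⁻¹ := by
    have := ser4_mul_le (w := pP v - 1) (by linarith) (by linarith)
    rw [add_sub_cancel] at this
    rwa [← one_div, le_div_iff₀ (by positivity)]
  rw [e, polI]
  linarith [mul_le_mul_of_nonneg_left b3 hP4, mul_le_mul_of_nonneg_left b4 hN]

/-! ### Scaling and normalisation -/

lemma pP_scal (c : ℝ) (v : Fin 4 → ℝ) : pP (fun i => c * v i) = c * pP v := by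
  simp only [pP_four]; ring

lemma mom_scal {c : ℝ} (hc : c ≠ 0) (v : Fin 4 → ℝ) (k : ℕ) :
    mom k (fun i => c * v i) = mom k v := by
  simp only [mom, pP_scal, mul_div_mul_left _ _ hc]

lemma fA_scal (c : ℝ) (v : Fin 4 → ℝ) : fA (fun i => c * v i) = c * fA v := by
  rcases eq_or_ne c 0 with rfl | hc
  · simp [fA, pP_four]
  · simp only [fA, pP_scal, mom_scal hc]; ring

lemma fA2_scal (c : ℝ) (v : Fin 4 → ℝ) : fA2 (fun i => c * v i) = c * fA2 v := by
  rcases eq_or_ne c 0 with rfl | hc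
  · simp [fA2, pP_four]
  · simp only [fA2, pP_scal, mom_scal hc]; ring

lemma fI_scal (c : ℝ) (v : Fin 4 → ℝ) : fI (fun i => c * v i) = c * fI v := by
  rcases eq_or_ne c 0 with rfl | hc
  · simp [fI, pP_four]
  · simp only [fI, pP_scal, mom_scal hc]; ring

lemma fG_scal (c : ℝ) (v : Fin 4 → ℝ) : fG (fun i => c * v i) = c * fG v := by
  rcases eq_or_ne c 0 with rfl | hc
  · simp [fG, pP_four]
  · simp only [fG, pP_scal, mom_scal hc]; ring

lemma fJ_scal (c : ℝ) (v : Fin 4 → ℝ) : fJ (fun i => c * v i) = c * fJ v := by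
  rcases eq_or_ne c 0 with rfl | hc
  · simp [fJ, pP_four]
  · simp only [fJ, pP_scal, mom_scal hc]; ring

lemma avg24_smul {F : (Fin 4 → ℝ) → ℝ} (hF : ∀ c v, F (fun i => c * v i) = c * F v) (a b : ℝ)
    (L M : Fin 4 → ℝ) :
    avg24 F (fun i => a * L i) (fun i => b * M i) = a * b * avg24 F L M := by
  simp only [avg24, ← mul_div_assoc, Finset.mul_sum]
  congr 1
  refine Finset.sum_congr rfl fun π _ => ?_
  rw [← hF]
  congr 1
  funext i
  ring

/-- A vector is its total mass times a normalised vector. -/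
lemma exists_normalised (L : Fin 4 → ℝ) (hL : ∀ i, 0 ≤ L i) :
    ∃ (a : ℝ) (u : Fin 4 → ℝ), 0 ≤ a ∧ (∀ i, 0 ≤ u i) ∧ pP u = 1 ∧ L = fun i => a * u i := by
  have hp0 : 0 ≤ pP L := div_nonneg (Finset.sum_nonneg fun i _ => hL i) (by norm_num)
  rcases hp0.eq_or_lt with hp | hp
  · refine ⟨0, fun _ => 1, le_rfl, fun _ => zero_le_one, by simp [pP], ?_⟩
    funext i
    rw [eq_zero_of_pP hL hp.symm i, zero_mul]
  · refine ⟨pP L, fun i => L i / pP L, hp.le, fun i => div_nonneg (hL i) hp.le, ?_, ?_⟩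
    · rw [show (fun i => L i / pP L) = fun i => (pP L)⁻¹ * L i from
        funext fun i => div_eq_inv_mul _ _, pP_scal, inv_mul_cancel₀ hp.ne']
    · funext i
      field_simp

lemma pP_rearr_le {u w : Fin 4 → ℝ} (hu : ∀ i, 0 ≤ u i) (hw : ∀ i, 0 ≤ w i) (h1 : pP u = 1)
    (h2 : pP w = 1) (π : Equiv.Perm (Fin 4)) : pP (fun i => u i * w (π i)) ≤ 4 := by
  have hw4 : ∀ i, w i ≤ 4 := fun i => by
    have h := Finset.single_le_sum (fun j _ => hw j) (Finset.mem_univ i)
    rw [pP, div_eq_one_iff_eq (by norm_num)] at h2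
    linarith
  rw [pP_four] at h1 ⊢
  have h := fun i => mul_le_mul_of_nonneg_left (hw4 (π i)) (hu i)
  linarith [h 0, h 1, h 2, h 3]

/-- The first kernel inequality follows from its polynomial form on normalised vectors. -/
theorem kernelA_of_pol
    (h : ∀ u w : Fin 4 → ℝ, (∀ i, 0 ≤ u i) → (∀ i, 0 ≤ w i) → pP u = 1 → pP w = 1 →
      avg24 polA u w ≤ fA u + fA w - (fI u * fG w + fG u * fI w)
        - 1 / 200 * (fA2 u * fA w + fA u * fA2 w)) : KernelA := by
  intro L M hL hM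
  obtain ⟨a, u, ha, hu, hu1, rfl⟩ := exists_normalised L hL
  obtain ⟨b, w, hb, hw, hw1, rfl⟩ := exists_normalised M hM
  rw [avg24_smul fA_scal, pP_scal, pP_scal, hu1, hw1, fA_scal, fA_scal, fI_scal, fI_scal,
    fG_scal, fG_scal, fA2_scal, fA2_scal]
  have h1 : avg24 fA u w ≤ avg24 polA u w := by
    refine div_le_div_of_nonneg_right (Finset.sum_le_sum fun π _ => ?_) (by norm_num)
    exact fA_le_polA fun i => mul_nonneg (hu i) (hw (π i))
  have := mul_le_mul_of_nonneg_left (h1.trans (h u w hu hw hu1 hw1)) (mul_nonneg ha hb)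
  linarith

/-- The second kernel inequality follows from its polynomial form on normalised vectors. -/
theorem kernelI_of_pol
    (h : ∀ u w : Fin 4 → ℝ, (∀ i, 0 ≤ u i) → (∀ i, 0 ≤ w i) → pP u = 1 → pP w = 1 →
      fI u + fI w - (fI u * fJ w + fJ u * fI w) ≤ avg24 polI u w) : KernelI := by
  intro L M hL hM
  obtain ⟨a, u, ha, hu, hu1, rfl⟩ := exists_normalised L hL
  obtain ⟨b, w, hb, hw, hw1, rfl⟩ := exists_normalised M hM
  rw [avg24_smul fI_scal, pP_scal, pP_scal, hu1, hw1, fI_scal, fI_scal, fJ_scal, fJ_scal]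
  have h1 : avg24 polI u w ≤ avg24 fI u w := by
    refine div_le_div_of_nonneg_right (Finset.sum_le_sum fun π _ => ?_) (by norm_num)
    exact polI_le_fI (fun i => mul_nonneg (hu i) (hw (π i))) (pP_rearr_le hu hw hu1 hw1 π)
  have := mul_le_mul_of_nonneg_left ((h u w hu hw hu1 hw1).trans h1) (mul_nonneg ha hb)
  linarith

/-! ### Symmetrised monomials -/

/-- Symmetrised monomial with exponent vector `a`. -/
def sym (a : Fin 4 → ℕ) (v : Fin 4 → ℝ) : ℝ :=
  ∑ σ : Equiv.Perm (Fin 4), ∏ i, v (σ i) ^ a i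

/-- The average of a symmetrised monomial over the rearrangements is a product. -/
theorem avg24_sym (a : Fin 4 → ℕ) (u w : Fin 4 → ℝ) :
    avg24 (sym a) u w = sym a u * sym a w / 24 := by
  simp only [avg24, sym, mul_pow, Finset.prod_mul_distrib]
  rw [Finset.sum_comm, Finset.sum_mul]
  congr 1
  refine Finset.sum_congr rfl fun σ _ => ?_
  rw [Finset.mul_sum]
  exact Fintype.sum_equiv (Equiv.mulRight σ) _ _ fun π => rfl

end Vale.Agent.P154.Q4
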