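import Vale.Agent.P154.Q4.FastCheck

/-!
P154, four states: kernel runs of the test.
-/

namespace Vale.Agent.P154.Q4

theorem okA0u : cellOK 44 55 8 musA groupA0.1 = true := by
  decide +kernel

theorem okA0w : allR (fun W => linkTest 99 44 55 8 matA musA groupA0.1 W) groupA0.2 = true := by
  decide +kernel

theorem okA0 : groupTest 99 44 55 8 matA musA groupA0 = true :=
  groupTest_of_links okA0u fun W hW => List.all_eq_true.1 ((allR_eq _ _).symm.trans okA0w) W hW

theorem okA1u : cellOK 44 55 8 musA groupA1.1 = true := by
  decide +kernel

theorem okA1w : allR (fun W => linkTest 99 44 55 8 matA musA groupA1.1 W) groupA1.2 = true := by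
  decide +kernel

theorem okA1 : groupTest 99 44 55 8 matA musA groupA1 = true :=
  groupTest_of_links okA1u fun W hW => List.all_eq_true.1 ((allR_eq _ _).symm.trans okA1w) W hW

theorem okA2u : cellOK 44 55 8 musA groupA2.1 = true := by
  decide +kernel

theorem okA2w : allR (fun W => linkTest 99 44 55 8 matA musA groupA2.1 W) groupA2.2 = true := by
  decide +kernel

theorem okA2 : groupTest 99 44 55 8 matA musA groupA2 = true :=
  groupTest_of_links okA2u fun W hW => List.all_eq_true.1 ((allR_eq _ _).symm.trans okA2w) W hW

theorem okA3u : cellOK 44 55 8 musA groupA3.1 = true := by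
  decide +kernel

theorem okA3w : allR (fun W => linkTest 99 44 55 8 matA musA groupA3.1 W) groupA3.2 = true := by
  decide +kernel

theorem okA3 : groupTest 99 44 55 8 matA musA groupA3 = true :=
  groupTest_of_links okA3u fun W hW => List.all_eq_true.1 ((allR_eq _ _).symm.trans okA3w) W hW

theorem okA4u : cellOK 44 55 8 musA groupA4.1 = true := by
  decide +kernel

theorem okA4w : allR (fun W => linkTest 99 44 55 8 matA musA groupA4.1 W) groupA4.2 = true := by
  decide +kernel

theorem okA4 : groupTest 99 44 55 8 matA musA groupA4 = true :=
  groupTest_of_links okA4u fun W hW => List.all_eq_true.1 ((allR_eq _ _).symm.trans okA4w) W hW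

theorem okA5u : cellOK 44 55 8 musA groupA5.1 = true := by
  decide +kernel

theorem okA5w : allR (fun W => linkTest 99 44 55 8 matA musA groupA5.1 W) groupA5.2 = true := by
  decide +kernel

theorem okA5 : groupTest 99 44 55 8 matA musA groupA5 = true :=
  groupTest_of_links okA5u fun W hW => List.all_eq_true.1 ((allR_eq _ _).symm.trans okA5w) W hW

theorem okA6u : cellOK 44 55 8 musA groupA6.1 = true := by
  decide +kernel

theorem okA6w : allR (fun W => linkTest 99 44 55 8 matA musA groupA6.1 W) groupA6.2 = true := by
  decide +kernel

theorem okA6 : groupTest 99 44 55 8 matA musA groupA6 = true :=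
  groupTest_of_links okA6u fun W hW => List.all_eq_true.1 ((allR_eq _ _).symm.trans okA6w) W hW

theorem okA7u : cellOK 44 55 8 musA groupA7.1 = true := by
  decide +kernel

theorem okA7w : allR (fun W => linkTest 99 44 55 8 matA musA groupA7.1 W) groupA7.2 = true := by
  decide +kernel

theorem okA7 : groupTest 99 44 55 8 matA musA groupA7 = true :=
  groupTest_of_links okA7u fun W hW => List.all_eq_true.1 ((allR_eq _ _).symm.trans okA7w) W hW

theorem okA8u : cellOK 44 55 8 musA groupA8.1 = true := by
  decide +kernel

theorem okA8w : allR (fun W => linkTest 99 44 55 8 matA musA groupA8.1 W) groupA8.2 = true := by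
  decide +kernel

theorem okA8 : groupTest 99 44 55 8 matA musA groupA8 = true :=
  groupTest_of_links okA8u fun W hW => List.all_eq_true.1 ((allR_eq _ _).symm.trans okA8w) W hW

theorem okA9u : cellOK 44 55 8 musA groupA9.1 = true := by
  decide +kernel

theorem okA9w : allR (fun W => linkTest 99 44 55 8 matA musA groupA9.1 W) groupA9.2 = true := by
  decide +kernel

theorem okA9 : groupTest 99 44 55 8 matA musA groupA9 = true :=
  groupTest_of_links okA9u fun W hW => List.all_eq_true.1 ((allR_eq _ _).symm.trans okA9w) W hW

theorem okA10u : cellOK 44 55 8 musA groupA10.1 = true := by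
  decide +kernel

theorem okA10w : allR (fun W => linkTest 99 44 55 8 matA musA groupA10.1 W) groupA10.2 = true := by
  decide +kernel

theorem okA10 : groupTest 99 44 55 8 matA musA groupA10 = true :=
  groupTest_of_links okA10u fun W hW => List.all_eq_true.1 ((allR_eq _ _).symm.trans okA10w) W hW

theorem okA11u : cellOK 44 55 8 musA groupA11.1 = true := by
  decide +kernel

theorem okA11w : allR (fun W => linkTest 99 44 55 8 matA musA groupA11.1 W) groupA11.2 = true := by
  decide +kernel

theorem okA11 : groupTest 99 44 55 8 matA musA groupA11 = true :=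
  groupTest_of_links okA11u fun W hW => List.all_eq_true.1 ((allR_eq _ _).symm.trans okA11w) W hW

theorem okA12u : cellOK 44 55 8 musA groupA12.1 = true := by
  decide +kernel

theorem okA12w : allR (fun W => linkTest 99 44 55 8 matA musA groupA12.1 W) groupA12.2 = true := by
  decide +kernel

theorem okA12 : groupTest 99 44 55 8 matA musA groupA12 = true :=
  groupTest_of_links okA12u fun W hW => List.all_eq_true.1 ((allR_eq _ _).symm.trans okA12w) W hW

theorem okA13u : cellOK 44 55 8 musA groupA13.1 = true := by
  decide +kernel

theorem okA13w : allR (fun W => linkTest 99 44 55 8 matA musA groupA13.1 W) groupA13.2 = true := by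
  decide +kernel

theorem okA13 : groupTest 99 44 55 8 matA musA groupA13 = true :=
  groupTest_of_links okA13u fun W hW => List.all_eq_true.1 ((allR_eq _ _).symm.trans okA13w) W hW

theorem okA14u : cellOK 44 55 8 musA groupA14.1 = true := by
  decide +kernel

theorem okA14w : allR (fun W => linkTest 99 44 55 8 matA musA groupA14.1 W) groupA14.2 = true := by
  decide +kernel

theorem okA14 : groupTest 99 44 55 8 matA musA groupA14 = true :=
  groupTest_of_links okA14u fun W hW => List.all_eq_true.1 ((allR_eq _ _).symm.trans okA14w) W hW

theorem okA15u : cellOK 44 55 8 musA groupA15.1 = true := by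
  decide +kernel

theorem okA15w : allR (fun W => linkTest 99 44 55 8 matA musA groupA15.1 W) groupA15.2 = true := by
  decide +kernel

theorem okA15 : groupTest 99 44 55 8 matA musA groupA15 = true :=
  groupTest_of_links okA15u fun W hW => List.all_eq_true.1 ((allR_eq _ _).symm.trans okA15w) W hW

theorem okA16u : cellOK 44 55 8 musA groupA16.1 = true := by
  decide +kernel

theorem okA16w : allR (fun W => linkTest 99 44 55 8 matA musA groupA16.1 W) groupA16.2 = true := by
  decide +kernel

theorem okA16 : groupTest 99 44 55 8 matA musA groupA16 = true :=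
  groupTest_of_links okA16u fun W hW => List.all_eq_true.1 ((allR_eq _ _).symm.trans okA16w) W hW

theorem okA17u : cellOK 44 55 8 musA groupA17.1 = true := by
  decide +kernel

theorem okA17w : allR (fun W => linkTest 99 44 55 8 matA musA groupA17.1 W) groupA17.2 = true := by
  decide +kernel

theorem okA17 : groupTest 99 44 55 8 matA musA groupA17 = true :=
  groupTest_of_links okA17u fun W hW => List.all_eq_true.1 ((allR_eq _ _).symm.trans okA17w) W hW

theorem okA18u : cellOK 44 55 8 musA groupA18.1 = true := by
  decide +kernel

theorem okA18w : allR (fun W => linkTest 99 44 55 8 matA musA groupA18.1 W) groupA18.2 = true := by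
  decide +kernel

theorem okA18 : groupTest 99 44 55 8 matA musA groupA18 = true :=
  groupTest_of_links okA18u fun W hW => List.all_eq_true.1 ((allR_eq _ _).symm.trans okA18w) W hW

end Vale.Agent.P154.Q4
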