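import Vale.Agent.P154.Q4.RunA1

/-!
P154, four states: kernel runs of the test.
-/

namespace Vale.Agent.P154.Q4

theorem okA19u : cellOK 44 55 8 musA groupA19.1 = true := by
  decide +kernel

theorem okA19w : allR (fun W => linkTest 99 44 55 8 matA musA groupA19.1 W) groupA19.2 = true := by
  decide +kernel

theorem okA19 : groupTest 99 44 55 8 matA musA groupA19 = true :=
  groupTest_of_links okA19u fun W hW => List.all_eq_true.1 ((allR_eq _ _).symm.trans okA19w) W hW

theorem okA20u : cellOK 44 55 8 musA groupA20.1 = true := by
  decide +kernel

theorem okA20w : allR (fun W => linkTest 99 44 55 8 matA musA groupA20.1 W) groupA20.2 = true := by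
  decide +kernel

theorem okA20 : groupTest 99 44 55 8 matA musA groupA20 = true :=
  groupTest_of_links okA20u fun W hW => List.all_eq_true.1 ((allR_eq _ _).symm.trans okA20w) W hW

theorem okA21u : cellOK 44 55 8 musA groupA21.1 = true := by
  decide +kernel

theorem okA21w : allR (fun W => linkTest 99 44 55 8 matA musA groupA21.1 W) groupA21.2 = true := by
  decide +kernel

theorem okA21 : groupTest 99 44 55 8 matA musA groupA21 = true :=
  groupTest_of_links okA21u fun W hW => List.all_eq_true.1 ((allR_eq _ _).symm.trans okA21w) W hW

theorem okA22u : cellOK 44 55 8 musA groupA22.1 = true := by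
  decide +kernel

theorem okA22w : allR (fun W => linkTest 99 44 55 8 matA musA groupA22.1 W) groupA22.2 = true := by
  decide +kernel

theorem okA22 : groupTest 99 44 55 8 matA musA groupA22 = true :=
  groupTest_of_links okA22u fun W hW => List.all_eq_true.1 ((allR_eq _ _).symm.trans okA22w) W hW

theorem okA23u : cellOK 44 55 8 musA groupA23.1 = true := by
  decide +kernel

theorem okA23w : allR (fun W => linkTest 99 44 55 8 matA musA groupA23.1 W) groupA23.2 = true := by
  decide +kernel

theorem okA23 : groupTest 99 44 55 8 matA musA groupA23 = true :=
  groupTest_of_links okA23u fun W hW => List.all_eq_true.1 ((allR_eq _ _).symm.trans okA23w) W hW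

theorem okA24u : cellOK 44 55 8 musA groupA24.1 = true := by
  decide +kernel

theorem okA24w : allR (fun W => linkTest 99 44 55 8 matA musA groupA24.1 W) groupA24.2 = true := by
  decide +kernel

theorem okA24 : groupTest 99 44 55 8 matA musA groupA24 = true :=
  groupTest_of_links okA24u fun W hW => List.all_eq_true.1 ((allR_eq _ _).symm.trans okA24w) W hW

theorem okA25u : cellOK 44 55 8 musA groupA25.1 = true := by
  decide +kernel

theorem okA25w : allR (fun W => linkTest 99 44 55 8 matA musA groupA25.1 W) groupA25.2 = true := by
  decide +kernel

theorem okA25 : groupTest 99 44 55 8 matA musA groupA25 = true :=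
  groupTest_of_links okA25u fun W hW => List.all_eq_true.1 ((allR_eq _ _).symm.trans okA25w) W hW

theorem okA26u : cellOK 44 55 8 musA groupA26.1 = true := by
  decide +kernel

theorem okA26w : allR (fun W => linkTest 99 44 55 8 matA musA groupA26.1 W) groupA26.2 = true := by
  decide +kernel

theorem okA26 : groupTest 99 44 55 8 matA musA groupA26 = true :=
  groupTest_of_links okA26u fun W hW => List.all_eq_true.1 ((allR_eq _ _).symm.trans okA26w) W hW

theorem okA27u : cellOK 44 55 8 musA groupA27.1 = true := by
  decide +kernel

theorem okA27w : allR (fun W => linkTest 99 44 55 8 matA musA groupA27.1 W) groupA27.2 = true := by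
  decide +kernel

theorem okA27 : groupTest 99 44 55 8 matA musA groupA27 = true :=
  groupTest_of_links okA27u fun W hW => List.all_eq_true.1 ((allR_eq _ _).symm.trans okA27w) W hW

theorem okA28u : cellOK 44 55 8 musA groupA28.1 = true := by
  decide +kernel

theorem okA28w : allR (fun W => linkTest 99 44 55 8 matA musA groupA28.1 W) groupA28.2 = true := by
  decide +kernel

theorem okA28 : groupTest 99 44 55 8 matA musA groupA28 = true :=
  groupTest_of_links okA28u fun W hW => List.all_eq_true.1 ((allR_eq _ _).symm.trans okA28w) W hW

theorem okA29u : cellOK 44 55 8 musA groupA29.1 = true := by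
  decide +kernel

theorem okA29w : allR (fun W => linkTest 99 44 55 8 matA musA groupA29.1 W) groupA29.2 = true := by
  decide +kernel

theorem okA29 : groupTest 99 44 55 8 matA musA groupA29 = true :=
  groupTest_of_links okA29u fun W hW => List.all_eq_true.1 ((allR_eq _ _).symm.trans okA29w) W hW

theorem okA30u : cellOK 44 55 8 musA groupA30.1 = true := by
  decide +kernel

theorem okA30w : allR (fun W => linkTest 99 44 55 8 matA musA groupA30.1 W) groupA30.2 = true := by
  decide +kernel

theorem okA30 : groupTest 99 44 55 8 matA musA groupA30 = true :=
  groupTest_of_links okA30u fun W hW => List.all_eq_true.1 ((allR_eq _ _).symm.trans okA30w) W hW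

theorem okA31u : cellOK 44 55 8 musA groupA31.1 = true := by
  decide +kernel

theorem okA31w : allR (fun W => linkTest 99 44 55 8 matA musA groupA31.1 W) groupA31.2 = true := by
  decide +kernel

theorem okA31 : groupTest 99 44 55 8 matA musA groupA31 = true :=
  groupTest_of_links okA31u fun W hW => List.all_eq_true.1 ((allR_eq _ _).symm.trans okA31w) W hW

theorem okA32u : cellOK 44 55 8 musA groupA32.1 = true := by
  decide +kernel

theorem okA32w : allR (fun W => linkTest 99 44 55 8 matA musA groupA32.1 W) groupA32.2 = true := by
  decide +kernel

theorem okA32 : groupTest 99 44 55 8 matA musA groupA32 = true :=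
  groupTest_of_links okA32u fun W hW => List.all_eq_true.1 ((allR_eq _ _).symm.trans okA32w) W hW

theorem okA33u : cellOK 44 55 8 musA groupA33.1 = true := by
  decide +kernel

theorem okA33w : allR (fun W => linkTest 99 44 55 8 matA musA groupA33.1 W) groupA33.2 = true := by
  decide +kernel

theorem okA33 : groupTest 99 44 55 8 matA musA groupA33 = true :=
  groupTest_of_links okA33u fun W hW => List.all_eq_true.1 ((allR_eq _ _).symm.trans okA33w) W hW

theorem okA34u : cellOK 44 55 8 musA groupA34.1 = true := by
  decide +kernel

theorem okA34w : allR (fun W => linkTest 99 44 55 8 matA musA groupA34.1 W) groupA34.2 = true := by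
  decide +kernel

theorem okA34 : groupTest 99 44 55 8 matA musA groupA34 = true :=
  groupTest_of_links okA34u fun W hW => List.all_eq_true.1 ((allR_eq _ _).symm.trans okA34w) W hW

theorem okA35u : cellOK 44 55 8 musA groupA35.1 = true := by
  decide +kernel

theorem okA35w : allR (fun W => linkTest 99 44 55 8 matA musA groupA35.1 W) groupA35.2 = true := by
  decide +kernel

theorem okA35 : groupTest 99 44 55 8 matA musA groupA35 = true :=
  groupTest_of_links okA35u fun W hW => List.all_eq_true.1 ((allR_eq _ _).symm.trans okA35w) W hW

theorem okA36u : cellOK 44 55 8 musA groupA36.1 = true := by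
  decide +kernel

theorem okA36w : allR (fun W => linkTest 99 44 55 8 matA musA groupA36.1 W) groupA36.2 = true := by
  decide +kernel

theorem okA36 : groupTest 99 44 55 8 matA musA groupA36 = true :=
  groupTest_of_links okA36u fun W hW => List.all_eq_true.1 ((allR_eq _ _).symm.trans okA36w) W hW

theorem okA37u : cellOK 44 55 8 musA groupA37.1 = true := by
  decide +kernel

theorem okA37w : allR (fun W => linkTest 99 44 55 8 matA musA groupA37.1 W) groupA37.2 = true := by
  decide +kernel

theorem okA37 : groupTest 99 44 55 8 matA musA groupA37 = true :=
  groupTest_of_links okA37u fun W hW => List.all_eq_true.1 ((allR_eq _ _).symm.trans okA37w) W hW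

end Vale.Agent.P154.Q4
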