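import Vale.Agent.P154.Q4.PartTest

/-!
P154, four states: kernel runs of the test.
-/

namespace Vale.Agent.P154.Q4

theorem okI0u : cellOK 46 59 14 musI groupI0.1 = true := by
  decide +kernel

theorem okI0a : cellOK 46 59 14 musI
    (groupI0.2.getD 0 groupI0.1) = true := by
  decide +kernel

theorem okI0a0 : partR 134 59 14 matI musI groupI0.1
    (groupI0.2.getD 0 groupI0.1) 0 = true := by
  decide +kernel

theorem okI0a1 : partR 134 59 14 matI musI groupI0.1
    (groupI0.2.getD 0 groupI0.1) 1 = true := by
  decide +kernel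

theorem okI0a2 : partR 134 59 14 matI musI groupI0.1
    (groupI0.2.getD 0 groupI0.1) 2 = true := by
  decide +kernel

theorem okI0a3 : partR 134 59 14 matI musI groupI0.1
    (groupI0.2.getD 0 groupI0.1) 3 = true := by
  decide +kernel

theorem okI0b : cellOK 46 59 14 musI
    (groupI0.2.getD 1 groupI0.1) = true := by
  decide +kernel

theorem okI0b0 : partR 134 59 14 matI musI groupI0.1
    (groupI0.2.getD 1 groupI0.1) 0 = true := by
  decide +kernel

theorem okI0b1 : partR 134 59 14 matI musI groupI0.1
    (groupI0.2.getD 1 groupI0.1) 1 = true := by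
  decide +kernel

theorem okI0b2 : partR 134 59 14 matI musI groupI0.1
    (groupI0.2.getD 1 groupI0.1) 2 = true := by
  decide +kernel

theorem okI0b3 : partR 134 59 14 matI musI groupI0.1
    (groupI0.2.getD 1 groupI0.1) 3 = true := by
  decide +kernel

theorem okI0 : GroupPos matI musI groupI0 :=
  groupPos_of_parts okI0u (List.forall_mem_cons.2
    ⟨⟨okI0a, pairPos_of_parts okI0a0 okI0a1 okI0a2 okI0a3⟩, List.forall_mem_cons.2
    ⟨⟨okI0b, pairPos_of_parts okI0b0 okI0b1 okI0b2 okI0b3⟩, fun _ h => absurd h List.not_mem_nil⟩⟩)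

end Vale.Agent.P154.Q4
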