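import Vale.Agent.P154.Q4.RunI3

/-!
P154, four states: kernel runs of the test.
-/

namespace Vale.Agent.P154.Q4

theorem okI3u : cellOK 46 59 14 musI groupI3.1 = true := by
  decide +kernel

theorem okI3a : cellOK 46 59 14 musI
    (groupI3.2.getD 0 groupI3.1) = true := by
  decide +kernel

theorem okI3a0 : partR 134 59 14 matI musI groupI3.1
    (groupI3.2.getD 0 groupI3.1) 0 = true := by
  decide +kernel

theorem okI3a1 : partR 134 59 14 matI musI groupI3.1
    (groupI3.2.getD 0 groupI3.1) 1 = true := by
  decide +kernel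

theorem okI3a2 : partR 134 59 14 matI musI groupI3.1
    (groupI3.2.getD 0 groupI3.1) 2 = true := by
  decide +kernel

theorem okI3a3 : partR 134 59 14 matI musI groupI3.1
    (groupI3.2.getD 0 groupI3.1) 3 = true := by
  decide +kernel

theorem okI3 : GroupPos matI musI groupI3 :=
  groupPos_of_parts okI3u (List.forall_mem_cons.2
    ⟨⟨okI3a, pairPos_of_parts okI3a0 okI3a1 okI3a2 okI3a3⟩, fun _ h => absurd h List.not_mem_nil⟩)

end Vale.Agent.P154.Q4
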